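import Vale.Agent.P275.H341.Orb

/-!
# Sums over the orbits of full rank
-/

set_option linter.style.haveILetI false
set_option linter.unusedSectionVars false

namespace Vale.Agent.P275.H341

open scoped BigOperators MatrixGroups
open Module Matrix Vale.Agent.P275.H85

variable {F : Type} [Field F] [Fintype F] [DecidableEq F]

theorem finite_cu (d : ℕ) : Set.Finite {c : Cu F | c.s = d} := by
  classical
  by_cases hd : 0 < d
  · haveI : Finite {χ : GL (Fin d) F → ℂ // IsIrrChar χ ∧ CuspB (toCF χ)} := by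
      have h1 : Set.Finite {χ : GL (Fin d) F → ℂ | IsIrrChar χ ∧ CuspB (toCF χ)} := by
        have := (irrSet (GL (Fin d) F)).finite_toSet
        refine this.subset ?_
        intro χ hχ
        exact mem_irrSet.mpr hχ.1
      exact h1
    let f : {χ : GL (Fin d) F → ℂ // IsIrrChar χ ∧ CuspB (toCF χ)} → Cu F :=
      fun χ => ⟨d, χ.1, hd, χ.2.1, χ.2.2⟩
    refine (Set.finite_range f).subset ?_
    rintro ⟨s, χ, h1, h2, h3⟩ h
    have h' : s = d := h
    subst h'
    exact ⟨⟨χ, h2, h3⟩, rfl⟩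
  · have : {c : Cu F | c.s = d} = ∅ := by
      ext c
      have := c.pos
      simp only [Set.mem_ofPred_eq, Set.mem_empty_iff_false, iff_false]
      omega
    rw [this]
    exact Set.finite_empty

/-- the cuspidal characters of given size -/
noncomputable def cuS (F : Type) [Field F] [Fintype F] [DecidableEq F] (d : ℕ) : Finset (Cu F) :=
  (finite_cu (F := F) d).toFinset

theorem mem_cuS {d : ℕ} {c : Cu F} : c ∈ cuS F d ↔ c.s = d := by
  unfold cuS
  rw [Set.Finite.mem_toFinset]
  rfl

open scoped Classical in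
/-- the sum over the cuspidal characters of size `d` fixed by `κ` -/
noncomputable def Acus (F : Type) [Field F] [Fintype F] [DecidableEq F] (d : ℕ) (κ : Fˣ →* ℂˣ)
    (z : Fˣ) : ℂ := ∑ c ∈ (cuS F d).filter (fun c => c.twist κ = c), wt c.χ z

/-- cuspidal characters of size `2 s` whose orbit has length exactly `j` -/
noncomputable def Es (F : Type) [Field F] [Fintype F] [DecidableEq F] (d : ℕ) (κ : Fˣ →* ℂˣ)
    (j : ℕ) : Finset (Cu F) :=
  @Finset.filter _ (fun c : Cu F => c.twist (κ ^ j) = c ∧ (orb c κ j).Nodup)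
    (Classical.decPred _) (cuS F d)

theorem mem_Es {d : ℕ} {κ : Fˣ →* ℂˣ} {j : ℕ} {c : Cu F} :
    c ∈ Es F d κ j ↔ c.s = d ∧ c.twist (κ ^ j) = c ∧ (orb c κ j).Nodup := by
  unfold Es
  exact (@Finset.mem_filter _ _ (Classical.decPred _) _ _).trans (and_congr mem_cuS Iff.rfl)

theorem untwist {κ : Fˣ →* ℂˣ} {c : Cu F} {i k : ℕ}
    (h : c.twist (κ ^ i) = c.twist (κ ^ (i + k))) : c.twist (κ ^ k) = c := by
  have h1 : Rel κ (c.twist (κ ^ i)) c := Rel.symm ⟨i, rfl⟩
  obtain ⟨a, ha⟩ := h1
  have h2 : (c.twist (κ ^ i)).twist (κ ^ a) = (c.twist (κ ^ (i + k))).twist (κ ^ a) := by rw [h]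
  rw [ha, ← twist_add, twist_add, add_comm k a, ← twist_add, ha] at h2
  exact h2.symm

/-- the exact orbits -/
theorem sum_Es {m s : ℕ} (hm : 0 < m) (hs : s ∣ m) {κ : Fˣ →* ℂˣ} (hκ : orderOf κ = m) (z : Fˣ) :
    ∑ c ∈ Es F (2 * s) κ (m / s), wt c.χ z
      = Acus F (2 * s) (κ ^ (m / s)) z -
        (if 2 * s ∣ m then Acus F (2 * s) (κ ^ (m / (2 * s))) z else 0) := by
  classical
  obtain ⟨j, hj⟩ := hs
  have hspos : 0 < s := Nat.pos_of_ne_zero (by rintro rfl; omega)
  have hjpos : 0 < j := Nat.pos_of_ne_zero (by rintro rfl; omega)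
  have hdiv : m / s = j := by rw [hj]; exact Nat.mul_div_cancel_left _ hspos
  rw [hdiv]
  unfold Acus
  split_ifs with h2
  · obtain ⟨k, hk⟩ := h2
    have hkpos : 0 < k := Nat.pos_of_ne_zero (by rintro rfl; omega)
    have hdiv2 : m / (2 * s) = k := by rw [hk]; exact Nat.mul_div_cancel_left _ (by omega)
    have hjk : j = 2 * k := by
      have : s * j = s * (2 * k) := by rw [← hj, hk]; ring
      exact Nat.eq_of_mul_eq_mul_left hspos this
    rw [hdiv2]
    have hsub : (cuS F (2 * s)).filter (fun c => c.twist (κ ^ k) = c)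
        ⊆ (cuS F (2 * s)).filter (fun c => c.twist (κ ^ j) = c) := by
      intro c hc
      rw [Finset.mem_filter] at hc ⊢
      refine ⟨hc.1, ?_⟩
      rw [hjk, mul_comm]
      exact twist_mul_per hc.2 2
    rw [eq_sub_iff_add_eq]
    rw [← Finset.sum_sdiff hsub]
    congr 1
    apply Finset.sum_congr _ (fun _ _ => rfl)
    ext c
    rw [mem_Es, Finset.mem_sdiff, Finset.mem_filter, Finset.mem_filter, mem_cuS]
    constructor
    · rintro ⟨h3, h4, h5⟩
      refine ⟨⟨h3, h4⟩, ?_⟩
      rintro ⟨_, h6⟩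
      have h7 : c.twist (κ ^ 0) = c.twist (κ ^ k) := by rw [hpow_zero, Cu.twist_one, h6]
      unfold orb at h5
      have h8 := (List.nodup_map_iff_inj_on List.nodup_range).mp h5 0 (List.mem_range.mpr hjpos) k
        (List.mem_range.mpr (by omega)) h7
      omega
    · rintro ⟨⟨h3, h4⟩, h5⟩
      refine ⟨h3, h4, ?_⟩
      by_contra hnd
      apply h5
      refine ⟨h3, ?_⟩
      unfold orb at hnd
      rw [List.nodup_map_iff_inj_on List.nodup_range] at hnd
      push Not at hnd
      obtain ⟨a, ha, b, hb, hab, hne⟩ := hnd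
      rw [List.mem_range] at ha hb
      wlog hlt : a < b generalizing a b with H
      · exact H b hb a ha hab.symm (Ne.symm hne) (by omega)
      have h9 := twist_eq_dvd hκ hlt.le hab
      obtain ⟨t, ht⟩ := h9
      have h10 : (b - a) * c.s < 2 * m := by
        rw [h3, hj]
        have : b - a < j := by omega
        nlinarith
      have h11 : 0 < (b - a) * c.s := Nat.mul_pos (by omega) c.pos
      have h12 : t = 1 := by
        have : m * t < m * 2 := by rw [← ht]; omega
        have h13 := Nat.lt_of_mul_lt_mul_left this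
        have h14 : 0 < t := Nat.pos_of_ne_zero (by rintro rfl; omega)
        omega
      rw [h12, mul_one, h3, hk] at ht
      have h15 : b - a = k := by
        apply Nat.eq_of_mul_eq_mul_left (show 0 < 2 * s by omega)
        rw [← ht]; ring
      have h16 : b = a + k := by omega
      rw [h16] at hab
      exact untwist hab
  · rw [sub_zero]
    apply Finset.sum_congr _ (fun _ _ => rfl)
    ext c
    rw [mem_Es, Finset.mem_filter, mem_cuS]
    constructor
    · rintro ⟨h3, h4, _⟩
      exact ⟨h3, h4⟩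
    · rintro ⟨h3, h4⟩
      refine ⟨h3, h4, ?_⟩
      by_contra hnd
      unfold orb at hnd
      rw [List.nodup_map_iff_inj_on List.nodup_range] at hnd
      push Not at hnd
      obtain ⟨a, ha, b, hb, hab, hne⟩ := hnd
      rw [List.mem_range] at ha hb
      wlog hlt : a < b generalizing a b with H
      · exact H b hb a ha hab.symm (Ne.symm hne) (by omega)
      have h9 := twist_eq_dvd hκ hlt.le hab
      obtain ⟨t, ht⟩ := h9
      have h10 : (b - a) * c.s < 2 * m := by
        rw [h3, hj]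
        have : b - a < j := by omega
        nlinarith
      have h11 : 0 < (b - a) * c.s := Nat.mul_pos (by omega) c.pos
      have h12 : t = 1 := by
        have : m * t < m * 2 := by rw [← ht]; omega
        have h13 := Nat.lt_of_mul_lt_mul_left this
        have h14 : 0 < t := Nat.pos_of_ne_zero (by rintro rfl; omega)
        omega
      rw [h12, mul_one, h3] at ht
      exact h2 ⟨b - a, by rw [← ht]; ring⟩

/-- the character of an orbit of full rank -/
noncomputable def chO {m : ℕ} (κ : Fˣ →* ℂˣ) (j : ℕ) (c : Cu F) : GL (Fin (m + m)) F → ℂ :=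
  rs (m + m) (prodC (orb c κ j))

theorem chO_eq_iff {m : ℕ} {κ : Fˣ →* ℂˣ} {j j' : ℕ} {c c' : Cu F} (hj : 0 < j) (hj' : 0 < j')
    (hs : j * c.s = m + m) (_hs' : j' * c'.s = m + m)
    (h : c.twist (κ ^ j) = c) (h' : c'.twist (κ ^ j') = c') (hnd : (orb c κ j).Nodup)
    (hnd' : (orb c' κ j').Nodup) :
    chO (m := m) κ j c = chO κ j' c' ↔ Rel κ c c' := by
  constructor
  · intro heq
    have h1 : pair (orb c κ j) (orb c' κ j') ≠ 0 := by
      have h2 := pair_nodup _ hnd _ (List.Perm.refl _)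
      unfold pair at h2 ⊢
      rw [size_orb, hs] at h2 ⊢
      unfold chO at heq
      rw [← heq, h2]
      exact one_ne_zero
    have h3 := perm_of_pair _ _ h1
    have h4 : c ∈ orb c' κ j' := h3.subset (mem_orb_self hj)
    exact Rel.symm ((mem_orb_iff hj' h').mp h4)
  · intro hr
    have h1 := eq_of_perm hnd (orb_perm_of_rel hj hj' h h' hnd hnd' hr)
    rw [size_orb, hs] at h1
    exact h1

open scoped Classical in
/-- sum over the orbits of given length -/
theorem sum_image_Es {m s : ℕ} (hm : 0 < m) (hs : s ∣ m) {κ : Fˣ →* ℂˣ}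
    (G : (GL (Fin (m + m)) F → ℂ) → ℂ) :
    ∑ c ∈ Es F (2 * s) κ (m / s), G (chO κ (m / s) c)
      = ((m / s : ℕ) : ℂ) * ∑ χ ∈ (Es F (2 * s) κ (m / s)).image (chO (m := m) κ (m / s)), G χ := by
  obtain ⟨j, hj⟩ := hs
  have hspos : 0 < s := Nat.pos_of_ne_zero (by rintro rfl; omega)
  have hjpos : 0 < j := Nat.pos_of_ne_zero (by rintro rfl; omega)
  have hdiv : m / s = j := by rw [hj]; exact Nat.mul_div_cancel_left _ hspos
  rw [hdiv]
  rw [← Finset.sum_fiberwise_of_maps_to (s := Es F (2 * s) κ j)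
    (t := (Es F (2 * s) κ j).image (chO (m := m) κ j)) (g := chO (m := m) κ j)
    (fun c hc => Finset.mem_image_of_mem _ hc), Finset.mul_sum]
  apply Finset.sum_congr rfl
  intro χ hχ
  obtain ⟨c, hc, rfl⟩ := Finset.mem_image.mp hχ
  have hc' := mem_Es.mp hc
  have hsz : j * c.s = m + m := by rw [hc'.1, hj]; ring
  have e1 : (Es F (2 * s) κ j).filter (fun c' => chO (m := m) κ j c' = chO κ j c)
      = (orb c κ j).toFinset := by
    ext c'
    rw [Finset.mem_filter, List.mem_toFinset, mem_orb_iff hjpos hc'.2.1, mem_Es]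
    constructor
    · rintro ⟨⟨h1, h2, h3⟩, h4⟩
      have hsz' : j * c'.s = m + m := by rw [h1, hj]; ring
      exact Rel.symm ((chO_eq_iff hjpos hjpos hsz' hsz h2 hc'.2.1 h3 hc'.2.2).mp h4)
    · intro hr
      have hr' : Rel κ c c' := hr
      have h1 : c'.s = 2 * s := by rw [hr'.s_eq, hc'.1]
      have h2 := per_of_rel hc'.2.1 hr'
      have h3 := nodup_of_rel hjpos hc'.2.1 hc'.2.2 hr'
      have hsz' : j * c'.s = m + m := by rw [h1, hj]; ring
      exact ⟨⟨h1, h2, h3⟩, (chO_eq_iff hjpos hjpos hsz' hsz h2 hc'.2.1 h3 hc'.2.2).mpr hr'.symm⟩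
  have e2 : ∀ c' ∈ (Es F (2 * s) κ j).filter (fun c' => chO (m := m) κ j c' = chO κ j c),
      G (chO κ j c') = G (chO κ j c) := by
    intro c' hc2
    rw [(Finset.mem_filter.mp hc2).2]
  rw [Finset.sum_congr rfl e2, Finset.sum_const, e1, List.toFinset_card_of_nodup hc'.2.2,
    orb_length, nsmul_eq_mul]

end Vale.Agent.P275.H341
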