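import Vale.Agent.P275.H341.Wt
import Vale.Agent.P275.H341.Sum1

/-!
# Orbits of the cuspidal characters under twisting
-/

set_option linter.style.haveILetI false
set_option linter.unusedSectionVars false

namespace Vale.Agent.P275.H341

open scoped BigOperators MatrixGroups
open Module Matrix Vale.Agent.P275.H85

variable {F : Type} [Field F] [Fintype F] [DecidableEq F]

/-- the cuspidal character as an element of the basis -/
def emb (c : Cu F) : IrrF F := ⟨c.s, ⟨c.χ, c.irr⟩⟩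

theorem emb_inj : Function.Injective (emb : Cu F → IrrF F) := by
  intro c c' h
  obtain ⟨s, χ, h1, h2, h3⟩ := c
  obtain ⟨s', χ', h1', h2', h3'⟩ := c'
  unfold emb at h
  injection h with e1 e2
  subst e1
  have e3 := congrArg Subtype.val (eq_of_heq e2)
  dsimp only at e3
  subst e3
  rfl

theorem emb_twist (κ : Fˣ →* ℂˣ) (c : Cu F) : twI κ (emb c) = emb (c.twist κ) := rfl

theorem exists_per (κ : Fˣ →* ℂˣ) (c : Cu F) : ∃ j, 0 < j ∧ c.twist (κ ^ j) = c := by
  refine ⟨orderOf κ, orderOf_pos' κ, ?_⟩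
  have h3 : κ ^ orderOf κ = 1 := pow_orderOf_eq_one κ
  rw [h3, Cu.twist_one]

open scoped Classical in
/-- the length of the orbit -/
noncomputable def per (κ : Fˣ →* ℂˣ) (c : Cu F) : ℕ := Nat.find (exists_per κ c)

theorem per_pos (κ : Fˣ →* ℂˣ) (c : Cu F) : 0 < per κ c := by
  classical
  exact (Nat.find_spec (exists_per κ c)).1

theorem per_spec (κ : Fˣ →* ℂˣ) (c : Cu F) : c.twist (κ ^ per κ c) = c := by
  classical
  exact (Nat.find_spec (exists_per κ c)).2

theorem per_min {κ : Fˣ →* ℂˣ} {c : Cu F} {i : ℕ} (h0 : 0 < i) (h1 : i < per κ c) :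
    c.twist (κ ^ i) ≠ c := by
  classical
  intro h
  exact Nat.find_min (exists_per κ c) h1 ⟨h0, h⟩

theorem orb_per_nodup (κ : Fˣ →* ℂˣ) (c : Cu F) : (orb c κ (per κ c)).Nodup := by
  unfold orb
  rw [List.nodup_map_iff_inj_on List.nodup_range]
  have key : ∀ a b, a < b → b < per κ c → c.twist (κ ^ a) ≠ c.twist (κ ^ b) := by
    intro a b hab hb h
    obtain ⟨k, rfl⟩ : ∃ k, b = a + k := ⟨b - a, by omega⟩
    exact per_min (by omega) (by omega) (untwist h)
  intro a ha b hb h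
  rw [List.mem_range] at ha hb
  rcases lt_trichotomy a b with h1 | h1 | h1
  · exact absurd h (key a b h1 hb)
  · exact h1
  · exact absurd h.symm (key b a h1 ha)

theorem per_eq {κ : Fˣ →* ℂˣ} {c : Cu F} {j : ℕ} (hj : 0 < j) (h : c.twist (κ ^ j) = c)
    (hnd : (orb c κ j).Nodup) : per κ c = j := by
  classical
  apply le_antisymm
  · exact Nat.find_min' (exists_per κ c) ⟨hj, h⟩
  · by_contra hlt
    push Not at hlt
    unfold orb at hnd
    rw [List.nodup_map_iff_inj_on List.nodup_range] at hnd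
    have h1 := hnd (per κ c) (List.mem_range.mpr hlt) 0 (List.mem_range.mpr hj)
      (by rw [per_spec, hpow_zero, Cu.twist_one])
    exact (per_pos κ c).ne' h1

theorem mem_Es_iff {d : ℕ} {κ : Fˣ →* ℂˣ} {j : ℕ} (hj : 0 < j) {c : Cu F} :
    c ∈ Es F d κ j ↔ c.s = d ∧ per κ c = j := by
  rw [mem_Es]
  constructor
  · rintro ⟨h1, h2, h3⟩
    exact ⟨h1, per_eq hj h2 h3⟩
  · rintro ⟨h1, h2⟩
    refine ⟨h1, ?_, ?_⟩
    · rw [← h2]
      exact per_spec κ c
    · rw [← h2]
      exact orb_per_nodup κ c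

theorem per_rel {κ : Fˣ →* ℂˣ} {c c' : Cu F} (h : Rel κ c c') : per κ c' = per κ c := by
  obtain ⟨i, rfl⟩ := h
  have key : ∀ k, (c.twist (κ ^ i)).twist (κ ^ k) = c.twist (κ ^ i) ↔ c.twist (κ ^ k) = c := by
    intro k
    rw [twist_add]
    constructor
    · intro h
      exact untwist h.symm
    · intro h
      rw [add_comm, ← twist_add, h]
  unfold per
  congr 1
  funext k
  rw [key]

theorem rel_equiv (κ : Fˣ →* ℂˣ) : Equivalence (Rel κ : Cu F → Cu F → Prop) :=
  ⟨Rel.refl κ, Rel.symm, Rel.trans⟩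

/-- the orbit relation -/
def relS (κ : Fˣ →* ℂˣ) : Setoid (Cu F) := ⟨Rel κ, rel_equiv κ⟩

/-- the chosen representative of an orbit -/
noncomputable def rep (κ : Fˣ →* ℂˣ) (c : Cu F) : Cu F :=
  Quotient.out (Quotient.mk (relS κ) c)

theorem rep_rel (κ : Fˣ →* ℂˣ) (c : Cu F) : Rel κ (rep κ c) c :=
  Quotient.exact (s := relS κ) (Quotient.out_eq _)

theorem rep_eq {κ : Fˣ →* ℂˣ} {c c' : Cu F} (h : Rel κ c c') : rep κ c = rep κ c' := by
  unfold rep
  rw [Quotient.sound (s := relS κ) h]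

theorem rep_rep (κ : Fˣ →* ℂˣ) (c : Cu F) : rep κ (rep κ c) = rep κ c := rep_eq (rep_rel κ c)

open scoped Classical in
/-- the cuspidal characters of size at most `n` -/
noncomputable def cuA (F : Type) [Field F] [Fintype F] [DecidableEq F] (n : ℕ) : Finset (Cu F) :=
  (Finset.range (n + 1)).biUnion (cuS F)

theorem mem_cuA {n : ℕ} {c : Cu F} : c ∈ cuA F n ↔ c.s ≤ n := by
  classical
  unfold cuA
  rw [Finset.mem_biUnion]
  constructor
  · rintro ⟨i, hi, hc⟩
    rw [mem_cuS] at hc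
    rw [Finset.mem_range] at hi
    omega
  · intro h
    exact ⟨c.s, Finset.mem_range.mpr (by omega), mem_cuS.mpr rfl⟩

open scoped Classical in
/-- the representatives of the orbits -/
noncomputable def reps (F : Type) [Field F] [Fintype F] [DecidableEq F] (κ : Fˣ →* ℂˣ) (n : ℕ) :
    Finset (Cu F) := (cuA F n).image (rep κ)

theorem mem_reps {κ : Fˣ →* ℂˣ} {n : ℕ} {c : Cu F} :
    c ∈ reps F κ n ↔ c.s ≤ n ∧ rep κ c = c := by
  classical
  unfold reps
  rw [Finset.mem_image]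
  constructor
  · rintro ⟨c', hc', rfl⟩
    rw [mem_cuA, (rep_rel κ c').s_eq] at hc'
    exact ⟨hc', rep_rep κ c'⟩
  · rintro ⟨h1, h2⟩
    exact ⟨c, mem_cuA.mpr h1, h2⟩

/-- sum over the orbits -/
theorem sum_reps (κ : Fˣ →* ℂˣ) (n : ℕ) (f : Cu F → ℂ) (hf : ∀ c c', Rel κ c c' → f c' = f c) :
    ∑ c ∈ cuA F n, f c = ∑ c ∈ reps F κ n, (per κ c : ℂ) * f c := by
  classical
  have hmap : ∀ c ∈ cuA F n, rep κ c ∈ reps F κ n := fun c hc => Finset.mem_image_of_mem _ hc
  rw [← Finset.sum_fiberwise_of_maps_to hmap]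
  apply Finset.sum_congr rfl
  intro q hq
  rw [mem_reps] at hq
  have h1 : (cuA F n).filter (fun c => rep κ c = q) = (orb q κ (per κ q)).toFinset := by
    ext c
    rw [Finset.mem_filter, List.mem_toFinset, mem_orb_iff (per_pos κ q) (per_spec κ q), mem_cuA]
    constructor
    · rintro ⟨_, rfl⟩
      exact rep_rel κ c
    · intro h
      have h' : Rel κ q c := h
      refine ⟨?_, ?_⟩
      · rw [h'.s_eq]
        exact hq.1
      · rw [← rep_eq h', hq.2]
  have h2 : ∀ c ∈ (cuA F n).filter (fun c => rep κ c = q), f c = f q := by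
    intro c hc
    apply hf
    rw [Finset.mem_filter] at hc
    rw [← hc.2]
    exact rep_rel κ c
  show ∑ c ∈ (cuA F n).filter (fun c => rep κ c = q), f c = _
  rw [Finset.sum_congr rfl h2, Finset.sum_const, nsmul_eq_mul, h1,
    List.toFinset_card_of_nodup (orb_per_nodup κ q)]
  congr 2
  unfold orb
  simp

/-- regrouping by the size and the length of the orbit -/
theorem sum_group {n : ℕ} (hn : 0 < n) (κ : Fˣ →* ℂˣ) (G : ℕ → ℕ → Cu F → ℂ) :
    ∑ c ∈ cuA F n, (if per κ c * c.s ∣ n then G c.s (per κ c) c else 0)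
      = ∑ d ∈ n.divisors, ∑ j ∈ (n / d).divisors, ∑ c ∈ Es F d κ j, G d j c := by
  classical
  rw [← Finset.sum_filter]
  have h1 : (cuA F n).filter (fun c => per κ c * c.s ∣ n)
      = n.divisors.biUnion fun d => (n / d).divisors.biUnion fun j => Es F d κ j := by
    ext c
    rw [Finset.mem_filter, mem_cuA, Finset.mem_biUnion]
    constructor
    · rintro ⟨_, h⟩
      have h2 : c.s ∣ n := dvd_trans (Dvd.intro_left _ rfl) h
      refine ⟨c.s, Nat.mem_divisors.mpr ⟨h2, hn.ne'⟩, ?_⟩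
      rw [Finset.mem_biUnion]
      refine ⟨per κ c, Nat.mem_divisors.mpr ⟨?_, ?_⟩, ?_⟩
      · obtain ⟨k, hk⟩ := h
        refine ⟨k, ?_⟩
        rw [hk, show per κ c * c.s * k = c.s * (per κ c * k) from by ring,
          Nat.mul_div_cancel_left _ c.pos]
      · exact (Nat.div_pos (Nat.le_of_dvd hn h2) c.pos).ne'
      · rw [mem_Es_iff (per_pos κ c)]
        exact ⟨rfl, rfl⟩
    · rintro ⟨d, hd, h⟩
      rw [Finset.mem_biUnion] at h
      obtain ⟨j, hj, h⟩ := h
      have hj' := Nat.mem_divisors.mp hj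
      have hd' := (Nat.mem_divisors.mp hd).1
      rw [mem_Es_iff (Nat.pos_of_dvd_of_pos hj'.1 (Nat.pos_of_ne_zero hj'.2))] at h
      obtain ⟨rfl, rfl⟩ := h
      refine ⟨Nat.le_of_dvd hn hd', ?_⟩
      have h3 := Nat.mul_dvd_mul hj'.1 (dvd_refl c.s)
      rwa [Nat.div_mul_cancel hd'] at h3
  rw [h1, Finset.sum_biUnion]
  · apply Finset.sum_congr rfl
    intro d hd
    rw [Finset.sum_biUnion]
    · apply Finset.sum_congr rfl
      intro j hj
      apply Finset.sum_congr rfl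
      intro c hc
      have hj' := Nat.mem_divisors.mp hj
      rw [mem_Es_iff (Nat.pos_of_dvd_of_pos hj'.1 (Nat.pos_of_ne_zero hj'.2))] at hc
      rw [hc.1, hc.2]
    · intro j hj j' hj' hne
      show Disjoint _ _
      rw [Finset.disjoint_left]
      intro c hc hc'
      have e1 := Nat.mem_divisors.mp hj
      have e2 := Nat.mem_divisors.mp hj'
      rw [mem_Es_iff (Nat.pos_of_dvd_of_pos e1.1 (Nat.pos_of_ne_zero e1.2))] at hc
      rw [mem_Es_iff (Nat.pos_of_dvd_of_pos e2.1 (Nat.pos_of_ne_zero e2.2))] at hc'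
      exact hne (hc.2.symm.trans hc'.2)
  · intro d hd d' hd' hne
    show Disjoint _ _
    rw [Finset.disjoint_left]
    intro c hc hc'
    rw [Finset.mem_biUnion] at hc hc'
    obtain ⟨j, hj, hc⟩ := hc
    obtain ⟨j', hj', hc'⟩ := hc'
    have e1 := Nat.mem_divisors.mp hj
    have e2 := Nat.mem_divisors.mp hj'
    rw [mem_Es_iff (Nat.pos_of_dvd_of_pos e1.1 (Nat.pos_of_ne_zero e1.2))] at hc
    rw [mem_Es_iff (Nat.pos_of_dvd_of_pos e2.1 (Nat.pos_of_ne_zero e2.2))] at hc'
    exact hne (hc.1.symm.trans hc'.1)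

end Vale.Agent.P275.H341
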