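import Vale.Agent.P275.H341.Sum7

/-!
# The isotypic commutator sum for `GL_{2m}` and tuples of characters of order `m`
-/

set_option linter.style.haveILetI false
set_option linter.unusedSectionVars false

namespace Vale.Agent.P275.H341

open scoped BigOperators MatrixGroups
open Module Matrix Vale.Agent.P275.H85

variable {F : Type} [Field F] [Fintype F] [DecidableEq F]

theorem commSum_stb {n g m : ℕ} (hg : 1 ≤ g) {ζ : Fˣ} (κ κ' : Fin g → (Fˣ →* ℂˣ))
    (hκ : orderOf (fun i => (κ i, κ' i)) = m) (hneg : ∀ i, κ i (-1) = 1 ∧ κ' i (-1) = 1) :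
    ∃ κ₀ : Fˣ →* ℂˣ, orderOf κ₀ = m ∧ κ₀ (-1) = 1 ∧
      commSum F n g ζ κ κ' = (Fintype.card (GL (Fin n) F) : ℂ) *
        (Fintype.card F : ℂ) ^ (n * (n - 1) * (g - 1)) *
        ∑ χ ∈ stb n κ₀, (hh χ) ^ (2 * g - 2) * wt χ ζ := by
  classical
  obtain ⟨κ₀, hκ₀, h1, h2, h3⟩ := exists_gen hκ
  have hneg0 : κ₀ (-1) = 1 := by
    refine Subgroup.closure_induction (p := fun x _ => x (-1) = 1) ?_ ?_ ?_ ?_ h3
    · rintro y (⟨i, rfl⟩ | ⟨i, rfl⟩)
      · exact (hneg i).1
      · exact (hneg i).2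
    · rfl
    · intro y z _ _ hy hz
      rw [MonoidHom.mul_apply, hy, hz, one_mul]
    · intro y _ hy
      rw [MonoidHom.inv_apply, hy]
      simp
  refine ⟨κ₀, hκ₀, hneg0, ?_⟩
  have hA := pkgA2 (GL (Fin n) F) g (fun i => twh n (κ i)) (fun i => twh n (κ' i)) (twh n κ₀)
    (fun i => by
      obtain ⟨a, ha⟩ := h1 i
      refine ⟨a, ?_⟩
      rw [ha]
      apply MonoidHom.ext
      intro x
      rfl)
    (fun i => by
      obtain ⟨a, ha⟩ := h2 i
      refine ⟨a, ?_⟩
      rw [ha]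
      apply MonoidHom.ext
      intro x
      rfl) (closure_det h3) (scal n ζ)
  have hL : commSum F n g ζ κ κ' = (∑ A : Fin g → GL (Fin n) F, ∑ B : Fin g → GL (Fin n) F,
      if (List.ofFn fun i => A i * B i * (A i)⁻¹ * (B i)⁻¹).prod = scal n ζ then
        ∏ i, ((twh n (κ i) (A i) : ℂˣ) : ℂ) * ((twh n (κ' i) (B i) : ℂˣ) : ℂ) else 0) := by
    rfl
  rw [hL]
  refine Eq.trans ?_ (Eq.trans hA ?_)
  · apply Finset.sum_congr rfl
    intro A _
    apply Finset.sum_congr rfl
    intro B _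
    congr 1
  · set q : ℂ := (Fintype.card F : ℂ) with hq
    set N : ℂ := (Fintype.card (GL (Fin n) F) : ℂ) with hN
    have hN0 : N ≠ 0 := Irr.card_ne
    have hq0 : q ≠ 0 := q_ne
    have hexp : Nat.choose n 2 * (2 * g - 2) = n * (n - 1) * (g - 1) := by
      rw [Nat.choose_two_right, show 2 * g - 2 = 2 * (g - 1) by omega, ← mul_assoc,
        Nat.div_mul_cancel (Nat.even_mul_pred_self n).two_dvd]
    rw [← hexp, Finset.mul_sum, Finset.mul_sum]
    apply Finset.sum_congr
    · unfold stb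
      congr 1
    · intro χ hχ
      have hχ' : IsIrrChar χ := mem_irrSet.mp (Finset.mem_filter.mp hχ).1
      have hχ1 : χ 1 ≠ 0 := irr_one_ne hχ'
      have h8 : N / χ 1 = q ^ (Nat.choose n 2) * hh χ := by
        unfold hh
        rw [← hq, ← hN]
        field_simp
      have h6 : (N / χ 1) ^ (2 * g) = (N / χ 1) ^ 2 *
          (q ^ (Nat.choose n 2) * hh χ) ^ (2 * g - 2) := by
        rw [← h8, ← pow_add]
        congr 1
        omega
      rw [h6, mul_pow, ← pow_mul]
      unfold wt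
      field_simp

end Vale.Agent.P275.H341
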