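import Vale.Agent.P275.H341.Psh
import Vale.Agent.P275.H341.Fin

/-!
# The algebra of the characters of the general linear groups: rows
-/

namespace Vale.Agent.P275.H341

open scoped BigOperators MatrixGroups
open Module Matrix Vale.Agent.P275.H85

/-- the irreducible characters of all `GL_n` -/
abbrev IrrF (F : Type) [Field F] [Fintype F] [DecidableEq F] : Type :=
  Σ n : ℕ, {χ : GL (Fin n) F → ℂ // IsIrrChar χ}

/-- the multiplicity of `x` in the product of `a` and `b` -/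
noncomputable def cc {F : Type} [Field F] [Fintype F] [DecidableEq F] (a b x : IrrF F) : ℕ :=
  if x.1 = a.1 + b.1 then ⌊(ip (rs x.1 (mul (toCF a.2.1) (toCF b.2.1))) x.2.1).re⌋₊ else 0

/-- the properties of the structure on the irreducible characters -/
structure Con (F : Type) [Field F] [Fintype F] [DecidableEq F] (H : PSH (IrrF F)) : Prop where
  deg : ∀ a, H.deg a = a.1
  c : ∀ a b x, H.c a b x = cc a b x
  one : H.one.1 = 0

/-- Row C1: the structure on the irreducible characters -/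
def RowC1 : Prop := ∀ (F : Type) [Field F] [Fintype F] [DecidableEq F],
  ∃ H : PSH (IrrF F), Con F H

/-- Row C3: the normalised degree is multiplicative -/
def RowC3 : Prop := ∀ (F : Type) [Field F] [Fintype F] [DecidableEq F] (H : PSH (IrrF F)),
  Con F H → H.Mult (fun a => (hh a.2.1)⁻¹)

/-- Row C2: the Whittaker multiplicity -/
def RowC2 : Prop := ∀ (F : Type) [Field F] [Fintype F] [DecidableEq F] (H : PSH (IrrF F)),
  Con F H → ∃ w : IrrF F → ℕ,
    (∀ (ψ : AddChar F ℂ), ψ ≠ 1 → ∀ a : IrrF F, (w a : ℂ) = whit ψ a.2.1) ∧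
    ∀ a, (hh a.2.1)⁻¹ * (Fintype.card F : ℂ) ^ H.deg a = ∑ i ∈ Finset.range (H.deg a + 1),
      ∑ b ∈ H.lvl (H.deg a - i), ∑ d ∈ H.lvl i, (H.c b d a : ℂ) * ((hh b.2.1)⁻¹ * w d)

/-- the twist of an irreducible character -/
noncomputable def twI {F : Type} [Field F] [Fintype F] [DecidableEq F] (κ : Fˣ →* ℂˣ)
    (a : IrrF F) : IrrF F := ⟨a.1, ⟨fun g => tw κ g * a.2.1 g, Cu.irr_tw κ a.2.2⟩⟩

/-- Row C4: the twist is an automorphism and preserves the Whittaker multiplicity -/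
def RowC4 : Prop := ∀ (F : Type) [Field F] [Fintype F] [DecidableEq F] (H : PSH (IrrF F)),
  Con F H → ∀ κ : Fˣ →* ℂˣ, ∃ τ : H.Aut, (∀ a, τ.t a = twI κ a) ∧
    (∀ a, hh (twI κ a).2.1 = hh a.2.1) ∧
    ∀ (ψ : AddChar F ℂ) (a : IrrF F), whit ψ (twI κ a).2.1 = whit ψ a.2.1

/-- Row C5: the primitive elements are the cuspidal characters -/
def RowC5 : Prop := ∀ (F : Type) [Field F] [Fintype F] [DecidableEq F] (H : PSH (IrrF F)),
  Con F H → ∀ a : IrrF F, H.Pr a ↔ ∃ c : Cu F, a = ⟨c.s, ⟨c.χ, c.irr⟩⟩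

/-- Row C6: the sum of the central characters of all irreducible characters -/
def RowC6 : Prop :=
  ∀ (F : Type) [Field F] [Fintype F] [DecidableEq F] (n : ℕ), 1 ≤ n →
    ∀ (ζ : Fˣ), orderOf ζ = n → ∑ χ ∈ irrSet (GL (Fin n) F), wt χ ζ = (Fintype.card F : ℂ) - 1

/-- the generating coefficients -/
noncomputable def om (Ψ : ℂ →* ℂ) (q : ℂ) (d e : ℕ) (k : ℕ) : ℂ :=
  ∑ lam ∈ Pt k, Ψ (hk (q ^ d) lam) ^ e

/-- Row C9: the sum over the stable characters in terms of the cuspidal characters -/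
def RowC9 : Prop :=
  ∀ (F : Type) [Field F] [Fintype F] [DecidableEq F] (n m : ℕ), 1 ≤ n → m ∣ n →
    ∀ (κ : Fˣ →* ℂˣ) (ζ : Fˣ), orderOf κ = m → κ (-1) = 1 → orderOf ζ = n → ∀ Ψ : ℂ →* ℂ,
    (n : ℂ) * ∑ χ ∈ stb n κ, Ψ (hh χ) * wt χ ζ
      = ∑ d ∈ n.divisors, (d : ℂ) * ∑ j ∈ (n / d).divisors,
        ld (om Ψ (Fintype.card F) d j) (n / (j * d)) *
          ∑ c ∈ Es F d κ j, wt c.χ (ζ ^ (n / d))

/-- Row C10: the cuspidal sums -/
def RowC10 : Prop :=
  ∀ (F : Type) [Field F] [Fintype F] [DecidableEq F] (n m : ℕ), 1 ≤ n → m ∣ n →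
    ∀ (κ : Fˣ →* ℂˣ) (ζ : Fˣ), orderOf κ = m → κ (-1) = 1 → orderOf ζ = n →
    Acus F n κ ζ = (((Fintype.card F : ℂ) - 1) / n) * ((ArithmeticFunction.moebius n : ℤ) : ℂ)

/-- Row C11: the orbits of exact length in terms of the cuspidal sums -/
def RowC11 : Prop := RowC10 →
  ∀ (F : Type) [Field F] [Fintype F] [DecidableEq F] (n m d j : ℕ), 1 ≤ n → m ∣ n → d ∣ n →
    j ∣ n / d →
    ∀ (κ : Fˣ →* ℂˣ) (ζ : Fˣ), orderOf κ = m → κ (-1) = 1 → orderOf ζ = n →
    ∑ c ∈ Es F d κ j, wt c.χ (ζ ^ (n / d)) = if j * Nat.gcd m d = m then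
      (((Fintype.card F : ℂ) - 1) / d) * ((ArithmeticFunction.moebius d : ℤ) : ℂ) else 0

end Vale.Agent.P275.H341
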