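import Vale.Agent.P275.H341.FinG
import Vale.Agent.P275.H677.A1
import Vale.Agent.P275.H677.A4
import Vale.Agent.P275.H677.A9
import Vale.Agent.P275.H93.A2
import Vale.Agent.P275.H85G.A3
import Vale.Agent.P275.H85G.C3
import Vale.Agent.P275.H85G.C4
import Vale.Agent.P275.H85G.C11
import Vale.Agent.P275.H510.A6
import Vale.Agent.P275.H510.C5
import Vale.Agent.P275.H510.C6
import Vale.Agent.P275.H633.A8
import Vale.Agent.P275.H633.C1
import Vale.Agent.P275.H633.C2
import Vale.Agent.P275.H452.A57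
import Vale.Agent.P275.H452.C10

/-!
# All rows together
-/

namespace Vale.Agent.P275.H341

open scoped BigOperators MatrixGroups
open Module Matrix Vale.Agent.P275.H85

theorem allC9 : RowC9 :=
  rowC9 H677.rowA1 H93.rowA2 (H677.rowA4 H85G.rowA3) H510.rowA6 H452.A57.rowA7 H633.rowA8
    H633.rowC1 H633.rowC2 H85G.rowC3 H85G.rowC4 H510.rowC5

theorem allC10 : RowC10 := H452.C10.rowC10 allC9 H510.rowC6 H677.rowA9

/-- the point count of the isotypic parts for every order -/
theorem count_all {F : Type} [Field F] [Fintype F] [DecidableEq F] {n m g : ℕ} (hn : 1 ≤ n)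
    (hm : m ∣ n) (hg : 1 ≤ g) (ζ : Fˣ) (hζ : orderOf ζ = n) (κ κ' : Fin g → (Fˣ →* ℂˣ))
    (hκ : orderOf (fun i => (κ i, κ' i)) = m) (hneg : ∀ i, κ i (-1) = 1 ∧ κ' i (-1) = 1) :
    commSum F n g ζ κ κ' =
      ((Fintype.card F : ℂ) - 1) * (Fintype.card (GL (Fin n) F) : ℂ) *
        eG n m g (Fintype.card F) :=
  countG allC9 allC10 H85G.rowC11 hn hm hg ζ hζ κ κ' hκ hneg

end Vale.Agent.P275.H341
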