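import Vale.Agent.P275.H341.Rows

/-!
# Central characters and degrees, first lemmas
-/

set_option linter.style.haveILetI false
set_option linter.unusedSectionVars false

namespace Vale.Agent.P275.H341

open scoped BigOperators MatrixGroups
open Module Matrix Vale.Agent.P275.H85

variable {F : Type} [Field F] [Fintype F] [DecidableEq F]

theorem mem_stb {n : ℕ} {κ : Fˣ →* ℂˣ} {χ : GL (Fin n) F → ℂ} :
    χ ∈ stb n κ ↔ IsIrrChar χ ∧ ∀ g, tw κ g * χ g = χ g := by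
  unfold stb
  rw [Finset.mem_filter, mem_irrSet]
  rfl

theorem q_ne : (Fintype.card F : ℂ) ≠ 0 := by exact_mod_cast Fintype.card_ne_zero

theorem q_pow_sub_ne {k : ℕ} (hk : 0 < k) : (Fintype.card F : ℂ) ^ k - 1 ≠ 0 := by
  have h1 : 1 < Fintype.card F := Fintype.one_lt_card
  have h2 : 1 < Fintype.card F ^ k := Nat.one_lt_pow hk.ne' h1
  intro h
  have h3 : ((Fintype.card F ^ k : ℕ) : ℂ) = ((1 : ℕ) : ℂ) := by
    push_cast
    linear_combination h
  have h4 := Nat.cast_injective h3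
  omega

theorem scal_inv {n : ℕ} (z : Fˣ) : (scal n z)⁻¹ = scal n z⁻¹ := by
  unfold scal
  rw [map_inv]

theorem wt_eq {n : ℕ} {χ : GL (Fin n) F → ℂ} {ω : Fˣ →* ℂˣ} (h1 : χ 1 ≠ 0)
    (h : ∀ c g, χ (scal n c * g) = (ω c : ℂ) * χ g) (z : Fˣ) :
    wt χ z = ((ω z : ℂˣ) : ℂ)⁻¹ := by
  unfold wt
  have h2 := h z⁻¹ 1
  rw [mul_one] at h2
  rw [scal_inv, h2, mul_div_assoc, div_self h1, mul_one, map_inv, Units.val_inv_eq_inv_val]

theorem wt_rs {n : ℕ} {f : CF F} {ω : Fˣ →* ℂˣ} (h1 : rs n f 1 ≠ 0) (h : CentF ω f) (z : Fˣ) :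
    wt (rs n f) z = ((ω z : ℂˣ) : ℂ)⁻¹ := wt_eq h1 (fun c g => cent_rs h c g) z

theorem wt_irr {n : ℕ} {χ : GL (Fin n) F → ℂ} (hχ : IsIrrChar χ) :
    ∃ ω : Fˣ →* ℂˣ, (∀ c g, χ (scal n c * g) = (ω c : ℂ) * χ g) ∧
      ∀ z, wt χ z = ((ω z : ℂˣ) : ℂ)⁻¹ := by
  obtain ⟨ω, hω⟩ := exists_cent hχ
  exact ⟨ω, hω, wt_eq (irr_one_ne hχ) hω⟩

theorem wt_pow {n : ℕ} {χ : GL (Fin n) F → ℂ} (hχ : IsIrrChar χ) (z : Fˣ) (k : ℕ) :
    wt χ (z ^ k) = wt χ z ^ k := by
  obtain ⟨ω, _, hω⟩ := wt_irr hχ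
  rw [hω, hω, map_pow, Units.val_pow_eq_pow_val, inv_pow]

/-- the degree of a product -/
theorem hh_mul {e m n : ℕ} {f g : CF F} (hf : IsoInv f) (hg : IsoInv g) (sf : Supp e f)
    (hn : m + e = n) (h1 : rs e f 1 ≠ 0) (h2 : rs m g 1 ≠ 0) :
    hh (rs n (mul f g)) = hh (rs e f) * hh (rs m g) := by
  subst hn
  unfold hh
  have e1 : rs (m + e) (mul f g) 1 = (grc F (Fin (m + e) → F) e : ℂ) * (rs e f 1 * rs m g 1) := by
    rw [rs_one_eq, mul_id hf hg sf (e := e) (m := m) (by simp), rs_one_eq, rs_one_eq]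
  have e2 := card_split (F := F) (V' := Fin (m + e) → F) e m (m + e) rfl (by simp)
  have e3 : (Fintype.card (GL (Fin (m + e)) F) : ℂ) ≠ 0 := Irr.card_ne
  rw [e2] at e3 ⊢
  rw [e1, choose_two_add]
  push_cast at e3 ⊢
  have hq := q_ne (F := F)
  have hg0 : (grc F (Fin (m + e) → F) e : ℂ) ≠ 0 := by
    intro h
    apply e3
    rw [h, zero_mul]
  have c1 : (Fintype.card (GL (Fin e) F) : ℂ) ≠ 0 := Irr.card_ne
  have c2 : (Fintype.card (GL (Fin m) F) : ℂ) ≠ 0 := Irr.card_ne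
  rw [pow_add, pow_add]
  field_simp

theorem hh_cu (c : Cu F) : hh c.χ = (Fintype.card F : ℂ) ^ c.s - 1 := by
  have h1 := deg_cusp pkgC1 pkgC2 c
  rw [c.rs_f] at h1
  unfold hh
  have h2 := irr_one_ne c.irr
  have h3 : (Fintype.card F : ℂ) ^ (Nat.choose c.s 2) ≠ 0 := pow_ne_zero _ q_ne
  rw [← h1]
  field_simp

theorem prodC_one_ne (L : List (Cu F)) : rs (size L) (prodC L) 1 ≠ 0 := by
  induction L with
  | nil =>
    show rs 0 one 1 ≠ 0
    rw [rs_one]
    exact one_ne_zero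
  | cons c L ih =>
    show rs (size L + c.s) (mul c.f (prodC L)) 1 ≠ 0
    rw [rs_one_eq, mul_id c.inv (inv_prodC L) c.supp (e := c.s) (m := size L) (by simp)]
    have e2 := card_split (F := F) (V' := Fin (size L + c.s) → F) c.s (size L) (size L + c.s) rfl (by simp)
    have e3 : (Fintype.card (GL (Fin (size L + c.s)) F) : ℂ) ≠ 0 := Irr.card_ne
    rw [e2] at e3
    push_cast at e3
    apply mul_ne_zero
    · intro h
      apply e3
      rw [h, zero_mul]
    · have h1 := c.rs_one_ne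
      rw [rs_one_eq] at h1 ih
      exact mul_ne_zero h1 ih

theorem hh_prodC (L : List (Cu F)) :
    hh (rs (size L) (prodC L)) = (L.map fun c => (Fintype.card F : ℂ) ^ c.s - 1).prod := by
  induction L with
  | nil =>
    show hh (rs 0 (one : CF F)) = 1
    unfold hh
    rw [rs_one]
    have : Fintype.card (GL (Fin 0) F) = 1 := by
      rw [card_gl]
      simp
    rw [this]
    simp
  | cons c L ih =>
    show hh (rs (size L + c.s) (mul c.f (prodC L))) = _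
    rw [hh_mul c.inv (inv_prodC L) c.supp rfl c.rs_one_ne (prodC_one_ne L), ih, c.rs_f, hh_cu]
    rfl

theorem hh_orb (c : Cu F) (κ : Fˣ →* ℂˣ) (j n : ℕ) (hn : j * c.s = n) :
    hh (rs n (prodC (orb c κ j))) = ((Fintype.card F : ℂ) ^ c.s - 1) ^ j := by
  have h1 := hh_prodC (orb c κ j)
  rw [size_orb, hn] at h1
  rw [h1]
  unfold orb
  rw [List.map_map]
  have h2 : ((fun c : Cu F => (Fintype.card F : ℂ) ^ c.s - 1) ∘ fun j => Cu.twist (κ ^ j) c)
      = fun _ => (Fintype.card F : ℂ) ^ c.s - 1 := by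
    funext i
    rfl
  rw [h2, List.map_const', List.prod_replicate, List.length_range]

/-- the product over an orbit -/
theorem orb_stb {c : Cu F} {κ : Fˣ →* ℂˣ} {j n : ℕ} (hj : 0 < j) (hn : j * c.s = n)
    (htw : c.twist (κ ^ j) = c) (hnd : (orb c κ j).Nodup) :
    rs n (prodC (orb c κ j)) ∈ stb n κ := by
  have hsize : size (orb c κ j) = n := by rw [size_orb, hn]
  rw [mem_stb]
  constructor
  · have := irr_of_nodup hnd
    rwa [hsize] at this
  · intro g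
    have h1 := eq_of_perm hnd (orb_twist_perm hj htw)
    rw [hsize, prodC_twist, rs_twf] at h1
    exact (congrFun h1 g).symm

/-- central character of an orbit -/
theorem wt_orb {c : Cu F} {κ : Fˣ →* ℂˣ} {j n : ℕ} (hn : j * c.s = n)
    (hneg : κ (-1) = 1) {z : Fˣ} (hz : z ^ n = 1) :
    wt (rs n (prodC (orb c κ j))) z = wt c.χ (z ^ j) := by
  obtain ⟨ω, hω, hω'⟩ := wt_irr c.irr
  have h1 := centF_orb (κ := κ) (centF_toCF hω : CentF ω c.f) j
  have h0 : rs n (prodC (orb c κ j)) 1 ≠ 0 := by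
    have := prodC_one_ne (orb c κ j)
    rwa [size_orb, hn] at this
  rw [wt_rs h0 h1, hω', MonoidHom.mul_apply, MonoidHom.pow_apply, MonoidHom.pow_apply, ← map_pow κ,
    kappa_tri hn hz hneg, mul_one, map_pow]

end Vale.Agent.P275.H341
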