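import Vale.Agent.P275.H341.Cnt

/-!
# The sum over the stable characters in terms of the cuspidal characters
-/

set_option linter.style.haveILetI false
set_option linter.unusedSectionVars false

namespace Vale.Agent.P275.H341

open scoped BigOperators MatrixGroups
open Module Matrix Vale.Agent.P275.H85

variable {F : Type} [Field F] [Fintype F] [DecidableEq F]

open scoped Classical in
theorem gen_fun (A4 : RowA4) (C3 : RowC3) (C4 : RowC4) (C5 : RowC5) (Y : Sys F)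
    (κ : Fˣ →* ℂˣ) (Ψ : ℂ →* ℂ) (ζ : Fˣ) (N n : ℕ) (hn : n ≤ N) :
    ∑ z ∈ fixS Y κ n, Y.W Ψ ζ z
      = PowerSeries.coeff n (∏ c ∈ reps F κ N, PowerSeries.mk (sq κ Ψ ζ c)) := by
  obtain ⟨τ, hτ, _, _⟩ := C4 F Y.H Y.con κ
  have hper : ∀ c : Cu F, ∀ i : ℕ, (τ.t ^ i) (emb c) = emb (c.twist (κ ^ i)) :=
    fun c i => twI_pow κ c τ.t hτ i
  have hjex : ∃ j : IrrF F → ℕ, ∀ c : Cu F, j (emb c) = per κ c := by
    refine ⟨fun a => if h : ∃ c : Cu F, emb c = a then per κ h.choose else 0, ?_⟩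
    intro c
    have h : ∃ c' : Cu F, emb c' = emb c := ⟨c, rfl⟩
    beta_reduce
    rw [dif_pos h]
    congr 1
    exact emb_inj h.choose_spec
  obtain ⟨j, hj⟩ := hjex
  have h := A4 (IrrF F) Y.H τ (Y.W Ψ ζ) N Y.S Y.X ((reps F κ N).image emb) j (fixS Y κ)
    (Y.W_one C3 Ψ ζ) (fun a b z hab => Y.W_prod C3 Ψ ζ hab)
    (fun p hp => ⟨Y.hX p hp, Y.hS p hp⟩)
    (fun p hp k lam hlam => by rw [hτ, hτ]; exact Y.tw_S p hp κ k lam hlam)
    (by
      intro q hq
      obtain ⟨c, hc, rfl⟩ := Finset.mem_image.mp hq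
      refine ⟨(C5 F Y.H Y.con _).mpr ⟨_, rfl⟩, ?_, ?_, ?_⟩
      · rw [hj]
        exact per_pos κ c
      · rw [hj, hper, per_spec]
      · intro i h0 h1
        rw [hj] at h1
        rw [hper]
        intro h2
        exact per_min h0 h1 (emb_inj h2))
    (by
      intro q hq q' hq' i hi
      obtain ⟨c, hc, rfl⟩ := Finset.mem_image.mp hq
      obtain ⟨c', hc', rfl⟩ := Finset.mem_image.mp hq'
      rw [hper] at hi
      have h1 : Rel κ c c' := ⟨i, emb_inj hi⟩
      rw [mem_reps] at hc hc'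
      rw [← hc.2, ← hc'.2, rep_eq h1])
    (by
      intro p hp hdeg
      obtain ⟨c, rfl⟩ := (C5 F Y.H Y.con p).mp hp
      rw [Y.con.deg] at hdeg
      have h1 := rep_rel κ c
      obtain ⟨i, hi⟩ := h1
      refine ⟨emb (rep κ c), Finset.mem_image_of_mem _ ?_, i, ?_⟩
      · rw [mem_reps]
        refine ⟨?_, rep_rep κ c⟩
        rw [← (rep_rel κ c).s_eq]
        exact hdeg
      · rw [hper, hi]
        rfl)
    (by
      intro k z
      rw [mem_fixS, Y.H.mem_lvl, Y.con.deg, hτ]) n hn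
  rw [h, Finset.prod_image (fun a _ b _ hab => emb_inj hab)]
  congr 1
  apply Finset.prod_congr rfl
  intro c _
  congr 1
  funext t
  unfold sq
  rw [hj, Y.con.deg]
  show (if per κ c * c.s ∣ t then _ else _) = _
  split_ifs with hd
  · show ∑ lam ∈ Pt (t / (per κ c * c.s)), ∏ i ∈ Finset.range (per κ c),
      Y.W Ψ ζ (Y.S ((τ.t ^ i) (emb c)) (t / (per κ c * c.s)) lam) = _
    unfold om
    dsimp only
    rw [Finset.mul_sum]
    apply Finset.sum_congr rfl
    intro lam hlam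
    exact prod_W Y C5 κ Ψ ζ c τ.t hτ hlam (per κ c)
  · rfl

/-- Row C9 -/
theorem rowC9 (A1 : RowA1) (A2 : RowA2) (A4 : RowA4) (A6 : RowA6) (A7 : RowA7) (A8 : RowA8)
    (C1 : RowC1) (C2 : RowC2) (C3 : RowC3) (C4 : RowC4) (C5 : RowC5) : RowC9 := by
  classical
  intro F _ _ _ n m hn hm κ ζ hκ hneg hζ Ψ
  obtain ⟨Y⟩ := exists_sys (F := F) A1 A2 A6 A7 A8 C1 C2 C3 C4 C5
  rw [← sum_fix Y κ n Ψ ζ, gen_fun A4 C3 C4 C5 Y κ Ψ ζ n n le_rfl]
  rw [ld_lead (reps F κ n) (fun c => sq κ Ψ ζ c) (fun c _ => sq_zero κ Ψ ζ c) hn (by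
    intro t h0 h1
    rw [← gen_fun A4 C3 C4 C5 Y κ Ψ ζ n t h1.le]
    exact sum_fix_zero C4 Y κ Ψ hζ h0 h1)]
  have hval : ∀ c : Cu F, ld (sq κ Ψ ζ c) n = (per κ c : ℂ) *
      (if per κ c * c.s ∣ n then (c.s : ℂ) *
        (ld (om Ψ (Fintype.card F) c.s (per κ c)) (n / (per κ c * c.s)) *
          wt c.χ (ζ ^ (n / c.s))) else 0) := by
    intro c
    rw [ld_sq]
    split_ifs with hd
    · obtain ⟨k, hk⟩ := hd
      have hpos : 0 < per κ c * c.s := Nat.mul_pos (per_pos κ c) c.pos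
      have e1 : n / (per κ c * c.s) = k := by rw [hk, Nat.mul_div_cancel_left _ hpos]
      have e2 : n / c.s = k * per κ c := by
        rw [hk, show per κ c * c.s * k = c.s * (k * per κ c) from by ring,
          Nat.mul_div_cancel_left _ c.pos]
      have hz : (ζ ^ k) ^ (per κ c * c.s) = 1 := by
        rw [← pow_mul, mul_comm, ← hk, ← hζ, pow_orderOf_eq_one]
      have e3 := wt_orb_prod (c := c) (κ := κ) (j := per κ c) (n := per κ c * c.s) rfl hneg hz
      have e4 : (∏ i ∈ Finset.range (per κ c), wt (c.twist (κ ^ i)).χ ζ) ^ k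
          = ∏ i ∈ Finset.range (per κ c), wt (c.twist (κ ^ i)).χ (ζ ^ k) := by
        rw [← Finset.prod_pow]
        apply Finset.prod_congr rfl
        intro i _
        rw [wt_pow (c.twist (κ ^ i)).irr]
      rw [e1, e2, e4, e3, ← pow_mul]
      push_cast
      ring
    · rw [mul_zero]
  rw [Finset.sum_congr rfl fun c _ => hval c]
  rw [← sum_reps κ n (fun c => if per κ c * c.s ∣ n then (c.s : ℂ) *
        (ld (om Ψ (Fintype.card F) c.s (per κ c)) (n / (per κ c * c.s)) *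
          wt c.χ (ζ ^ (n / c.s))) else 0)]
  · rw [sum_group hn κ (fun d j c => (d : ℂ) * (ld (om Ψ (Fintype.card F) d j) (n / (j * d)) *
      wt c.χ (ζ ^ (n / d))))]
    apply Finset.sum_congr rfl
    intro d _
    rw [Finset.mul_sum]
    apply Finset.sum_congr rfl
    intro j _
    rw [Finset.mul_sum, Finset.mul_sum]
  · intro c c' hcc
    obtain ⟨i, rfl⟩ := hcc
    have h1 : per κ (c.twist (κ ^ i)) = per κ c := per_rel ⟨i, rfl⟩
    rw [h1]
    show (if per κ c * c.s ∣ n then (c.s : ℂ) *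
        (ld (om Ψ (Fintype.card F) c.s (per κ c)) (n / (per κ c * c.s)) *
          wt (c.twist (κ ^ i)).χ (ζ ^ (n / c.s))) else 0) = _
    split_ifs with hd
    · congr 2
      have e1 := Sys.wt_twist (κ ^ i) (emb c) (ζ ^ (n / c.s))
      have e2 : wt (c.twist (κ ^ i)).χ (ζ ^ (n / c.s)) = wt (twI (κ ^ i) (emb c)).2.1
          (ζ ^ (n / c.s)) := rfl
      rw [e2, e1]
      have e3 : ((((κ ^ i) (ζ ^ (n / c.s)) : ℂˣ) : ℂ)⁻¹) ^ (emb c).1 = 1 := by
        rw [inv_pow, ← Units.val_pow_eq_pow_val, ← map_pow, ← pow_mul]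
        have h3 : n / c.s * (emb c).1 = n := Nat.div_mul_cancel (dvd_trans (Dvd.intro_left _ rfl) hd)
        rw [h3, ← hζ, pow_orderOf_eq_one, map_one, Units.val_one, _root_.inv_one]
      rw [e3, mul_one]
      rfl
    · rfl

end Vale.Agent.P275.H341
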