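import Vale.Agent.P275.H341.Orb2

/-!
# The sum over the stable characters in terms of the orbits
-/

set_option linter.style.haveILetI false
set_option linter.unusedSectionVars false

namespace Vale.Agent.P275.H341

open scoped BigOperators MatrixGroups
open Module Matrix Vale.Agent.P275.H85

variable {F : Type} [Field F] [Fintype F] [DecidableEq F]

/-- the central character of a product of a list -/
theorem wt_prodC (L : List (Cu F)) (z : Fˣ) :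
    ∃ ω : Fˣ →* ℂˣ, CentF ω (prodC L) ∧
      ((ω z : ℂˣ) : ℂ)⁻¹ = (L.map fun c => wt c.χ z).prod := by
  induction L with
  | nil =>
    refine ⟨1, centF_one, ?_⟩
    simp
  | cons c L ih =>
    obtain ⟨ω, h1, h2⟩ := ih
    obtain ⟨ωc, h3, h4⟩ := wt_irr c.irr
    refine ⟨ωc * ω, centF_mul (centF_toCF h3) h1, ?_⟩
    rw [List.map_cons, List.prod_cons, ← h2, h4, MonoidHom.mul_apply, Units.val_mul, mul_inv]

theorem wt_orb_prod {c : Cu F} {κ : Fˣ →* ℂˣ} {j n : ℕ} (hn : j * c.s = n)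
    (hneg : κ (-1) = 1) {z : Fˣ} (hz : z ^ n = 1) :
    ∏ i ∈ Finset.range j, wt (c.twist (κ ^ i)).χ z = wt c.χ (z ^ j) := by
  rw [← wt_orb hn hneg hz]
  obtain ⟨ω, h1, h2⟩ := wt_prodC (orb c κ j) z
  have h0 : rs n (prodC (orb c κ j)) 1 ≠ 0 := by
    have := prodC_one_ne (orb c κ j)
    rwa [size_orb, hn] at this
  rw [wt_rs h0 h1, h2]
  unfold orb
  rw [List.map_map, Finset.prod_range]
  rw [← List.prod_ofFn]
  congr 1
  rw [List.ofFn_eq_map]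
  rw [← List.map_coe_finRange_eq_range, List.map_map]
  rfl

theorem twI_pow (κ : Fˣ →* ℂˣ) (c : Cu F) (t : Equiv.Perm (IrrF F)) (ht : ∀ a, t a = twI κ a)
    (i : ℕ) : (t ^ i) (emb c) = emb (c.twist (κ ^ i)) := by
  induction i with
  | zero => rw [pow_zero, Equiv.Perm.one_apply, hpow_zero, Cu.twist_one]
  | succ i ih =>
    rw [pow_succ', Equiv.Perm.mul_apply, ih, ht, emb_twist, Cu.twist_twist]
    congr 2
    have : κ ^ i * κ = κ ^ (i + 1) := (pow_succ κ i).symm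
    exact this

open scoped Classical in
/-- the elements of degree `n` fixed by the twist -/
noncomputable def fixS (Y : Sys F) (κ : Fˣ →* ℂˣ) (n : ℕ) : Finset (IrrF F) :=
  (Y.H.lvl n).filter fun z => twI κ z = z

theorem mem_fixS {Y : Sys F} {κ : Fˣ →* ℂˣ} {n : ℕ} {z : IrrF F} :
    z ∈ fixS Y κ n ↔ z.1 = n ∧ twI κ z = z := by
  classical
  unfold fixS
  rw [Finset.mem_filter, Y.H.mem_lvl, Y.con.deg]

theorem twI_eq_iff {κ : Fˣ →* ℂˣ} {n : ℕ} {χ : {χ : GL (Fin n) F → ℂ // IsIrrChar χ}} :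
    twI κ (⟨n, χ⟩ : IrrF F) = ⟨n, χ⟩ ↔ ∀ g, tw κ g * χ.1 g = χ.1 g := by
  unfold twI
  constructor
  · intro h g
    injection h with _ h2
    have h3 := congrArg Subtype.val h2
    exact congrFun h3 g
  · intro h
    have : (⟨fun g => tw κ g * χ.1 g, Cu.irr_tw κ χ.2⟩ : {χ : GL (Fin n) F → ℂ // IsIrrChar χ}) = χ :=
      Subtype.ext (funext h)
    show (⟨n, ⟨fun g => tw κ g * χ.1 g, Cu.irr_tw κ χ.2⟩⟩ : IrrF F) = ⟨n, χ⟩
    rw [this]

theorem sum_fix (Y : Sys F) (κ : Fˣ →* ℂˣ) (n : ℕ) (Ψ : ℂ →* ℂ) (ζ : Fˣ) :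
    ∑ z ∈ fixS Y κ n, Y.W Ψ ζ z = ∑ χ ∈ stb n κ, Ψ (hh χ) * wt χ ζ := by
  symm
  refine Finset.sum_bij (fun χ hχ => (⟨n, ⟨χ, (mem_stb.mp hχ).1⟩⟩ : IrrF F)) ?_ ?_ ?_ ?_
  · intro χ hχ
    rw [mem_fixS]
    exact ⟨rfl, twI_eq_iff.mpr (mem_stb.mp hχ).2⟩
  · intro χ hχ χ' hχ' h
    injection h with _ h2
    exact congrArg Subtype.val h2
  · rintro ⟨k, χ⟩ hz
    rw [mem_fixS] at hz
    obtain ⟨rfl, h2⟩ := hz
    exact ⟨χ.1, mem_stb.mpr ⟨χ.2, twI_eq_iff.mp h2⟩, rfl⟩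
  · intro χ _
    rfl

theorem twI_comm (κ η : Fˣ →* ℂˣ) (a : IrrF F) : twI κ (twI η a) = twI η (twI κ a) := by
  unfold twI
  congr 2
  funext g
  show tw κ g * (tw η g * a.2.1 g) = tw η g * (tw κ g * a.2.1 g)
  ring

/-- the sums over the smaller groups vanish -/
theorem sum_fix_zero (C4 : RowC4) (Y : Sys F) (κ : Fˣ →* ℂˣ) {n t : ℕ} (Ψ : ℂ →* ℂ) {ζ : Fˣ}
    (hζ : orderOf ζ = n) (h0 : 0 < t) (ht : t < n) : ∑ z ∈ fixS Y κ t, Y.W Ψ ζ z = 0 := by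
  have h1 : ζ ^ t ≠ 1 := by
    intro h
    have := orderOf_dvd_of_pow_eq_one h
    rw [hζ] at this
    exact absurd (Nat.le_of_dvd h0 this) (by omega)
  obtain ⟨η, hη⟩ := CommGroup.exists_apply_ne_one_of_hasEnoughRootsOfUnity Fˣ ℂ h1
  obtain ⟨τ, hτ1, hτ2, _⟩ := C4 F Y.H Y.con η
  have h2 : ∑ z ∈ fixS Y κ t, Y.W Ψ ζ z
      = ∑ z ∈ fixS Y κ t, Y.W Ψ ζ z * (((η ζ : ℂˣ) : ℂ)⁻¹) ^ t := by
    symm
    refine Finset.sum_bij (fun z _ => τ.t z) ?_ ?_ ?_ ?_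
    · intro z hz
      rw [mem_fixS] at hz ⊢
      rw [hτ1]
      exact ⟨hz.1, by rw [twI_comm, hz.2]⟩
    · intro z _ z' _ h
      exact τ.t.injective h
    · intro z hz
      rw [mem_fixS] at hz
      refine ⟨τ.t.symm z, ?_, τ.t.apply_symm_apply z⟩
      have e1 : twI η (τ.t.symm z) = z := by rw [← hτ1, τ.t.apply_symm_apply]
      rw [mem_fixS]
      constructor
      · rw [← hz.1]
        conv_rhs => rw [← e1]
        rfl
      · apply τ.t.injective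
        rw [hτ1, hτ1, twI_comm, e1, hz.2]
    · intro z hz
      rw [mem_fixS] at hz
      rw [hτ1]
      unfold Sys.W
      have e2 : (((η ζ : ℂˣ) : ℂ)⁻¹) ^ z.1 = (((η ζ : ℂˣ) : ℂ)⁻¹) ^ t := by rw [hz.1]
      rw [hτ2, Sys.wt_twist, e2]
      ring
  rw [← Finset.sum_mul] at h2
  have h3 : (((η ζ : ℂˣ) : ℂ)⁻¹) ^ t ≠ 1 := by
    intro h
    apply hη
    apply Units.ext
    rw [map_pow, Units.val_pow_eq_pow_val, Units.val_one]
    rw [inv_pow] at h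
    exact inv_eq_one.mp h
  have h4 : (∑ z ∈ fixS Y κ t, Y.W Ψ ζ z) * ((((η ζ : ℂˣ) : ℂ)⁻¹) ^ t - 1) = 0 := by
    linear_combination -h2
  exact (mul_eq_zero.mp h4).resolve_right (sub_ne_zero.mpr h3)

theorem om_zero (Ψ : ℂ →* ℂ) (q : ℂ) (d e : ℕ) : om Ψ q d e 0 = 1 := by
  unfold om
  have h1 : Pt 0 = {fun i => i.elim0} := by
    ext f
    constructor
    · intro _
      rw [Finset.mem_singleton]
      funext i
      exact i.elim0
    · intro _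
      unfold Pt
      rw [Finset.mem_filter, Finset.Nat.mem_antidiagonalTuple]
      exact ⟨by simp, fun i => i.elim0⟩
  rw [h1, Finset.sum_singleton]
  have h2 : hk (q ^ d) (fun i : Fin 0 => (i.elim0 : ℕ)) = 1 := by
    unfold hk
    simp
  rw [h2, map_one, one_pow]

/-- the value of the weight on the orbit of a member of a family -/
theorem prod_W (Y : Sys F) (C5 : RowC5) (κ : Fˣ →* ℂˣ) (Ψ : ℂ →* ℂ) (ζ : Fˣ) (c : Cu F)
    (t : Equiv.Perm (IrrF F)) (ht : ∀ a, t a = twI κ a) {k : ℕ} {lam : Fin k → ℕ}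
    (hlam : lam ∈ Pt k) (j : ℕ) :
    ∏ i ∈ Finset.range j, Y.W Ψ ζ (Y.S ((t ^ i) (emb c)) k lam)
      = (∏ i ∈ Finset.range j, wt (c.twist (κ ^ i)).χ ζ) ^ k *
        Ψ (hk ((Fintype.card F : ℂ) ^ c.s) lam) ^ j := by
  have h1 : ∀ i ∈ Finset.range j, Y.W Ψ ζ (Y.S ((t ^ i) (emb c)) k lam)
      = wt (c.twist (κ ^ i)).χ ζ ^ k * Ψ (hk ((Fintype.card F : ℂ) ^ c.s) lam) := by
    intro i _
    rw [twI_pow κ c t ht]
    have hp : Y.H.Pr (emb (c.twist (κ ^ i))) := (C5 F Y.H Y.con _).mpr ⟨_, rfl⟩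
    unfold Sys.W
    rw [Y.hh_S _ hp k lam hlam, Y.wt_S hp ζ hlam, Y.con.deg, mul_comm]
    rfl
  rw [Finset.prod_congr rfl h1, Finset.prod_mul_distrib, Finset.prod_pow, Finset.prod_const,
    Finset.card_range]

/-- the sequence of one orbit -/
noncomputable def sq (κ : Fˣ →* ℂˣ) (Ψ : ℂ →* ℂ) (ζ : Fˣ) (c : Cu F) (t : ℕ) : ℂ :=
  if per κ c * c.s ∣ t then
    (fun k => (∏ i ∈ Finset.range (per κ c), wt (c.twist (κ ^ i)).χ ζ) ^ k *
      om Ψ (Fintype.card F) c.s (per κ c) k) (t / (per κ c * c.s)) else 0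

theorem sq_zero (κ : Fˣ →* ℂˣ) (Ψ : ℂ →* ℂ) (ζ : Fˣ) (c : Cu F) : sq κ Ψ ζ c 0 = 1 := by
  unfold sq
  rw [if_pos (dvd_zero _), Nat.zero_div]
  simp only [pow_zero, one_mul]
  exact om_zero _ _ _ _

theorem ld_sq (κ : Fˣ →* ℂˣ) (Ψ : ℂ →* ℂ) (ζ : Fˣ) (c : Cu F) (n : ℕ) :
    ld (sq κ Ψ ζ c) n = if per κ c * c.s ∣ n then ((per κ c * c.s : ℕ) : ℂ) *
      ((∏ i ∈ Finset.range (per κ c), wt (c.twist (κ ^ i)).χ ζ) ^ (n / (per κ c * c.s)) *
        ld (om Ψ (Fintype.card F) c.s (per κ c)) (n / (per κ c * c.s))) else 0 := by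
  have h0 : om Ψ (Fintype.card F) c.s (per κ c) 0 = 1 := om_zero _ _ _ _
  have h1 := ld_scale h0 (∏ i ∈ Finset.range (per κ c), wt (c.twist (κ ^ i)).χ ζ)
  have h2 := ld_subst (a := fun k => (∏ i ∈ Finset.range (per κ c),
    wt (c.twist (κ ^ i)).χ ζ) ^ k * om Ψ (Fintype.card F) c.s (per κ c) k)
    (by simp only [pow_zero, one_mul]; exact h0) (Nat.mul_pos (per_pos κ c) c.pos)
  have h3 := congrFun h2 n
  rw [h1] at h3
  exact h3

end Vale.Agent.P275.H341
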