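import Vale.Agent.P275.H341.E2b

/-!
# The sum over the fixed characters in terms of the cuspidal characters: row E2
-/

set_option linter.style.haveILetI false
set_option linter.unusedSectionVars false

namespace Vale.Agent.P275.H341

open scoped BigOperators MatrixGroups
open Module Matrix Vale.Agent.P275.H85

variable {F E : Type} [Field F] [Fintype F] [Field E] [Fintype E] [DecidableEq E] [Algebra F E]

/-- regrouping by the size and the length of the orbit -/
theorem sum_group' {n : ℕ} (hn : 0 < n) (P : Cu E → ℕ) (hP : ∀ c, 0 < P c)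
    (ES : ℕ → ℕ → Finset (Cu E)) (hES : ∀ d j c, 0 < j → (c ∈ ES d j ↔ c.s = d ∧ P c = j))
    (G : ℕ → ℕ → Cu E → ℂ) :
    ∑ c ∈ cuA E n, (if P c * c.s ∣ n then G c.s (P c) c else 0)
      = ∑ d ∈ n.divisors, ∑ j ∈ (n / d).divisors, ∑ c ∈ ES d j, G d j c := by
  classical
  rw [← Finset.sum_filter]
  have h1 : (cuA E n).filter (fun c => P c * c.s ∣ n)
      = n.divisors.biUnion fun d => (n / d).divisors.biUnion fun j => ES d j := by
    ext c
    rw [Finset.mem_filter, mem_cuA, Finset.mem_biUnion]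
    constructor
    · rintro ⟨_, h⟩
      have h2 : c.s ∣ n := dvd_trans (Dvd.intro_left _ rfl) h
      refine ⟨c.s, Nat.mem_divisors.mpr ⟨h2, hn.ne'⟩, ?_⟩
      rw [Finset.mem_biUnion]
      refine ⟨P c, Nat.mem_divisors.mpr ⟨?_, ?_⟩, ?_⟩
      · obtain ⟨k, hk⟩ := h
        refine ⟨k, ?_⟩
        rw [hk, show P c * c.s * k = c.s * (P c * k) from by ring,
          Nat.mul_div_cancel_left _ c.pos]
      · exact (Nat.div_pos (Nat.le_of_dvd hn h2) c.pos).ne'
      · rw [hES _ _ _ (hP c)]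
        exact ⟨rfl, rfl⟩
    · rintro ⟨d, hd, h⟩
      rw [Finset.mem_biUnion] at h
      obtain ⟨j, hj, h⟩ := h
      have hj' := Nat.mem_divisors.mp hj
      have hd' := (Nat.mem_divisors.mp hd).1
      rw [hES _ _ _ (Nat.pos_of_dvd_of_pos hj'.1 (Nat.pos_of_ne_zero hj'.2))] at h
      obtain ⟨rfl, rfl⟩ := h
      refine ⟨Nat.le_of_dvd hn hd', ?_⟩
      have h3 := Nat.mul_dvd_mul hj'.1 (dvd_refl c.s)
      rwa [Nat.div_mul_cancel hd'] at h3
  rw [h1, Finset.sum_biUnion]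
  · apply Finset.sum_congr rfl
    intro d hd
    rw [Finset.sum_biUnion]
    · apply Finset.sum_congr rfl
      intro j hj
      apply Finset.sum_congr rfl
      intro c hc
      have hj' := Nat.mem_divisors.mp hj
      rw [hES _ _ _ (Nat.pos_of_dvd_of_pos hj'.1 (Nat.pos_of_ne_zero hj'.2))] at hc
      rw [hc.1, hc.2]
    · intro j hj j' hj' hne
      show Disjoint _ _
      rw [Finset.disjoint_left]
      intro c hc hc'
      have e1 := Nat.mem_divisors.mp hj
      have e2 := Nat.mem_divisors.mp hj'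
      rw [hES _ _ _ (Nat.pos_of_dvd_of_pos e1.1 (Nat.pos_of_ne_zero e1.2))] at hc
      rw [hES _ _ _ (Nat.pos_of_dvd_of_pos e2.1 (Nat.pos_of_ne_zero e2.2))] at hc'
      exact hne (hc.2.symm.trans hc'.2)
  · intro d hd d' hd' hne
    show Disjoint _ _
    rw [Finset.disjoint_left]
    intro c hc hc'
    rw [Finset.mem_biUnion] at hc hc'
    obtain ⟨j, hj, hc⟩ := hc
    obtain ⟨j', hj', hc'⟩ := hc'
    have e1 := Nat.mem_divisors.mp hj
    have e2 := Nat.mem_divisors.mp hj'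
    rw [hES _ _ _ (Nat.pos_of_dvd_of_pos e1.1 (Nat.pos_of_ne_zero e1.2))] at hc
    rw [hES _ _ _ (Nat.pos_of_dvd_of_pos e2.1 (Nat.pos_of_ne_zero e2.2))] at hc'
    exact hne (hc.1.symm.trans hc'.1)

theorem tf_emb_iff (φ : E ≃ₐ[F] E) (κ : Fˣ →* ℂˣ) (j : ℕ) (a : IrrF E) :
    tf (φ ^ j) (κ⁻¹ ^ j) a = a ↔ ∀ g : GL (Fin a.1) E, a.2.1 (fr (φ ^ j) a.1 g)
      = (((κ ^ j) (nrm F (Matrix.GeneralLinearGroup.det g)) : ℂˣ) : ℂ) * a.2.1 g := by
  have key : ∀ g : GL (Fin a.1) E,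
      (((κ⁻¹ ^ j) (nrm F (Matrix.GeneralLinearGroup.det g)) : ℂˣ) : ℂ) *
        a.2.1 (fr (φ ^ j) a.1 g) = a.2.1 g ↔ a.2.1 (fr (φ ^ j) a.1 g)
      = (((κ ^ j) (nrm F (Matrix.GeneralLinearGroup.det g)) : ℂˣ) : ℂ) * a.2.1 g := by
    intro g
    set x := nrm F (Matrix.GeneralLinearGroup.det g) with hx
    have h1 : (κ⁻¹ ^ j) x = ((κ ^ j) x)⁻¹ := by
      show ((κ x)⁻¹) ^ j = ((κ x) ^ j)⁻¹
      rw [inv_pow]
    have h2 : (((κ ^ j) x : ℂˣ) : ℂ) ≠ 0 := Units.ne_zero _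
    rw [h1, Units.val_inv_eq_inv_val]
    constructor
    · intro h
      rw [← h]
      field_simp
    · intro h
      rw [h]
      field_simp
  constructor
  · intro h g
    rw [← key g]
    have h2 : ∀ b : IrrF E, ∀ hb : b = a, ∀ g : GL (Fin a.1) E,
        b.2.1 (hb ▸ g) = a.2.1 g := by
      intro b hb g
      subst hb
      rfl
    have h3 := h2 _ h g
    obtain ⟨n, χ⟩ := a
    have h4 : (tf (φ ^ j) (κ⁻¹ ^ j) (⟨n, χ⟩ : IrrF E)) = ⟨n, ⟨fun g =>
      (((κ⁻¹ ^ j) (nrm F (Matrix.GeneralLinearGroup.det g)) : ℂˣ) : ℂ) *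
        χ.1 (fr (φ ^ j) n g), (tf (φ ^ j) (κ⁻¹ ^ j) (⟨n, χ⟩ : IrrF E)).2.2⟩⟩ := rfl
    rw [h4] at h
    injection h with _ h5
    exact congrFun (congrArg Subtype.val h5) g
  · intro h
    obtain ⟨n, χ⟩ := a
    have h4 : (tf (φ ^ j) (κ⁻¹ ^ j) (⟨n, χ⟩ : IrrF E)) = ⟨n, ⟨fun g =>
      (((κ⁻¹ ^ j) (nrm F (Matrix.GeneralLinearGroup.det g)) : ℂˣ) : ℂ) *
        χ.1 (fr (φ ^ j) n g), (tf (φ ^ j) (κ⁻¹ ^ j) (⟨n, χ⟩ : IrrF E)).2.2⟩⟩ := rfl
    rw [h4]
    congr 1
    apply Subtype.ext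
    funext g
    exact (key g).mpr (h g)

/-- the sums over the smaller groups vanish -/
theorem sum_fx_zero (C4 : RowC4) {Y : Sys E} {z : Fˣ} {e : ℕ} (T : Tau Y (inc E z) e)
    (φ : E ≃ₐ[F] E) (κ : Fˣ →* ℂˣ) (hT : ∀ a, T.τ.t a = tf φ κ⁻¹ a) (Ψ : ℂ →* ℂ) {n t : ℕ}
    (hz : orderOf z = n * finrank F E) (h0 : 0 < t) (ht : t < n) :
    ∑ a ∈ T.fx t, Y.W Ψ (inc E z) a = 0 := by
  have hfin : Module.Finite F E := Module.Finite.of_finite
  have he : 0 < finrank F E := Module.finrank_pos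
  have h1 : (z ^ finrank F E) ^ t ≠ 1 := by
    intro h
    rw [← pow_mul] at h
    have h2 := orderOf_dvd_of_pow_eq_one h
    rw [hz, mul_comm n] at h2
    have h3 := Nat.le_of_dvd (Nat.mul_pos he h0) h2
    have h4 := Nat.le_of_mul_le_mul_left h3 he
    omega
  obtain ⟨η, hη⟩ := CommGroup.exists_apply_ne_one_of_hasEnoughRootsOfUnity Fˣ ℂ h1
  obtain ⟨τ, hτ1, hτ2, _⟩ := C4 E Y.H Y.con (η.comp (nrm F))
  have hfr1 : ∀ a : IrrF E, tf (1 : E ≃ₐ[F] E) η a = twI (η.comp (nrm F)) a := by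
    rintro ⟨n, χ⟩
    rfl
  have hcomm : ∀ a, T.τ.t (τ.t a) = τ.t (T.τ.t a) := by
    intro a
    have hc : κ⁻¹ * η = η * κ⁻¹ := MonoidHom.ext fun x => mul_comm (κ⁻¹ x) (η x)
    rw [hT, hT, hτ1, hτ1, ← hfr1, ← hfr1, tf_tf, tf_tf, one_mul, mul_one, hc]
  have h2 : ∑ a ∈ T.fx t, Y.W Ψ (inc E z) a
      = ∑ a ∈ T.fx t, Y.W Ψ (inc E z) a * (((η (z ^ finrank F E) : ℂˣ) : ℂ)⁻¹) ^ t := by
    symm
    refine Finset.sum_bij (fun a _ => τ.t a) ?_ ?_ ?_ ?_
    · intro a ha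
      rw [Tau.mem_fx] at ha ⊢
      refine ⟨?_, by rw [hcomm, ha.2]⟩
      rw [hτ1]
      exact ha.1
    · intro a _ a' _ h
      exact τ.t.injective h
    · intro a ha
      rw [Tau.mem_fx] at ha
      refine ⟨τ.t.symm a, ?_, τ.t.apply_symm_apply a⟩
      have e1 : twI (η.comp (nrm F)) (τ.t.symm a) = a := by rw [← hτ1, τ.t.apply_symm_apply]
      rw [Tau.mem_fx]
      constructor
      · rw [← ha.1]
        conv_rhs => rw [← e1]
        rfl
      · apply τ.t.injective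
        rw [← hcomm, τ.t.apply_symm_apply, ha.2]
    · intro a ha
      rw [Tau.mem_fx] at ha
      rw [hτ1]
      unfold Sys.W
      have e2 : (((η (z ^ finrank F E) : ℂˣ) : ℂ)⁻¹) ^ a.1
          = (((η (z ^ finrank F E) : ℂˣ) : ℂ)⁻¹) ^ t := by rw [ha.1]
      rw [hτ2, Sys.wt_twist, MonoidHom.comp_apply, nrm_inc, e2]
      ring
  rw [← Finset.sum_mul] at h2
  have h3 : (((η (z ^ finrank F E) : ℂˣ) : ℂ)⁻¹) ^ t ≠ 1 := by
    intro h
    apply hη
    apply Units.ext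
    rw [map_pow, Units.val_pow_eq_pow_val, Units.val_one]
    rw [inv_pow] at h
    exact inv_eq_one.mp h
  have h4 : (∑ a ∈ T.fx t, Y.W Ψ (inc E z) a) *
      ((((η (z ^ finrank F E) : ℂˣ) : ℂ)⁻¹) ^ t - 1) = 0 := by
    linear_combination -h2
  exact (mul_eq_zero.mp h4).resolve_right (sub_ne_zero.mpr h3)

/-- Row E2 -/
theorem rowE2 (A1 : RowA1) (A2 : RowA2) (A4 : RowA4) (A6 : RowA6) (A7 : RowA7) (A8 : RowA8)
    (C1 : RowC1) (C2 : RowC2) (C3 : RowC3) (C4 : RowC4) (C5 : RowC5) (E1 : RowE1) : RowE2 := by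
  classical
  intro F E _ _ _ _ _ _ _ φ κ n z hn hφ hκ hneg hz Ψ
  obtain ⟨Y, hY⟩ := exists_sys2 (F := E) A1 A2 A6 A7 A8 C1 C2 C3 C4 C5
  obtain ⟨T, hT⟩ := exists_tau E1 C4 φ κ z hφ hκ Y hY
  have hfin : Module.Finite F E := Module.Finite.of_finite
  have he : 0 < finrank F E := Module.finrank_pos
  have hTpow : ∀ (j : ℕ) (a : IrrF E), (T.τ.t ^ j) a = a ↔
      ∀ g : GL (Fin a.1) E, a.2.1 (fr (φ ^ j) a.1 g)
      = (((κ ^ j) (nrm F (Matrix.GeneralLinearGroup.det g)) : ℂˣ) : ℂ) * a.2.1 g := by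
    intro j a
    rw [tf_pow φ κ⁻¹ T.τ.t hT, tf_emb_iff]
  obtain ⟨Q, hQ1, hQ2, hQ3⟩ := T.gen A4 C3 C5 he Ψ n
  have hsum : ∑ χ ∈ tstb φ κ n, Ψ (hh χ) * wt χ (inc E z)
      = ∑ a ∈ T.fx n, Y.W Ψ (inc E z) a := by
    refine Finset.sum_bij (fun χ hχ => (⟨n, ⟨χ, mem_irrSet.mp (Finset.mem_filter.mp hχ).1⟩⟩
      : IrrF E)) ?_ ?_ ?_ ?_
    · intro χ hχ
      rw [Tau.mem_fx]
      refine ⟨rfl, ?_⟩
      have h1 := (hTpow 1 (⟨n, ⟨χ, mem_irrSet.mp (Finset.mem_filter.mp hχ).1⟩⟩ : IrrF E)).mpr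
        (by
          intro g
          have h2 := (Finset.mem_filter.mp hχ).2 g
          have h3 : κ ^ 1 = κ := pow_one κ
          rw [pow_one, h3]
          exact h2)
      rw [pow_one] at h1
      exact h1
    · intro χ hχ χ' hχ' h
      injection h with _ h2
      exact congrArg Subtype.val h2
    · rintro ⟨k, χ⟩ ha
      rw [Tau.mem_fx] at ha
      obtain ⟨rfl, h2⟩ := ha
      refine ⟨χ.1, ?_, rfl⟩
      unfold tstb
      rw [Finset.mem_filter, mem_irrSet]
      refine ⟨χ.2, fun g => ?_⟩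
      have h1 := (hTpow 1 _).mp (by rw [pow_one]; exact h2) g
      have h3 : κ ^ 1 = κ := pow_one κ
      rw [pow_one, h3] at h1
      exact h1
    · intro χ _
      rfl
  rw [hsum, hQ3 n le_rfl, ld_lead Q (fun q => T.sq Ψ q) (fun q _ => T.sq_zero Ψ q) hn (by
    intro t h0 h1
    rw [← hQ3 t h1.le]
    exact sum_fx_zero C4 T φ κ hT Ψ hz h0 h1)]
  have hval : ∀ q ∈ Q, ld (T.sq Ψ q) n = (Function.minimalPeriod T.τ.t q : ℂ) *
      (if Function.minimalPeriod T.τ.t q * q.1 ∣ n then (q.1 : ℂ) *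
        (ld (om Ψ (Fintype.card E) q.1 (Function.minimalPeriod T.τ.t q))
          (n / (Function.minimalPeriod T.τ.t q * q.1)) * wt q.2.1 (inc E z) ^ (n / q.1))
        else 0) := by
    intro q hq
    rw [T.ld_sq he Ψ (hQ1 q hq)]
    split_ifs with hd
    · have hpos : 0 < Function.minimalPeriod T.τ.t q * q.1 :=
        Nat.mul_pos (per_pos' T.τ.t he T.ord q) (hQ1 q hq)
      have e2 : n / q.1 = Function.minimalPeriod T.τ.t q *
          (n / (Function.minimalPeriod T.τ.t q * q.1)) := by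
        obtain ⟨k, hk⟩ := hd
        have e1 : n / (Function.minimalPeriod T.τ.t q * q.1) = k := by
          rw [hk, Nat.mul_div_cancel_left _ hpos]
        rw [e1]
        conv_lhs => rw [hk, show Function.minimalPeriod T.τ.t q * q.1 * k
          = q.1 * (Function.minimalPeriod T.τ.t q * k) from by ring,
          Nat.mul_div_cancel_left _ (hQ1 q hq)]
      rw [e2, pow_mul]
      push_cast
      ring
    · rw [mul_zero]
  rw [Finset.sum_congr rfl hval]
  rw [← hQ2 (fun q => if Function.minimalPeriod T.τ.t q * q.1 ∣ n then (q.1 : ℂ) *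
        (ld (om Ψ (Fintype.card E) q.1 (Function.minimalPeriod T.τ.t q))
          (n / (Function.minimalPeriod T.τ.t q * q.1)) * wt q.2.1 (inc E z) ^ (n / q.1))
        else 0)]
  · have h1 := sum_group' (E := E) hn (fun c => Function.minimalPeriod T.τ.t (emb c))
      (fun c => per_pos' T.τ.t he T.ord (emb c)) (cuT φ κ) (by
        intro d j c hj
        unfold cuT
        rw [Finset.mem_filter, mem_cuS]
        refine and_congr_right fun _ => ?_
        have hTF : ∀ i, TF φ κ i c ↔ (T.τ.t ^ i) (emb c) = emb c := fun i =>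
          (hTpow i (emb c)).symm
        constructor
        · rintro ⟨g1, g2⟩
          apply le_antisymm
          · apply Function.IsPeriodicPt.minimalPeriod_le hj
            show (T.τ.t)^[j] (emb c) = emb c
            rw [Equiv.Perm.iterate_eq_pow]
            exact (hTF j).mp g1
          · by_contra hlt
            push Not at hlt
            apply g2 _ (per_pos' T.τ.t he T.ord (emb c)) hlt
            rw [hTF]
            exact per_spec' T.τ.t (emb c)
        · rintro rfl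
          refine ⟨?_, fun i h0 hi => ?_⟩
          · rw [hTF]
            exact per_spec' T.τ.t (emb c)
          · rw [hTF]
            exact per_min' T.τ.t h0 hi)
      (fun d j c => (d : ℂ) * (ld (om Ψ (Fintype.card E) d j) (n / (j * d)) *
        wt c.χ (inc E z ^ (n / d))))
    have h2 : ∀ c ∈ cuA E n, (if Function.minimalPeriod T.τ.t (emb c) * (emb c).1 ∣ n then
        ((emb c).1 : ℂ) * (ld (om Ψ (Fintype.card E) (emb c).1
          (Function.minimalPeriod T.τ.t (emb c)))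
          (n / (Function.minimalPeriod T.τ.t (emb c) * (emb c).1)) *
            wt (emb c).2.1 (inc E z) ^ (n / (emb c).1)) else 0)
        = if Function.minimalPeriod T.τ.t (emb c) * c.s ∣ n then
        (c.s : ℂ) * (ld (om Ψ (Fintype.card E) c.s
          (Function.minimalPeriod T.τ.t (emb c)))
          (n / (Function.minimalPeriod T.τ.t (emb c) * c.s)) *
            wt c.χ (inc E z ^ (n / c.s))) else 0 := by
      intro c _
      rw [wt_pow c.irr]
      rfl
    rw [Finset.sum_congr rfl h2]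
    refine h1.trans ?_
    apply Finset.sum_congr rfl
    intro d _
    rw [Finset.mul_sum]
    apply Finset.sum_congr rfl
    intro j _
    rw [Finset.mul_sum, Finset.mul_sum]
  · intro a
    have e1 : (T.τ.t a).1 = a.1 := by
      rw [hT]
      rfl
    rw [T.wt, per_shift, e1]

end Vale.Agent.P275.H341
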