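import Mathlib

/-!
# Orbits of a permutation of finite order
-/

namespace Vale.Agent.P275.H341

open scoped BigOperators

variable {α : Type}

theorem per_pos' (u : Equiv.Perm α) {e : ℕ} (he : 0 < e) (hu : u ^ e = 1) (a : α) :
    0 < Function.minimalPeriod u a := by
  apply Function.IsPeriodicPt.minimalPeriod_pos he
  show u^[e] a = a
  rw [Equiv.Perm.iterate_eq_pow, hu, Equiv.Perm.one_apply]

theorem per_spec' (u : Equiv.Perm α) (a : α) : (u ^ Function.minimalPeriod u a) a = a := by
  have h := Function.iterate_minimalPeriod (f := u) (x := a)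
  rwa [Equiv.Perm.iterate_eq_pow] at h

theorem per_min' (u : Equiv.Perm α) {a : α} {i : ℕ} (h0 : 0 < i)
    (h1 : i < Function.minimalPeriod u a) : (u ^ i) a ≠ a := by
  intro h
  have h2 : Function.IsPeriodicPt u i a := by
    show u^[i] a = a
    rw [Equiv.Perm.iterate_eq_pow, h]
  exact absurd (h2.minimalPeriod_le h0) (by omega)

theorem per_shift (u : Equiv.Perm α) (a : α) :
    Function.minimalPeriod u (u a) = Function.minimalPeriod u a := by
  have key : ∀ i : ℕ, Function.IsPeriodicPt u i (u a) ↔ Function.IsPeriodicPt u i a := by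
    intro i
    show u^[i] (u a) = u a ↔ u^[i] a = a
    rw [← Function.iterate_succ_apply, Function.iterate_succ_apply']
    exact u.injective.eq_iff
  apply Nat.dvd_antisymm
  · apply Function.IsPeriodicPt.minimalPeriod_dvd
    rw [key]
    exact Function.isPeriodicPt_minimalPeriod u a
  · apply Function.IsPeriodicPt.minimalPeriod_dvd
    rw [← key]
    exact Function.isPeriodicPt_minimalPeriod u (u a)

theorem exists_reps (u : Equiv.Perm α) {e : ℕ} (he : 0 < e) (hu : u ^ e = 1) (A : Finset α)
    (hA : ∀ a ∈ A, u a ∈ A) :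
    ∃ Q : Finset α, Q ⊆ A ∧ (∀ a ∈ A, ∃ q ∈ Q, ∃ i : ℕ, (u ^ i) q = a) ∧
      (∀ q ∈ Q, ∀ q' ∈ Q, ∀ i : ℕ, (u ^ i) q = q' → q = q') ∧
      ∀ f : α → ℂ, (∀ a, f (u a) = f a) →
        ∑ a ∈ A, f a = ∑ q ∈ Q, (Function.minimalPeriod u q : ℂ) * f q := by
  classical
  have hsymm : ∀ a b : α, (∃ i : ℕ, (u ^ i) a = b) → ∃ i : ℕ, (u ^ i) b = a := by
    rintro a b ⟨i, rfl⟩
    refine ⟨e * i - i, ?_⟩
    rw [← Equiv.Perm.mul_apply, ← pow_add]
    have : e * i - i + i = e * i := Nat.sub_add_cancel (Nat.le_mul_of_pos_left i he)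
    rw [this, pow_mul, hu, one_pow, Equiv.Perm.one_apply]
  let R : Setoid α := ⟨fun a b => ∃ i : ℕ, (u ^ i) a = b, ⟨fun a => ⟨0, by simp⟩,
    fun {a b} h => hsymm a b h, by
      rintro a b d ⟨i, rfl⟩ ⟨j, rfl⟩
      exact ⟨j + i, by rw [pow_add, Equiv.Perm.mul_apply]⟩⟩⟩
  let rep : α → α := fun a => Quotient.out (Quotient.mk R a)
  have rrel : ∀ a, ∃ i : ℕ, (u ^ i) (rep a) = a := fun a =>
    Quotient.exact (s := R) (Quotient.out_eq _)
  have req : ∀ a b, (∃ i : ℕ, (u ^ i) a = b) → rep a = rep b := by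
    intro a b h
    show Quotient.out (Quotient.mk R a) = Quotient.out (Quotient.mk R b)
    rw [Quotient.sound (s := R) h]
  have rrep : ∀ a, rep (rep a) = rep a := fun a => req _ _ (rrel a)
  have hApow : ∀ i : ℕ, ∀ a ∈ A, (u ^ i) a ∈ A := by
    intro i
    induction i with
    | zero => intro a ha; simpa using ha
    | succ i ih =>
      intro a ha
      rw [pow_succ', Equiv.Perm.mul_apply]
      exact hA _ (ih a ha)
  have hrA : ∀ a ∈ A, rep a ∈ A := by
    intro a ha
    obtain ⟨i, hi⟩ := hsymm _ _ (rrel a)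
    rw [← hi]
    exact hApow i a ha
  have hQrep : ∀ q ∈ A.image rep, rep q = q := by
    intro q hq
    obtain ⟨a, _, rfl⟩ := Finset.mem_image.mp hq
    exact rrep a
  have hQA : A.image rep ⊆ A := by
    intro q hq
    obtain ⟨a, ha, rfl⟩ := Finset.mem_image.mp hq
    exact hrA a ha
  refine ⟨A.image rep, hQA, ?_, ?_, ?_⟩
  · intro a ha
    exact ⟨rep a, Finset.mem_image_of_mem _ ha, rrel a⟩
  · intro q hq q' hq' i hi
    rw [← hQrep q hq, ← hQrep q' hq']
    exact req _ _ ⟨i, hi⟩
  · intro f hf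
    have hfpow : ∀ i : ℕ, ∀ a, f ((u ^ i) a) = f a := by
      intro i
      induction i with
      | zero => intro a; simp
      | succ i ih =>
        intro a
        rw [pow_succ', Equiv.Perm.mul_apply, hf, ih]
    rw [← Finset.sum_fiberwise_of_maps_to (g := rep) (t := A.image rep)
      (fun a ha => Finset.mem_image_of_mem _ ha)]
    apply Finset.sum_congr rfl
    intro q hq
    have h1 : A.filter (fun a => rep a = q)
        = (Finset.range (Function.minimalPeriod u q)).image fun i => (u ^ i) q := by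
      ext a
      rw [Finset.mem_filter, Finset.mem_image]
      constructor
      · rintro ⟨_, rfl⟩
        obtain ⟨i, hi⟩ := rrel a
        refine ⟨i % Function.minimalPeriod u (rep a), ?_, ?_⟩
        · rw [Finset.mem_range]
          exact Nat.mod_lt _ (per_pos' u he hu _)
        · have h2 := Function.iterate_mod_minimalPeriod_eq (f := u) (x := rep a) (n := i)
          rw [Equiv.Perm.iterate_eq_pow, Equiv.Perm.iterate_eq_pow] at h2
          rw [h2, hi]
      · rintro ⟨i, _, rfl⟩
        refine ⟨hApow i q (hQA hq), ?_⟩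
        rw [← req q _ ⟨i, rfl⟩]
        exact hQrep q hq
    have h2 : ∀ a ∈ A.filter (fun a => rep a = q), f a = f q := by
      intro a ha
      rw [h1] at ha
      obtain ⟨i, _, rfl⟩ := Finset.mem_image.mp ha
      exact hfpow i q
    rw [Finset.sum_congr rfl h2, Finset.sum_const, nsmul_eq_mul, h1,
      Finset.card_image_of_injOn, Finset.card_range]
    intro i hi j hj hij
    have h3 := Function.iterate_injOn_Iio_minimalPeriod (f := u) (x := q)
    rw [Finset.coe_range] at hi hj
    apply h3 hi hj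
    show u^[i] q = u^[j] q
    rw [Equiv.Perm.iterate_eq_pow, Equiv.Perm.iterate_eq_pow]
    exact hij

end Vale.Agent.P275.H341
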