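import Vale.Agent.P275.H341.Gen

/-!
# The general formula and its lowest weight
-/

namespace Vale.Agent.P275.H341

open scoped BigOperators

/-- the point count of the isotypic part, up to the factor `(q - 1) ^ (2 g - 2)` -/
noncomputable def eG (n m g : ℕ) (q : ℂ) : ℂ :=
  q ^ (n * (n - 1) * (g - 1)) * ((1 / n) * ∑ d ∈ n.divisors,
    ((ArithmeticFunction.moebius d : ℤ) : ℂ) *
      ld (om (powMonoidHom (2 * g - 2)) q d (m / Nat.gcd m d)) (n / Nat.lcm m d))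

/-- Row TOPG: the weights in the lowest degree -/
def RowTopG : Prop :=
  ∀ (n m g : ℕ), 1 ≤ n → m ∣ n → 2 ≤ m → 2 ≤ g → ∀ h : ℕ → ℕ → ℕ,
    (∀ k w, h k w ≠ 0 → k ≤ w ∧ w ≤ 2 * k) →
    (∀ k w, k ≤ 2 * (n * (n - n / m) * (g - 1)) → h k w = 0) →
    (∑ w ∈ Finset.range (2 * (2 * (n * (n - n / m) * (g - 1)) + 1) + 1),
      h (2 * (n * (n - n / m) * (g - 1)) + 1) w = 2 * g - 2) →
    (∀ p : ℕ, p.Prime → p ≡ 1 [MOD 2 * n] →
      ((p : ℂ) - 1) ^ (2 * g - 2) *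
        ∑ k ∈ Finset.range (2 * ((n ^ 2 - 1) * (g - 1)) + 1),
          ∑ w ∈ Finset.range (2 * k + 1), (-1) ^ k * (h k w : ℂ) *
            ((Real.sqrt p : ℝ) : ℂ) ^ (4 * ((n ^ 2 - 1) * (g - 1)) - w) = eG n m g p) →
    (∀ w, h (2 * (n * (n - n / m) * (g - 1)) + 1) w
      = if w = 2 * (n * (n - n / m) * (g - 1) + 1) then 2 * g - 2 else 0) ∧
    h (2 * (n * (n - n / m) * (g - 1)) + 2) (2 * (n * (n - n / m) * (g - 1)) + 2) = 0

end Vale.Agent.P275.H341
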