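import Vale.Agent.P275.H341.Orb2
import Vale.Agent.P275.H341.Rows4

/-!
# The fixed loci: rows
-/

namespace Vale.Agent.P275.H341

open scoped BigOperators MatrixGroups
open Module Matrix Vale.Agent.P275.H85

/-- the action of a field automorphism on the matrices -/
def fr {F E : Type} [Field F] [Field E] [Algebra F E] (φ : E ≃ₐ[F] E) (n : ℕ) :
    GL (Fin n) E →* GL (Fin n) E := Matrix.GeneralLinearGroup.map (φ : E →+* E)

/-- the norm on the units -/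
noncomputable def nrm (F : Type) {E : Type} [Field F] [Field E] [Algebra F E] : Eˣ →* Fˣ :=
  Units.map (Algebra.norm F)

/-- the inclusion of the units -/
def inc {F : Type} (E : Type) [Field F] [Field E] [Algebra F E] : Fˣ →* Eˣ :=
  Units.map (algebraMap F E).toMonoidHom

open scoped Classical in
/-- the irreducible characters `χ` of `GL_n(E)` with `χ (φ g) = κ (N (det g)) χ g` -/
noncomputable def tstb {F E : Type} [Field F] [Field E] [Fintype E] [DecidableEq E] [Algebra F E]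
    (φ : E ≃ₐ[F] E) (κ : Fˣ →* ℂˣ) (n : ℕ) : Finset (GL (Fin n) E → ℂ) :=
  (irrSet (GL (Fin n) E)).filter fun χ =>
    ∀ g, χ (fr φ n g) = ((κ (nrm F (Matrix.GeneralLinearGroup.det g)) : ℂˣ) : ℂ) * χ g

/-- the cuspidal character `c` is fixed by the `j`-th power of the twisted Frobenius map -/
def TF {F E : Type} [Field F] [Field E] [Fintype E] [DecidableEq E] [Algebra F E]
    (φ : E ≃ₐ[F] E) (κ : Fˣ →* ℂˣ) (j : ℕ) (c : Cu E) : Prop :=
  ∀ g, c.χ (fr (φ ^ j) c.s g)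
    = (((κ ^ j) (nrm F (Matrix.GeneralLinearGroup.det g)) : ℂˣ) : ℂ) * c.χ g

open scoped Classical in
/-- the cuspidal characters of size `d` with an orbit of exact length `j` -/
noncomputable def cuT {F E : Type} [Field F] [Field E] [Fintype E] [DecidableEq E] [Algebra F E]
    (φ : E ≃ₐ[F] E) (κ : Fˣ →* ℂˣ) (d j : ℕ) : Finset (Cu E) :=
  (cuS E d).filter fun c => TF φ κ j c ∧ ∀ i, 0 < i → i < j → ¬ TF φ κ i c

/-- Row E1: the Frobenius automorphism -/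
def RowE1 : Prop := ∀ (F E : Type) [Field F] [Field E] [Fintype E] [DecidableEq E] [Algebra F E]
  (φ : E ≃ₐ[F] E) (H : PSH (IrrF E)), Con E H → ∃ τ : H.Aut,
    (∀ a : IrrF E, (τ.t a).1 = a.1) ∧
    (∀ (n : ℕ) (χ : {χ : GL (Fin n) E → ℂ // IsIrrChar χ}),
      ∃ χ' : {χ : GL (Fin n) E → ℂ // IsIrrChar χ}, τ.t ⟨n, χ⟩ = ⟨n, χ'⟩ ∧
        (∀ g, χ'.1 g = χ.1 (fr φ n g))) ∧
    ∀ (ψ : AddChar E ℂ), ψ ≠ 1 → ∀ a : IrrF E, whit ψ (τ.t a).2.1 = whit ψ a.2.1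

/-- Row E2: the sum over the fixed characters in terms of the cuspidal characters -/
def RowE2 : Prop := ∀ (F E : Type) [Field F] [Fintype F] [DecidableEq F] [Field E] [Fintype E]
  [DecidableEq E] [Algebra F E] (φ : E ≃ₐ[F] E) (κ : Fˣ →* ℂˣ) (n : ℕ) (z : Fˣ), 1 ≤ n →
  orderOf φ = finrank F E → orderOf κ = finrank F E → κ (-1) = 1 →
  orderOf z = n * finrank F E → ∀ Ψ : ℂ →* ℂ,
    (n : ℂ) * ∑ χ ∈ tstb φ κ n, Ψ (hh χ) * wt χ (inc E z)
      = ∑ d ∈ n.divisors, (d : ℂ) * ∑ j ∈ (n / d).divisors,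
        ld (om Ψ (Fintype.card E) d j) (n / (j * d)) *
          ∑ c ∈ cuT φ κ d j, wt c.χ (inc E z ^ (n / d))

/-- Row E4: the sum over all fixed characters -/
def RowE4 : Prop := ∀ (F E : Type) [Field F] [Fintype F] [DecidableEq F] [Field E] [Fintype E]
  [DecidableEq E] [Algebra F E] (φ : E ≃ₐ[F] E) (κ : Fˣ →* ℂˣ) (n : ℕ) (z : Fˣ) (b : Eˣ), 1 ≤ n →
  orderOf φ = finrank F E → orderOf κ = finrank F E → κ (-1) = 1 →
  orderOf z = n * finrank F E → φ b = algebraMap F E ((z : F) ^ n) * b →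
    ∑ χ ∈ tstb φ κ n, wt χ (inc E z)
      = ((Fintype.card F : ℂ) - 1) * ((κ (nrm F b) : ℂˣ) : ℂ)⁻¹

/-- Row E5: the cuspidal sums -/
def RowE5 : Prop := ∀ (F E : Type) [Field F] [Fintype F] [DecidableEq F] [Field E] [Fintype E]
  [DecidableEq E] [Algebra F E] (φ : E ≃ₐ[F] E) (κ : Fˣ →* ℂˣ) (n d j : ℕ) (z : Fˣ) (b : Eˣ),
  1 ≤ n → d ∣ n → j ∣ n / d →
  orderOf φ = finrank F E → orderOf κ = finrank F E → κ (-1) = 1 →
  orderOf z = n * finrank F E → φ b = algebraMap F E ((z : F) ^ n) * b →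
    ∑ c ∈ cuT φ κ d j, wt c.χ (inc E z ^ (n / d))
      = if Nat.Coprime d (finrank F E) ∧ j.primeFactors ⊆ (finrank F E).primeFactors then
        ((Fintype.card F : ℂ) - 1) * ((κ (nrm F b) : ℂˣ) : ℂ)⁻¹ *
          (((ArithmeticFunction.moebius d : ℤ) : ℂ) * ((ArithmeticFunction.moebius j : ℤ) : ℂ)) / d
        else 0

/-- Row E6: the roots of unity -/
def RowE6 : Prop := ∀ (F E : Type) [Field F] [Fintype F] [DecidableEq F] [Field E] [Fintype E]
  [DecidableEq E] [Algebra F E] (κ : Fˣ →* ℂˣ) (ε : Fˣ),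
  orderOf κ = finrank F E → κ (-1) = 1 → orderOf ε = finrank F E →
  ∃ b : (E ≃ₐ[F] E) → Eˣ,
    (∀ φ, φ (b φ) = algebraMap F E (ε : F) * b φ ∨ orderOf φ ≠ finrank F E) ∧
    ∑ φ : E ≃ₐ[F] E, (if orderOf φ = finrank F E then ((κ (nrm F (b φ)) : ℂˣ) : ℂ)⁻¹ else 0)
      = ((ArithmeticFunction.moebius (finrank F E) : ℤ) : ℂ)

/-- Row E7: the arithmetic identity -/
def RowE7 : Prop := ∀ (m r : ℕ) (P : ℕ → ℕ → ℕ → ℂ), 0 < m → 0 < r →
  ∑ e ∈ m.divisors, ((ArithmeticFunction.moebius e : ℤ) : ℂ) *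
    ∑ d ∈ r.divisors, ∑ j ∈ (r / d).divisors,
      (if Nat.Coprime d e ∧ j.primeFactors ⊆ e.primeFactors then
        ((ArithmeticFunction.moebius d : ℤ) : ℂ) * ((ArithmeticFunction.moebius j : ℤ) : ℂ) *
          P (r / (j * d)) (e * d) (m / e * j) else 0)
    = ∑ D ∈ (m * r).divisors, ((ArithmeticFunction.moebius D : ℤ) : ℂ) *
      P (m * r / Nat.lcm m D) D (m / Nat.gcd m D)

/-- the shift of a power of a group composed with `φ` on one factor -/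
def shf {G : Type} {e : ℕ} (φ : G → G) (b : Fin e → G) : Fin e → G := fun i =>
  if h : (i : ℕ) + 1 < e then b ⟨i + 1, h⟩ else φ (b ⟨0, lt_of_le_of_lt (Nat.zero_le _) i.2⟩)

open scoped Classical in
/-- Row E8: the twisted Frobenius formula -/
def RowE8 : Prop := ∀ (G : Type) [Group G] [Fintype G] (φ : G ≃* G) (η : G →* ℂˣ) (z : G)
  (e h : ℕ), 0 < e → (∀ g, η (φ g) = η g) → (∀ g, z * g = g * z) → φ z = z →
    (∑ a : Fin e → G, ∑ b : Fin e → G, ∑ A : Fin h → Fin e → G, ∑ B : Fin h → Fin e → G,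
      if a * shf φ b * a⁻¹ * b⁻¹ * (List.ofFn fun i => A i * B i * (A i)⁻¹ * (B i)⁻¹).prod
        = fun _ => z then ∏ i, ((η (b i) : ℂˣ) : ℂ) else 0)
    = (Fintype.card G : ℂ) ^ e * (((η z : ℂˣ) : ℂ) ^ (e * (e - 1) / 2) *
      ∑ χ ∈ (irrSet G).filter (fun χ => ∀ g, χ (φ g) = ((η g : ℂˣ) : ℂ) ^ e * χ g),
        ((Fintype.card G : ℂ) / χ 1) ^ (2 * h * e) * (χ (z ^ e) / χ 1))

open scoped Classical in
/-- the sum over the twisted form of the fixed locus -/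
noncomputable def twSum {F E : Type} [Field F] [Field E] [Fintype E] [DecidableEq E] [Algebra F E]
    (φ : E ≃ₐ[F] E) (e r g : ℕ) (ζ : Fˣ) (κ : Fˣ →* ℂˣ) : ℂ :=
  ∑ a : Fin e → GL (Fin r) E, ∑ b : Fin e → GL (Fin r) E,
    ∑ A : Fin (g - 1) → Fin e → GL (Fin r) E, ∑ B : Fin (g - 1) → Fin e → GL (Fin r) E,
      if a * shf (fr φ r) b * a⁻¹ * b⁻¹ *
          (List.ofFn fun i => A i * B i * (A i)⁻¹ * (B i)⁻¹).prod
        = fun _ => Matrix.GeneralLinearGroup.scalar (Fin r) (inc E ζ) then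
      ∏ i, ((κ (nrm F (Matrix.GeneralLinearGroup.det (b i))) : ℂˣ) : ℂ) else 0

end Vale.Agent.P275.H341
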