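import Vale.Agent.P275.H341.Cnt
import Vale.Agent.P275.H341.Og
import Vale.Agent.P275.H341.Rows5

/-!
# The systems of families and the automorphisms
-/

set_option linter.style.haveILetI false
set_option linter.unusedSectionVars false

namespace Vale.Agent.P275.H341

open scoped BigOperators MatrixGroups
open Module Matrix Vale.Agent.P275.H85

variable {F : Type} [Field F] [Fintype F] [DecidableEq F]

theorem exists_sys2 (A1 : RowA1) (A2 : RowA2) (A6 : RowA6) (A7 : RowA7) (A8 : RowA8)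
    (C1 : RowC1) (C2 : RowC2) (C3 : RowC3) (C4 : RowC4) (C5 : RowC5) :
    ∃ Y : Sys F, ∀ τ : Y.H.Aut, (∀ (ψ : AddChar F ℂ), ψ ≠ 1 → ∀ a : IrrF F,
      whit ψ (τ.t a).2.1 = whit ψ a.2.1) → ∀ p, Y.H.Pr p →
      Y.H.Pr (τ.t p) ∧ ∀ k, ∀ lam ∈ Pt k, τ.t (Y.S p k lam) = Y.S (τ.t p) k lam := by
  obtain ⟨H, con⟩ := C1 F
  have hD := C3 F H con
  obtain ⟨w, hw, hrel⟩ := C2 F H con
  obtain ⟨ψ, hψ⟩ := exists_psi (F := F)
  have hq : ∀ n, 0 < n → (Fintype.card F : ℂ) ^ n ≠ 1 := by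
    intro n hn h
    exact q_pow_sub_ne (F := F) hn (by rw [h, sub_self])
  have hwp : ∀ p, H.Pr p → w p = 1 := by
    intro p hp
    obtain ⟨c, rfl⟩ := (C5 F H con p).mp hp
    have h1 := hw ψ hψ ⟨c.s, ⟨c.χ, c.irr⟩⟩
    rw [H769.whit_cusp c hψ] at h1
    exact_mod_cast h1
  have h7 := fun p hp => A7 _ H (fun a => (hh a.2.1)⁻¹) w (Fintype.card F : ℂ) hD hrel hq p hp
    (hwp p hp)
  have hex : ∀ p, ∃ (x : ℕ → IrrF F) (s : (k : ℕ) → (Fin k → ℕ) → IrrF F), H.Pr p →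
      H.Chain p x ∧ w (x 2) = 0 ∧ H.Fam p x s := by
    intro p
    by_cases hp : H.Pr p
    · obtain ⟨⟨z, ⟨hz1, hz2⟩, _⟩, _⟩ := h7 p hp
      obtain ⟨x, ⟨hx1, hx2⟩, _⟩ := A1 _ H p z hp hz1
      obtain ⟨s, hs⟩ := A2 _ H p x hp hx1
      exact ⟨x, s, fun _ => ⟨hx1, by rw [hx2]; exact hz2, hs⟩⟩
    · exact ⟨fun _ => H.one, fun _ _ => H.one, fun h => absurd h hp⟩
  choose X S hXS using hex
  have hhS : ∀ p, H.Pr p → ∀ k, ∀ lam ∈ Pt k,
      hh (S p k lam).2.1 = hk ((Fintype.card F : ℂ) ^ H.deg p) lam := by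
    intro p hp k lam hlam
    obtain ⟨h1, h2, h3⟩ := hXS p hp
    have h4 := (A6 _ H p (X p) (S p) hp h1 h3).1 _ hD k lam hlam
    have h5 := ((h7 p hp).2 (X p) h1 h2).2
    have h6 := A8 ((Fintype.card F : ℂ) ^ H.deg p) (pow_ne_zero _ q_ne) (by
      intro n hn
      rw [← pow_mul]
      exact hq _ (Nat.mul_pos hp.1 hn)) k lam hlam
    have h8 : (fun i => (hh (X p i).2.1)⁻¹) = fun i => ∏ t ∈ Finset.range i,
        (((Fintype.card F : ℂ) ^ H.deg p) ^ (t + 1) - 1)⁻¹ := by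
      funext i
      rw [h5 i]
      apply Finset.prod_congr rfl
      intro t _
      rw [pow_mul]
    rw [h8] at h4
    rw [← h4] at h6
    have h9 : hh (S p k lam).2.1 ≠ 0 := by
      intro h0
      rw [h0, _root_.inv_zero, zero_mul] at h6
      exact zero_ne_one h6
    field_simp at h6
    exact h6.symm
  have htS : ∀ τ : H.Aut, (∀ (ψ : AddChar F ℂ), ψ ≠ 1 → ∀ a : IrrF F,
      whit ψ (τ.t a).2.1 = whit ψ a.2.1) → ∀ p, H.Pr p →
      H.Pr (τ.t p) ∧ ∀ k, ∀ lam ∈ Pt k, τ.t (S p k lam) = S (τ.t p) k lam := by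
    intro τ ht3 p hp
    obtain ⟨h1, h2, h3⟩ := hXS p hp
    obtain ⟨g1, g2, g3⟩ := (A6 _ H p (X p) (S p) hp h1 h3).2.1 τ
    refine ⟨g1, fun k lam hlam => ?_⟩
    have hwt : ∀ a, w (τ.t a) = w a := by
      intro a
      have e1 := hw ψ hψ (τ.t a)
      rw [ht3 ψ hψ, ← hw ψ hψ a] at e1
      exact_mod_cast e1
    obtain ⟨h1', h2', h3'⟩ := hXS (τ.t p) g1
    obtain ⟨z, _, huniq⟩ := (h7 (τ.t p) g1).1
    have e2 : ∀ x, H.Chain (τ.t p) x → H.c (τ.t p) (τ.t p) (x 2) ≠ 0 := by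
      intro x hx
      have := hx.cself 1 1
      rw [hx.first] at this
      rw [show (1 : ℕ) + 1 = 2 from rfl] at this
      omega
    have e3 : X (τ.t p) 2 = z := huniq _ ⟨e2 _ h1', h2'⟩
    have e4 : τ.t (X p 2) = z := huniq _ ⟨e2 _ g2, by rw [hwt]; exact h2⟩
    have e5 : (fun i => τ.t (X p i)) = X (τ.t p) := by
      have hu := A1 _ H (τ.t p) z g1 (by rw [← e3]; exact e2 _ h1')
      exact hu.unique ⟨g2, e4⟩ ⟨h1', e3⟩
    rw [e5] at g3
    exact (A6 _ H (τ.t p) (X (τ.t p)) (S (τ.t p)) g1 h1' h3').2.2 _ g3 k lam hlam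
  refine ⟨⟨H, con, X, S, fun p hp => (hXS p hp).1, fun p hp => (hXS p hp).2.2, hhS, ?_⟩, htS⟩
  intro p hp κ k lam hlam
  obtain ⟨τ, ht1, _, ht3⟩ := C4 F H con κ
  have h := (htS τ (fun ψ _ a => by rw [ht1]; exact ht3 ψ a) p hp).2 k lam hlam
  rw [ht1, ht1] at h
  exact h

/-- a permutation of the irreducible characters which preserves the structure and the weights -/
structure Tau (Y : Sys F) (z : Fˣ) (e : ℕ) where
  τ : Y.H.Aut
  pr : ∀ p, Y.H.Pr p → Y.H.Pr (τ.t p)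
  S : ∀ p, Y.H.Pr p → ∀ k, ∀ lam ∈ Pt k, τ.t (Y.S p k lam) = Y.S (τ.t p) k lam
  ord : τ.t ^ e = 1
  wt : ∀ a, wt (τ.t a).2.1 z = wt a.2.1 z

namespace Tau

variable {Y : Sys F} {z : Fˣ} {e : ℕ} (T : Tau Y z e)

theorem pr_pow {p : IrrF F} (hp : Y.H.Pr p) (i : ℕ) : Y.H.Pr ((T.τ.t ^ i) p) := by
  induction i with
  | zero => simpa using hp
  | succ i ih =>
    rw [pow_succ', Equiv.Perm.mul_apply]
    exact T.pr _ ih

theorem deg_pow (a : IrrF F) (i : ℕ) : ((T.τ.t ^ i) a).1 = a.1 := by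
  induction i with
  | zero => simp
  | succ i ih =>
    rw [pow_succ', Equiv.Perm.mul_apply, ← Y.con.deg, T.τ.deg, Y.con.deg, ih]

theorem wt_pow (a : IrrF F) (i : ℕ) :
    Vale.Agent.P275.H341.wt ((T.τ.t ^ i) a).2.1 z = Vale.Agent.P275.H341.wt a.2.1 z := by
  induction i with
  | zero =>
    have h : (T.τ.t ^ 0) a = a := by rw [pow_zero, Equiv.Perm.one_apply]
    rw [h]
  | succ i ih => rw [pow_succ', Equiv.Perm.mul_apply, T.wt, ih]

open scoped Classical in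
/-- the fixed elements of degree `n` -/
noncomputable def fx (n : ℕ) : Finset (IrrF F) := (Y.H.lvl n).filter fun a => T.τ.t a = a

theorem mem_fx {n : ℕ} {a : IrrF F} : a ∈ T.fx n ↔ a.1 = n ∧ T.τ.t a = a := by
  classical
  unfold fx
  rw [Finset.mem_filter, Y.H.mem_lvl, Y.con.deg]

/-- the sequence of one orbit -/
noncomputable def sq (Ψ : ℂ →* ℂ) (a : IrrF F) (t : ℕ) : ℂ :=
  if Function.minimalPeriod T.τ.t a * a.1 ∣ t then
    (fun k => (Vale.Agent.P275.H341.wt a.2.1 z ^ Function.minimalPeriod T.τ.t a) ^ k *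
      om Ψ (Fintype.card F) a.1 (Function.minimalPeriod T.τ.t a) k)
      (t / (Function.minimalPeriod T.τ.t a * a.1)) else 0

theorem sq_zero (Ψ : ℂ →* ℂ) (a : IrrF F) : T.sq Ψ a 0 = 1 := by
  unfold sq
  rw [if_pos (dvd_zero _), Nat.zero_div]
  simp only [pow_zero, one_mul]
  exact om_zero _ _ _ _

theorem ld_sq (he : 0 < e) (Ψ : ℂ →* ℂ) {a : IrrF F} (ha : 0 < a.1) (n : ℕ) :
    ld (T.sq Ψ a) n = if Function.minimalPeriod T.τ.t a * a.1 ∣ n then
      ((Function.minimalPeriod T.τ.t a * a.1 : ℕ) : ℂ) *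
      ((Vale.Agent.P275.H341.wt a.2.1 z ^ Function.minimalPeriod T.τ.t a) ^
          (n / (Function.minimalPeriod T.τ.t a * a.1)) *
        ld (om Ψ (Fintype.card F) a.1 (Function.minimalPeriod T.τ.t a))
          (n / (Function.minimalPeriod T.τ.t a * a.1))) else 0 := by
  have h0 : om Ψ (Fintype.card F) a.1 (Function.minimalPeriod T.τ.t a) 0 = 1 := om_zero _ _ _ _
  have h1 := ld_scale h0 (Vale.Agent.P275.H341.wt a.2.1 z ^ Function.minimalPeriod T.τ.t a)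
  have h2 := ld_subst (a := fun k =>
    (Vale.Agent.P275.H341.wt a.2.1 z ^ Function.minimalPeriod T.τ.t a) ^ k *
      om Ψ (Fintype.card F) a.1 (Function.minimalPeriod T.τ.t a) k)
    (by simp only [pow_zero, one_mul]; exact h0)
    (Nat.mul_pos (per_pos' T.τ.t he T.ord a) ha)
  have h3 := congrFun h2 n
  rw [h1] at h3
  exact h3

theorem gen (A4 : RowA4) (C3 : RowC3) (C5 : RowC5) (he : 0 < e) (Ψ : ℂ →* ℂ) (N : ℕ) :
    ∃ Q : Finset (IrrF F), (∀ q ∈ Q, 0 < q.1) ∧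
      (∀ f : IrrF F → ℂ, (∀ a, f (T.τ.t a) = f a) → ∑ c ∈ cuA F N, f (emb c)
        = ∑ q ∈ Q, (Function.minimalPeriod T.τ.t q : ℂ) * f q) ∧
      ∀ n ≤ N, ∑ a ∈ T.fx n, Y.W Ψ z a
        = PowerSeries.coeff n (∏ q ∈ Q, PowerSeries.mk (T.sq Ψ q)) := by
  classical
  have hA : ∀ a ∈ (cuA F N).image emb, T.τ.t a ∈ (cuA F N).image emb := by
    intro a ha
    obtain ⟨c, hc, rfl⟩ := Finset.mem_image.mp ha
    have h1 := T.pr _ ((C5 F Y.H Y.con (emb c)).mpr ⟨c, rfl⟩)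
    obtain ⟨c', hc'⟩ := (C5 F Y.H Y.con _).mp h1
    have h2 : T.τ.t (emb c) = emb c' := hc'
    rw [h2]
    apply Finset.mem_image_of_mem
    rw [mem_cuA] at hc ⊢
    have h3 : (T.τ.t (emb c)).1 = c.s := by
      have := T.deg_pow (emb c) 1
      rw [pow_one] at this
      exact this
    rw [h2] at h3
    have h4 : c'.s = c.s := h3
    omega
  obtain ⟨Q, hQ1, hQ2, hQ3, hQ4⟩ := exists_reps T.τ.t he T.ord ((cuA F N).image emb) hA
  have hQc : ∀ q ∈ Q, ∃ c : Cu F, c.s ≤ N ∧ emb c = q := by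
    intro q hq
    obtain ⟨c, hc, h⟩ := Finset.mem_image.mp (hQ1 hq)
    exact ⟨c, mem_cuA.mp hc, h⟩
  have hQp : ∀ q ∈ Q, Y.H.Pr q := by
    intro q hq
    obtain ⟨c, _, rfl⟩ := hQc q hq
    exact (C5 F Y.H Y.con _).mpr ⟨c, rfl⟩
  refine ⟨Q, ?_, ?_, ?_⟩
  · intro q hq
    obtain ⟨c, _, rfl⟩ := hQc q hq
    exact c.pos
  · intro f hf
    rw [← hQ4 f hf, Finset.sum_image fun a _ b _ hab => emb_inj hab]
  · intro n hn
    have h := A4 (IrrF F) Y.H T.τ (Y.W Ψ z) N Y.S Y.X Q (Function.minimalPeriod T.τ.t) T.fx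
      (Y.W_one C3 Ψ z) (fun a b z hab => Y.W_prod C3 Ψ _ hab)
      (fun p hp => ⟨Y.hX p hp, Y.hS p hp⟩) T.S
      (fun q hq => ⟨hQp q hq, per_pos' T.τ.t he T.ord q, per_spec' T.τ.t q,
        fun i h0 h1 => per_min' T.τ.t h0 h1⟩)
      hQ3
      (by
        intro p hp hdeg
        obtain ⟨c, rfl⟩ := (C5 F Y.H Y.con p).mp hp
        rw [Y.con.deg] at hdeg
        exact hQ2 (emb c) (Finset.mem_image_of_mem _ (mem_cuA.mpr hdeg)))
      (by
        intro k a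
        rw [mem_fx, Y.H.mem_lvl, Y.con.deg]) n hn
    rw [h]
    congr 1
    apply Finset.prod_congr rfl
    intro q hq
    congr 1
    funext t
    unfold sq
    rw [Y.con.deg]
    split_ifs with hd
    · unfold om
      dsimp only
      rw [Finset.mul_sum]
      apply Finset.sum_congr rfl
      intro lam hlam
      have h1 : ∀ i ∈ Finset.range (Function.minimalPeriod T.τ.t q),
          Y.W Ψ z (Y.S ((T.τ.t ^ i) q) (t / (Function.minimalPeriod T.τ.t q * q.1)) lam)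
          = Vale.Agent.P275.H341.wt q.2.1 z ^ (t / (Function.minimalPeriod T.τ.t q * q.1)) *
            Ψ (hk ((Fintype.card F : ℂ) ^ q.1) lam) := by
        intro i _
        have hp := T.pr_pow (hQp q hq) i
        unfold Sys.W
        rw [Y.hh_S _ hp _ lam hlam, Y.wt_S hp z hlam, Y.con.deg, T.wt_pow, T.deg_pow, mul_comm]
      rw [Finset.prod_congr rfl h1, Finset.prod_const, Finset.card_range, mul_pow, ← pow_mul,
        ← pow_mul, mul_comm (t / (Function.minimalPeriod T.τ.t q * q.1))]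
    · rfl

end Tau

end Vale.Agent.P275.H341
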