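import Vale.Agent.P275.H341.E2a
import Vale.Agent.P275.H93.E1

/-!
# The twisted Frobenius map
-/

set_option linter.style.haveILetI false
set_option linter.unusedSectionVars false

namespace Vale.Agent.P275.H341

open scoped BigOperators MatrixGroups
open Module Matrix Vale.Agent.P275.H85

variable {F E : Type} [Field F] [Field E] [Fintype E] [DecidableEq E] [Algebra F E]

/-- the twisted Frobenius map on the irreducible characters -/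
noncomputable def tf (φ : E ≃ₐ[F] E) (η : Fˣ →* ℂˣ) (a : IrrF E) : IrrF E :=
  twI (η.comp (nrm F)) (H93.frI (φ : E ≃+* E) a)

theorem tf_val (φ : E ≃ₐ[F] E) (η : Fˣ →* ℂˣ) (a : IrrF E) (g : GL (Fin a.1) E) :
    (tf φ η a).2.1 g = ((η (nrm F (Matrix.GeneralLinearGroup.det g)) : ℂˣ) : ℂ) *
      a.2.1 (fr φ a.1 g) := rfl

theorem tf_eq {φ : E ≃ₐ[F] E} {η : Fˣ →* ℂˣ} {a b : IrrF E} {φ' : E ≃ₐ[F] E} {η' : Fˣ →* ℂˣ}
    (h1 : b = a) (h : ∀ g : GL (Fin a.1) E,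
      ((η (nrm F (Matrix.GeneralLinearGroup.det g)) : ℂˣ) : ℂ) * a.2.1 (fr φ a.1 g)
      = ((η' (nrm F (Matrix.GeneralLinearGroup.det g)) : ℂˣ) : ℂ) * a.2.1 (fr φ' a.1 g)) :
    tf φ η a = tf φ' η' b := by
  subst h1
  unfold tf twI
  congr 2
  funext g
  exact h g

theorem nrm_fr (φ : E ≃ₐ[F] E) {n : ℕ} (g : GL (Fin n) E) :
    nrm F (Matrix.GeneralLinearGroup.det (fr φ n g))
      = nrm F (Matrix.GeneralLinearGroup.det g) := by
  unfold fr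
  rw [Matrix.GeneralLinearGroup.map_det]
  apply Units.ext
  exact Algebra.norm_eq_of_algEquiv φ _

theorem fr_fr (φ φ' : E ≃ₐ[F] E) {n : ℕ} (g : GL (Fin n) E) :
    fr φ' n (fr φ n g) = fr (φ' * φ) n g := by
  apply Matrix.GeneralLinearGroup.ext
  intro i j
  rfl

theorem fr_one {n : ℕ} (g : GL (Fin n) E) : fr (1 : E ≃ₐ[F] E) n g = g := by
  apply Matrix.GeneralLinearGroup.ext
  intro i j
  rfl

theorem tf_tf (φ φ' : E ≃ₐ[F] E) (η η' : Fˣ →* ℂˣ) (a : IrrF E) :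
    tf φ η (tf φ' η' a) = tf (φ' * φ) (η * η') a := by
  have key : ∀ g : GL (Fin a.1) E, ((η (nrm F (Matrix.GeneralLinearGroup.det g)) : ℂˣ) : ℂ) *
    (((η' (nrm F (Matrix.GeneralLinearGroup.det (fr φ a.1 g))) : ℂˣ) : ℂ) *
      a.2.1 (fr φ' a.1 (fr φ a.1 g))) =
    (((η * η') (nrm F (Matrix.GeneralLinearGroup.det g)) : ℂˣ) : ℂ) *
      a.2.1 (fr (φ' * φ) a.1 g) := by
    intro g
    rw [nrm_fr, fr_fr, MonoidHom.mul_apply, Units.val_mul]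
    ring
  unfold tf twI
  congr 2
  funext g
  exact key g

theorem tf_one (a : IrrF E) : tf (1 : E ≃ₐ[F] E) 1 a = a := by
  obtain ⟨n, χ, hχ⟩ := a
  have key : ∀ g : GL (Fin n) E,
      (((1 : Fˣ →* ℂˣ) (nrm F (Matrix.GeneralLinearGroup.det g)) : ℂˣ) : ℂ) *
      χ (fr (1 : E ≃ₐ[F] E) n g) = χ g := by
    intro g
    rw [fr_one, MonoidHom.one_apply, Units.val_one, one_mul]
  unfold tf twI
  congr 2
  funext g
  exact key g

theorem tf_pow (φ : E ≃ₐ[F] E) (η : Fˣ →* ℂˣ) (t : Equiv.Perm (IrrF E))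
    (ht : ∀ a, t a = tf φ η a) (i : ℕ) (a : IrrF E) : (t ^ i) a = tf (φ ^ i) (η ^ i) a := by
  induction i with
  | zero =>
    have h0 : η ^ 0 = 1 := pow_zero η
    rw [pow_zero, pow_zero, h0, Equiv.Perm.one_apply, tf_one]
  | succ i ih =>
    have h0 : η ^ (i + 1) = η * η ^ i := pow_succ' η i
    rw [pow_succ', Equiv.Perm.mul_apply, ih, ht, tf_tf, h0, pow_succ]

theorem nrm_inc [Fintype F] (z : Fˣ) : nrm F (inc E z) = z ^ finrank F E := by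
  apply Units.ext
  rw [Units.val_pow_eq_pow_val]
  exact Algebra.norm_algebraMap (z : F)

theorem fr_scal (φ : E ≃ₐ[F] E) (n : ℕ) (z : Fˣ) :
    fr φ n (scal n (inc E z)) = scal n (inc E z) := by
  apply Matrix.GeneralLinearGroup.ext
  intro i j
  show φ ((Matrix.scalar (Fin n) ((inc E z : Eˣ) : E)) i j)
    = (Matrix.scalar (Fin n) ((inc E z : Eˣ) : E)) i j
  rw [Matrix.scalar_apply, Matrix.diagonal_apply]
  split_ifs
  · exact φ.commutes (z : F)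
  · exact map_zero φ

theorem wt_frI (φ : E ≃ₐ[F] E) (a : IrrF E) (z : Fˣ) :
    wt (H93.frI (φ : E ≃+* E) a).2.1 (inc E z) = wt a.2.1 (inc E z) := by
  have h1 : wt (H93.frI (φ : E ≃+* E) a).2.1 (inc E z)
      = a.2.1 (fr φ a.1 (scal a.1 (inc E z))⁻¹) / a.2.1 (fr φ a.1 1) := rfl
  rw [h1, map_inv, fr_scal, map_one]
  rfl

theorem wt_tf [Fintype F] (φ : E ≃ₐ[F] E) (η : Fˣ →* ℂˣ) (a : IrrF E) (z : Fˣ) :
    wt (tf φ η a).2.1 (inc E z)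
      = wt a.2.1 (inc E z) * (((η (z ^ finrank F E) : ℂˣ) : ℂ)⁻¹) ^ a.1 := by
  unfold tf
  rw [Sys.wt_twist, wt_frI, MonoidHom.comp_apply, nrm_inc]
  rfl

theorem hh_frI (φ : E ≃ₐ[F] E) (a : IrrF E) :
    hh (H93.frI (φ : E ≃+* E) a).2.1 = hh a.2.1 := by
  have h1 : (H93.frI (φ : E ≃+* E) a).2.1 1 = a.2.1 (fr φ a.1 1) := rfl
  unfold hh
  rw [h1, map_one]
  rfl

theorem hh_tf (C4 : RowC4) (Y : Sys E) (φ : E ≃ₐ[F] E) (η : Fˣ →* ℂˣ) (a : IrrF E) :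
    hh (tf φ η a).2.1 = hh a.2.1 := by
  unfold tf
  obtain ⟨_, _, h2, _⟩ := C4 E Y.H Y.con (η.comp (nrm F))
  rw [h2, hh_frI]

/-- the permutation given by the twisted Frobenius map -/
theorem exists_tau [Fintype F] (E1 : RowE1) (C4 : RowC4) (φ : E ≃ₐ[F] E) (κ : Fˣ →* ℂˣ) (z : Fˣ)
    (hφ : orderOf φ = finrank F E) (hκ : orderOf κ = finrank F E) (Y : Sys E)
    (hY : ∀ τ : Y.H.Aut, (∀ (ψ : AddChar E ℂ), ψ ≠ 1 → ∀ a : IrrF E,
      whit ψ (τ.t a).2.1 = whit ψ a.2.1) → ∀ p, Y.H.Pr p →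
      Y.H.Pr (τ.t p) ∧ ∀ k, ∀ lam ∈ Pt k, τ.t (Y.S p k lam) = Y.S (τ.t p) k lam) :
    ∃ T : Tau Y (inc E z) (finrank F E), ∀ a, T.τ.t a = tf φ κ⁻¹ a := by
  obtain ⟨τ1, _, h2, h3⟩ := E1 F E φ Y.H Y.con
  obtain ⟨τ2, g1, _, g3⟩ := C4 E Y.H Y.con ((κ⁻¹).comp (nrm F))
  have ht1 : ∀ a, τ1.t a = H93.frI (φ : E ≃+* E) a := by
    rintro ⟨n, χ⟩
    obtain ⟨χ', e1, e2⟩ := h2 n χ
    rw [e1]
    unfold H93.frI
    congr 1
    exact Subtype.ext (funext e2)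
  let τ : Y.H.Aut := ⟨τ1.t.trans τ2.t, fun a => by
      rw [Equiv.trans_apply, τ2.deg, τ1.deg], fun a b x => by
      rw [Equiv.trans_apply, Equiv.trans_apply, Equiv.trans_apply, τ2.c, τ1.c]⟩
  have hτ : ∀ a, τ.t a = tf φ κ⁻¹ a := by
    intro a
    show τ2.t (τ1.t a) = _
    rw [g1, ht1]
    rfl
  have hw : ∀ (ψ : AddChar E ℂ), ψ ≠ 1 → ∀ a : IrrF E, whit ψ (τ.t a).2.1 = whit ψ a.2.1 := by
    intro ψ hψ a
    show whit ψ (τ2.t (τ1.t a)).2.1 = _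
    rw [g1, g3, h3 ψ hψ]
  refine ⟨⟨τ, fun p hp => (hY τ hw p hp).1, fun p hp => (hY τ hw p hp).2, ?_, ?_⟩, hτ⟩
  · apply Equiv.ext
    intro a
    have e1 : κ⁻¹ ^ finrank F E = 1 := by
      have e2 : κ ^ orderOf κ = 1 := pow_orderOf_eq_one κ
      rw [← hκ]
      apply MonoidHom.ext
      intro x
      have h5 : (κ x) ^ orderOf κ = 1 := DFunLike.congr_fun e2 x
      show ((κ x)⁻¹) ^ orderOf κ = 1
      rw [inv_pow, h5, _root_.inv_one]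
    have e3 : φ ^ finrank F E = 1 := by rw [← hφ, pow_orderOf_eq_one]
    rw [tf_pow φ κ⁻¹ τ.t hτ, e1, e3, tf_one, Equiv.Perm.one_apply]
  · intro a
    rw [hτ, wt_tf]
    have h4 : κ⁻¹ (z ^ finrank F E) = 1 := by
      have e1 : κ ^ orderOf κ = 1 := pow_orderOf_eq_one κ
      rw [MonoidHom.inv_apply, map_pow, ← hκ, inv_eq_one]
      exact DFunLike.congr_fun e1 z
    rw [h4, Units.val_one, _root_.inv_one, one_pow, mul_one]

end Vale.Agent.P275.H341
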