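import Vale.Agent.P275.H341.Sys

/-!
# Central characters of the constituents of a product
-/

set_option linter.style.haveILetI false
set_option linter.unusedSectionVars false

namespace Vale.Agent.P275.H341

open scoped BigOperators MatrixGroups
open Module Matrix Vale.Agent.P275.H85

variable {F : Type} [Field F] [Fintype F] [DecidableEq F]

theorem wt_cc {a b x : IrrF F} (h : cc a b x ≠ 0) (z : Fˣ) :
    wt x.2.1 z = wt a.2.1 z * wt b.2.1 z := by
  obtain ⟨n, χ⟩ := x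
  unfold cc at h
  by_cases hn : n = a.1 + b.1
  · subst hn
    rw [if_pos rfl] at h
    obtain ⟨ωa, ha, ha'⟩ := wt_irr a.2.2
    obtain ⟨ωb, hb, hb'⟩ := wt_irr b.2.2
    obtain ⟨ωx, hx, hx'⟩ := wt_irr χ.2
    have h1 : CentF (ωa * ωb) (mul (toCF a.2.1) (toCF b.2.1)) :=
      centF_mul (centF_toCF ha) (centF_toCF hb)
    have h2 : ip (rs (a.1 + b.1) (mul (toCF a.2.1) (toCF b.2.1))) χ.1 ≠ 0 := by
      intro h0
      apply h
      show ⌊(ip (rs (a.1 + b.1) (mul (toCF a.2.1) (toCF b.2.1))) χ.1).re⌋₊ = 0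
      rw [h0, Complex.zero_re, Nat.floor_zero]
    have h4 := cent_of_ip (fun c g => cent_rs h1 c g) hx h2
    show wt χ.1 z = _
    rw [hx', ha', hb', ← h4, MonoidHom.mul_apply, Units.val_mul, mul_inv]
  · exact absurd (if_neg hn) h

namespace Sys

variable (Y : Sys F)

theorem wt_c {a b x : IrrF F} (h : Y.H.c a b x ≠ 0) (z : Fˣ) :
    wt x.2.1 z = wt a.2.1 z * wt b.2.1 z := by
  rw [Y.con.c] at h
  exact wt_cc h z

theorem wt_one (z : Fˣ) : wt Y.H.one.2.1 z = 1 := by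
  have h1 := Y.wt_c (a := Y.H.one) (b := Y.H.one) (x := Y.H.one)
    (by rw [Y.H.c_one_self]; exact one_ne_zero) z
  have h2 : wt Y.H.one.2.1 z ≠ 0 := by
    obtain ⟨ω, _, h⟩ := wt_irr Y.H.one.2.2
    rw [h]
    exact inv_ne_zero (Units.ne_zero _)
  exact mul_left_cancel₀ h2 (by rw [← h1, mul_one])

/-- the central character of the members of a product of a list -/
theorem wt_coef (z : Fˣ) : ∀ (L : List (IrrF F)) (a : IrrF F), Y.H.coef L a ≠ 0 →
    wt a.2.1 z = (L.map fun b => wt b.2.1 z).prod := by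
  intro L
  induction L with
  | nil =>
    intro a ha
    unfold PSH.coef at ha
    split_ifs at ha with h
    · rw [h, Y.wt_one]
      rfl
    · exact absurd rfl ha
  | cons b L ih =>
    intro a ha
    unfold PSH.coef at ha
    obtain ⟨y, hy, h1⟩ := Finset.exists_ne_zero_of_sum_ne_zero ha
    rw [List.map_cons, List.prod_cons, ← ih y (left_ne_zero_of_mul h1)]
    exact Y.wt_c (right_ne_zero_of_mul h1) z

theorem wt_chain {p : IrrF F} (hp : Y.H.Pr p) (z : Fˣ) (k : ℕ) :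
    wt (Y.X p k).2.1 z = wt p.2.1 z ^ k := by
  have h := Y.hX p hp
  induction k with
  | zero => rw [h.zero, Y.wt_one, pow_zero]
  | succ k ih =>
    have h1 : Y.H.c (Y.X p k) (Y.X p 1) (Y.X p (k + 1)) ≠ 0 := by
      rw [h.cself]
      exact one_ne_zero
    rw [Y.wt_c h1, ih, h.first, pow_succ]

theorem wt_S {p : IrrF F} (hp : Y.H.Pr p) (z : Fˣ) {k : ℕ} {lam : Fin k → ℕ} (hlam : lam ∈ Pt k) :
    wt (Y.S p k lam).2.1 z = wt p.2.1 z ^ k := by
  have h1 := (Y.hS p hp).jself k lam hlam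
  unfold PSH.jtc at h1
  have h2 : ∑ w : Equiv.Perm (Fin k), (Equiv.Perm.sign w : ℤ) *
    (if ∀ i : Fin k, (i : ℕ) ≤ lam i + w i then
      (Y.H.coef (List.ofFn fun i : Fin k => Y.X p (lam i + w i - i)) (Y.S p k lam) : ℤ) else 0)
      ≠ 0 := by
    rw [h1]
    exact one_ne_zero
  obtain ⟨w, _, h3⟩ := Finset.exists_ne_zero_of_sum_ne_zero h2
  have h4 := right_ne_zero_of_mul h3
  split_ifs at h4 with hle
  · have h5 : Y.H.coef (List.ofFn fun i : Fin k => Y.X p (lam i + w i - i)) (Y.S p k lam) ≠ 0 := by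
      exact_mod_cast h4
    rw [Y.wt_coef z _ _ h5, List.map_ofFn, List.prod_ofFn]
    have h6 : ∀ i : Fin k, ((fun b : IrrF F => wt b.2.1 z) ∘
        fun i : Fin k => Y.X p (lam i + w i - i)) i = wt p.2.1 z ^ (lam i + w i - i) := by
      intro i
      exact Y.wt_chain hp z _
    rw [Finset.prod_congr rfl fun i _ => h6 i, Finset.prod_pow_eq_pow_sum]
    congr 1
    have h7 : ∑ i, lam i = k := by
      have := (Finset.mem_filter.mp hlam).1
      exact Finset.Nat.mem_antidiagonalTuple.mp this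
    have h8 : ∑ i : Fin k, ((w i : Fin k) : ℕ) = ∑ i : Fin k, (i : ℕ) :=
      Equiv.sum_comp w (fun i : Fin k => (i : ℕ))
    have h9 : ∑ i : Fin k, (lam i + w i - i) + ∑ i : Fin k, (i : ℕ)
        = ∑ i, lam i + ∑ i : Fin k, ((w i : Fin k) : ℕ) := by
      rw [← Finset.sum_add_distrib, ← Finset.sum_add_distrib]
      apply Finset.sum_congr rfl
      intro i _
      have := hle i
      omega
    omega
  · exact absurd rfl h4

theorem hh_prod (C3 : RowC3) {a b z : IrrF F} (h : Y.H.IsProd a b z) :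
    hh z.2.1 = hh a.2.1 * hh b.2.1 := by
  have h1 := (C3 F Y.H Y.con).2 a b
  have h2 : z ∈ Y.H.lvl (Y.H.deg a + Y.H.deg b) := by
    rw [Y.H.mem_lvl]
    exact Y.H.c_deg a b z (by rw [h.1]; exact one_ne_zero)
  rw [Finset.sum_eq_single_of_mem z h2] at h1
  · rw [h.1, Nat.cast_one, one_mul, ← mul_inv] at h1
    exact (inv_injective h1).symm
  · intro x _ hx
    rw [h.2 x hx, Nat.cast_zero, zero_mul]

theorem hh_one (C3 : RowC3) : hh Y.H.one.2.1 = 1 := by
  have h1 := (C3 F Y.H Y.con).1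
  exact inv_eq_one.mp h1

/-- the weight of a character -/
noncomputable def W (_ : Sys F) (Ψ : ℂ →* ℂ) (ζ : Fˣ) (a : IrrF F) : ℂ :=
  Ψ (hh a.2.1) * wt a.2.1 ζ

theorem W_one (C3 : RowC3) (Ψ : ℂ →* ℂ) (ζ : Fˣ) : Y.W Ψ ζ Y.H.one = 1 := by
  unfold W
  rw [Y.hh_one C3, Y.wt_one, map_one, mul_one]

theorem W_prod (C3 : RowC3) (Ψ : ℂ →* ℂ) (ζ : Fˣ) {a b z : IrrF F} (h : Y.H.IsProd a b z) :
    Y.W Ψ ζ z = Y.W Ψ ζ a * Y.W Ψ ζ b := by
  unfold W
  rw [Y.hh_prod C3 h, Y.wt_c (by rw [h.1]; exact one_ne_zero), map_mul]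
  ring

theorem wt_twist (κ : Fˣ →* ℂˣ) (a : IrrF F) (z : Fˣ) :
    wt (twI κ a).2.1 z = wt a.2.1 z * (((κ z : ℂˣ) : ℂ)⁻¹) ^ a.1 := by
  unfold wt twI
  show tw κ (scal a.1 z)⁻¹ * a.2.1 (scal a.1 z)⁻¹ / (tw κ 1 * a.2.1 1) = _
  have h1 : tw κ (1 : GL (Fin a.1) F) = 1 := by
    unfold tw
    rw [map_one, map_one, Units.val_one]
  have h2 : tw κ (scal a.1 z : GL (Fin a.1) F)⁻¹ = (((κ z : ℂˣ) : ℂ)⁻¹) ^ a.1 := by
    unfold tw
    rw [map_inv, map_inv, Units.val_inv_eq_inv_val, inv_pow]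
    congr 1
    rw [← Units.val_pow_eq_pow_val, ← map_pow]
    congr 2
    apply Units.ext
    show Matrix.det ((scal a.1 z : GL (Fin a.1) F) : Matrix (Fin a.1) (Fin a.1) F) = _
    have h3 : ((scal a.1 z : GL (Fin a.1) F) : Matrix (Fin a.1) (Fin a.1) F)
        = Matrix.scalar (Fin a.1) (z : F) := rfl
    rw [h3, Matrix.scalar_apply, Matrix.det_diagonal]
    simp
  rw [h1, h2]
  ring

end Sys

end Vale.Agent.P275.H341
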