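import Vale.Agent.P275.H341.Rows4
import Vale.Agent.P275.H341.C9

/-!
# The point count for every order
-/

set_option linter.style.haveILetI false
set_option linter.unusedSectionVars false

namespace Vale.Agent.P275.H341

open scoped BigOperators MatrixGroups
open Module Matrix Vale.Agent.P275.H85

variable {F : Type} [Field F] [Fintype F] [DecidableEq F]

theorem closedG (C9 : RowC9) (C10 : RowC10) (C11 : RowC11) {n m : ℕ} (hn : 1 ≤ n) (hm : m ∣ n)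
    {κ : Fˣ →* ℂˣ} {ζ : Fˣ} (hκ : orderOf κ = m) (hneg : κ (-1) = 1) (hζ : orderOf ζ = n)
    (Ψ : ℂ →* ℂ) :
    ∑ χ ∈ stb n κ, Ψ (hh χ) * wt χ ζ = ((Fintype.card F : ℂ) - 1) * ((1 / n) *
      ∑ d ∈ n.divisors, ((ArithmeticFunction.moebius d : ℤ) : ℂ) *
        ld (om Ψ (Fintype.card F) d (m / Nat.gcd m d)) (n / Nat.lcm m d)) := by
  have h1 := C9 F n m hn hm κ ζ hκ hneg hζ Ψ
  have hn0 : (n : ℂ) ≠ 0 := by exact_mod_cast (by omega : n ≠ 0)
  have h2 : ∑ d ∈ n.divisors, (d : ℂ) * ∑ j ∈ (n / d).divisors,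
        ld (om Ψ (Fintype.card F) d j) (n / (j * d)) *
          ∑ c ∈ Es F d κ j, wt c.χ (ζ ^ (n / d))
      = ((Fintype.card F : ℂ) - 1) *
      ∑ d ∈ n.divisors, ((ArithmeticFunction.moebius d : ℤ) : ℂ) *
        ld (om Ψ (Fintype.card F) d (m / Nat.gcd m d)) (n / Nat.lcm m d) := by
    rw [Finset.mul_sum]
    apply Finset.sum_congr rfl
    intro d hd
    have hd' := (Nat.mem_divisors.mp hd).1
    have hdpos : 0 < d := Nat.pos_of_dvd_of_pos hd' hn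
    have hmpos : 0 < m := Nat.pos_of_dvd_of_pos hm hn
    have hgpos : 0 < Nat.gcd m d := Nat.gcd_pos_of_pos_left _ hmpos
    have hlcm : m / Nat.gcd m d * d = Nat.lcm m d := by
      unfold Nat.lcm
      obtain ⟨a, ha⟩ := Nat.gcd_dvd_left m d
      rw [Nat.div_mul_right_comm (Nat.gcd_dvd_left m d)]
    have hdvd : m / Nat.gcd m d * d ∣ n := by
      rw [hlcm]
      exact Nat.lcm_dvd hm hd'
    have hmem : m / Nat.gcd m d ∈ (n / d).divisors := by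
      rw [Nat.mem_divisors]
      refine ⟨?_, (Nat.div_pos (Nat.le_of_dvd hn hd') hdpos).ne'⟩
      obtain ⟨k, hk⟩ := hdvd
      refine ⟨k, ?_⟩
      rw [hk, show m / Nat.gcd m d * d * k = d * (m / Nat.gcd m d * k) from by ring,
        Nat.mul_div_cancel_left _ hdpos]
    rw [Finset.sum_eq_single_of_mem _ hmem]
    · rw [C11 C10 F n m d (m / Nat.gcd m d) hn hm hd' (Nat.mem_divisors.mp hmem).1 κ ζ hκ hneg hζ,
        if_pos (Nat.div_mul_cancel (Nat.gcd_dvd_left m d)), hlcm]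
      have hd0 : (d : ℂ) ≠ 0 := by exact_mod_cast hdpos.ne'
      field_simp
    · intro j hj hne
      rw [C11 C10 F n m d j hn hm hd' (Nat.mem_divisors.mp hj).1 κ ζ hκ hneg hζ, if_neg, mul_zero]
      intro h
      exact hne (Nat.eq_div_of_mul_eq_left hgpos.ne' h)
  rw [h2] at h1
  apply mul_left_cancel₀ hn0
  rw [h1]
  field_simp

theorem countG (C9 : RowC9) (C10 : RowC10) (C11 : RowC11) {n m g : ℕ} (hn : 1 ≤ n) (hm : m ∣ n)
    (hg : 1 ≤ g) (ζ : Fˣ) (hζ : orderOf ζ = n) (κ κ' : Fin g → (Fˣ →* ℂˣ))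
    (hκ : orderOf (fun i => (κ i, κ' i)) = m) (hneg : ∀ i, κ i (-1) = 1 ∧ κ' i (-1) = 1) :
    commSum F n g ζ κ κ' =
      ((Fintype.card F : ℂ) - 1) * (Fintype.card (GL (Fin n) F) : ℂ) *
        eG n m g (Fintype.card F) := by
  obtain ⟨κ₀, h1, h2, h3⟩ := commSum_stb (n := n) hg (ζ := ζ) κ κ' hκ hneg
  have h4 := closedG C9 C10 C11 hn hm h1 h2 hζ (powMonoidHom (2 * g - 2))
  have h5 : ∑ χ ∈ stb n κ₀, (hh χ) ^ (2 * g - 2) * wt χ ζ
      = ∑ χ ∈ stb n κ₀, (powMonoidHom (2 * g - 2) : ℂ →* ℂ) (hh χ) * wt χ ζ := by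
    apply Finset.sum_congr rfl
    intro χ _
    rw [powMonoidHom_apply]
  rw [h3, h5, h4]
  unfold eG
  ring

theorem lowG (C9 : RowC9) (C10 : RowC10) (C11 : RowC11) (hTop : RowTopG) {n m g : ℕ}
    (hn : 1 ≤ n) (hd : m ∣ n) (hm : 2 ≤ m) (hg : 2 ≤ g) (h : ℕ → ℕ → ℕ)
    (H0 : ∀ k w, h k w ≠ 0 → k ≤ w ∧ w ≤ 2 * k)
    (H1 : ∀ k w, k ≤ 2 * (n * (n - n / m) * (g - 1)) → h k w = 0)
    (H2 : ∑ w ∈ Finset.range (2 * (2 * (n * (n - n / m) * (g - 1)) + 1) + 1),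
      h (2 * (n * (n - n / m) * (g - 1)) + 1) w = 2 * g - 2)
    (H3 : ∀ (F : Type) [Field F] [Fintype F] [DecidableEq F], 2 * n ∣ Fintype.card F - 1 →
      ∃ (ζ : Fˣ) (κ κ' : Fin g → (Fˣ →* ℂˣ)), orderOf ζ = n ∧
        orderOf (fun i => (κ i, κ' i)) = m ∧
        commSum F n g ζ κ κ'
          = ((Fintype.card F : ℂ) - 1) ^ (2 * g - 1) * (Fintype.card (GL (Fin n) F) : ℂ) *
            ∑ k ∈ Finset.range (2 * ((n ^ 2 - 1) * (g - 1)) + 1),
              ∑ w ∈ Finset.range (2 * k + 1), (-1) ^ k * (h k w : ℂ) *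
              ((Real.sqrt (Fintype.card F) : ℝ) : ℂ) ^ (4 * ((n ^ 2 - 1) * (g - 1)) - w)) :
    (∀ w, h (2 * (n * (n - n / m) * (g - 1)) + 1) w
      = if w = 2 * (n * (n - n / m) * (g - 1) + 1) then 2 * g - 2 else 0) ∧
    h (2 * (n * (n - n / m) * (g - 1)) + 2) (2 * (n * (n - n / m) * (g - 1)) + 2) = 0 := by
  refine hTop n m g hn hd hm hg h H0 H1 H2 ?_
  intro p hp hp1
  haveI : Fact p.Prime := ⟨hp⟩
  have hcard : Fintype.card (ZMod p) = p := ZMod.card p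
  have hdiv : 2 * n ∣ Fintype.card (ZMod p) - 1 := by
    rw [hcard]
    exact (Nat.modEq_iff_dvd' hp.one_le).mp hp1.symm
  obtain ⟨ζ, κ, κ', hζ, hκ, hc⟩ := H3 (ZMod p) hdiv
  have hdiv2 : 2 * m ∣ Fintype.card (ZMod p) - 1 := dvd_trans (Nat.mul_dvd_mul_left 2 hd) hdiv
  have hpow : (fun i => (κ i, κ' i)) ^ m = 1 := by
    rw [← hκ]
    exact pow_orderOf_eq_one _
  have hneg : ∀ i, κ i (-1) = 1 ∧ κ' i (-1) = 1 := by
    intro i
    have h1 := congrFun hpow i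
    have h2 : (κ i) ^ m = 1 := congrArg Prod.fst h1
    have h3 : (κ' i) ^ m = 1 := congrArg Prod.snd h1
    exact ⟨neg_one_of_pow hdiv2 _ h2, neg_one_of_pow hdiv2 _ h3⟩
  rw [countG C9 C10 C11 hn hd (by omega) ζ hζ κ κ' hκ hneg] at hc
  have hne : ((Fintype.card (ZMod p) : ℂ) - 1) *
      (Fintype.card (GL (Fin n) (ZMod p)) : ℂ) ≠ 0 := by
    apply mul_ne_zero
    · rw [hcard, sub_ne_zero]
      exact_mod_cast hp.one_lt.ne'
    · exact_mod_cast Fintype.card_ne_zero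
  have hsplit : ((Fintype.card (ZMod p) : ℂ) - 1) ^ (2 * g - 1)
      = ((Fintype.card (ZMod p) : ℂ) - 1) * ((Fintype.card (ZMod p) : ℂ) - 1) ^ (2 * g - 2) := by
    rw [← pow_succ']
    congr 1
    omega
  rw [hsplit] at hc
  have hc' : ((Fintype.card (ZMod p) : ℂ) - 1) *
      (Fintype.card (GL (Fin n) (ZMod p)) : ℂ) * eG n m g (Fintype.card (ZMod p))
      = ((Fintype.card (ZMod p) : ℂ) - 1) *
      (Fintype.card (GL (Fin n) (ZMod p)) : ℂ) *
      (((Fintype.card (ZMod p) : ℂ) - 1) ^ (2 * g - 2) *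
            ∑ k ∈ Finset.range (2 * ((n ^ 2 - 1) * (g - 1)) + 1),
              ∑ w ∈ Finset.range (2 * k + 1), (-1) ^ k * (h k w : ℂ) *
              ((Real.sqrt (Fintype.card (ZMod p)) : ℝ) : ℂ) ^
                (4 * ((n ^ 2 - 1) * (g - 1)) - w)) := by
    rw [hc]
    ring
  have hc2 := mul_left_cancel₀ hne hc'
  rw [hcard] at hc2
  exact hc2.symm

end Vale.Agent.P275.H341
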