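import Vale.Agent.P275.H341.All
import Vale.Agent.P275.H341.E2
import Vale.Agent.P275.H633.Endo
import Vale.Agent.P275.H452.E5
import Vale.Agent.P275.H452.E7b
import Vale.Agent.P275.H677.E8
import Vale.Agent.P275.H85G.E6
import Vale.Agent.P275.H93.E4c
import Vale.Agent.P275.H85.R2

/-!
# The fixed locus of a character and the isotypic part: all rows together
-/

set_option linter.style.haveILetI false
set_option linter.unusedSectionVars false

namespace Vale.Agent.P275.H341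

open scoped BigOperators MatrixGroups
open Module Matrix Vale.Agent.P275.H85

theorem allE2 : RowE2 :=
  rowE2 H677.rowA1 H93.rowA2 (H677.rowA4 H85G.rowA3) H510.rowA6 H452.A57.rowA7 H633.rowA8
    H633.rowC1 H633.rowC2 H85G.rowC3 H85G.rowC4 H510.rowC5 H93.rowE1

theorem allE4 : RowE4 := H93.rowE4 H677.E8.rowE8

theorem allE5 : RowE5 := H452.E5.rowE5 allE2 allE4 H677.rowA9

/-- the number of points of the fixed locus, weighted by the character `κ` -/
noncomputable def fixSum (F : Type) [Field F] (E : ℕ → Type) [∀ δ, Field (E δ)]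
    [∀ δ, Fintype (E δ)] [∀ δ, DecidableEq (E δ)] [∀ δ, Algebra F (E δ)] (r m g : ℕ) (ζ : Fˣ)
    (κ : Fˣ →* ℂˣ) : ℂ :=
  (1 / m) * ∑ δ ∈ m.divisors, ∑ φ : E δ ≃ₐ[F] E δ, (if orderOf φ = δ then
    twSum φ (m / δ) r g ζ κ / (Fintype.card (GL (Fin r) (E δ)) : ℂ) ^ (m / δ) else 0)

theorem endo_all {F : Type} [Field F] [Fintype F] [DecidableEq F] {n m g : ℕ} (hn : 1 ≤ n)
    (hm : m ∣ n) (hg : 1 ≤ g) (ζ : Fˣ) (hζ : orderOf ζ = n) (κ κ' : Fin g → (Fˣ →* ℂˣ))
    (hκ : orderOf (fun i => (κ i, κ' i)) = m) (hneg : ∀ i, κ i (-1) = 1 ∧ κ' i (-1) = 1)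
    (κ₀ : Fˣ →* ℂˣ) (hκ₀ : orderOf κ₀ = m) (hneg₀ : κ₀ (-1) = 1)
    (E : ℕ → Type) [∀ δ, Field (E δ)] [∀ δ, Fintype (E δ)] [∀ δ, DecidableEq (E δ)]
    [∀ δ, Algebra F (E δ)] (hE : ∀ δ ∈ m.divisors, finrank F (E δ) = δ) :
    commSum F n g ζ κ κ' = (Fintype.card (GL (Fin n) F) : ℂ) *
      ((Fintype.card F : ℂ) ^ (n * (n - n / m) * (g - 1)) * fixSum F E (n / m) m g ζ κ₀) := by
  have h := H633.endo allE2 allE5 H85G.rowE6 H452.E7.rowE7 H677.E8.rowE8 allC9 allC10
    H85G.rowC11 hn hm hg ζ hζ κ κ' hκ hneg κ₀ hκ₀ hneg₀ E hE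
  have hG : (Fintype.card (GL (Fin n) F) : ℂ) ≠ 0 := by exact_mod_cast Fintype.card_ne_zero
  rw [div_eq_iff hG] at h
  rw [h]
  unfold fixSum
  ring

/-- comparison of the tables -/
theorem endo_tables {n m g : ℕ} (hn : 1 ≤ n) (hm : m ∣ n) (hg : 1 ≤ g) (D R : ℕ)
    (hD : D = n * (n - n / m) * (g - 1)) (hW hP : ℕ → ℕ → ℕ)
    (HW : ∀ k w, hW k w ≠ 0 → w ≤ 2 * k) (HP : ∀ k j, hP k j ≠ 0 → j + D ≤ k)
    (H : ∀ (F : Type) [Field F] [Fintype F] [DecidableEq F], 2 * n ∣ Fintype.card F - 1 →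
      ∃ (ζ : Fˣ) (κ κ' : Fin g → (Fˣ →* ℂˣ)) (κ₀ : Fˣ →* ℂˣ) (E : ℕ → Type)
        (_ : ∀ δ, Field (E δ)) (_ : ∀ δ, Fintype (E δ)) (_ : ∀ δ, DecidableEq (E δ))
        (_ : ∀ δ, Algebra F (E δ)),
        orderOf ζ = n ∧ orderOf (fun i => (κ i, κ' i)) = m ∧ orderOf κ₀ = m ∧
        (∀ δ ∈ m.divisors, finrank F (E δ) = δ) ∧
        commSum F n g ζ κ κ'
          = ((Fintype.card F : ℂ) - 1) ^ (2 * g - 1) * (Fintype.card (GL (Fin n) F) : ℂ) *
            ∑ k ∈ Finset.range (2 * R + 1), ∑ w ∈ Finset.range (2 * k + 1),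
              (-1) ^ k * (hW k w : ℂ) *
                ((Real.sqrt (Fintype.card F) : ℝ) : ℂ) ^ (4 * R - w) ∧
        fixSum F E (n / m) m g ζ κ₀
          = ((Fintype.card F : ℂ) - 1) ^ (2 * g - 1) *
            ∑ k ∈ Finset.range (2 * R + 1), ∑ j ∈ Finset.range (k + 1 - D),
              (-1) ^ k * (hP k j : ℂ) * (Fintype.card F : ℂ) ^ (2 * R - D - j)) :
    (∀ j, ∑ k ∈ Finset.range (2 * R + 1), (-1 : ℤ) ^ k * hW k (2 * j)
      = ∑ k ∈ Finset.range (2 * R + 1), (-1 : ℤ) ^ k * hP k j) ∧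
    ∀ j, ∑ k ∈ Finset.range (2 * R + 1), (-1 : ℤ) ^ k * hW k (2 * j + 1) = 0 := by
  classical
  let P : Polynomial ℂ := ∑ k ∈ Finset.range (2 * R + 1), ∑ w ∈ Finset.range (2 * k + 1),
    Polynomial.C ((-1) ^ k * (hW k w : ℂ)) * Polynomial.X ^ (4 * R - w)
  let Q : Polynomial ℂ := ∑ k ∈ Finset.range (2 * R + 1), ∑ j ∈ Finset.range (k + 1 - D),
    Polynomial.C ((-1) ^ k * (hP k j : ℂ)) * Polynomial.X ^ (4 * R - 2 * j)
  have hPQ : P = Q := by
    apply poly_eq_of_primes (k := 2 * n) (by omega)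
    intro p hp hp1
    haveI : Fact p.Prime := ⟨hp⟩
    have hcard : Fintype.card (ZMod p) = p := ZMod.card p
    have hdiv : 2 * n ∣ Fintype.card (ZMod p) - 1 := by
      rw [hcard]
      exact (Nat.modEq_iff_dvd' hp.one_le).mp hp1.symm
    obtain ⟨ζ, κ, κ', κ₀, E, _, _, _, _, hζ, hκ, hκ₀, hE, hc1, hc2⟩ := H (ZMod p) hdiv
    have hdiv2 : 2 * m ∣ Fintype.card (ZMod p) - 1 := dvd_trans (Nat.mul_dvd_mul_left 2 hm) hdiv
    have hpow : (fun i => (κ i, κ' i)) ^ m = 1 := by
      rw [← hκ]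
      exact pow_orderOf_eq_one _
    have hneg : ∀ i, κ i (-1) = 1 ∧ κ' i (-1) = 1 := by
      intro i
      have h1 := congrFun hpow i
      have h2 : (κ i) ^ m = 1 := congrArg Prod.fst h1
      have h3 : (κ' i) ^ m = 1 := congrArg Prod.snd h1
      exact ⟨neg_one_of_pow hdiv2 _ h2, neg_one_of_pow hdiv2 _ h3⟩
    have hneg₀ : κ₀ (-1) = 1 := by
      have h2 : κ₀ ^ m = 1 := by
        rw [← hκ₀]
        exact pow_orderOf_eq_one _
      exact neg_one_of_pow hdiv2 _ h2
    have hall := endo_all hn hm hg ζ hζ κ κ' hκ hneg κ₀ hκ₀ hneg₀ E hE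
    rw [hc1, hc2] at hall
    have hq1 : ((Fintype.card (ZMod p) : ℂ) - 1) ^ (2 * g - 1) ≠ 0 := by
      apply pow_ne_zero
      rw [hcard, sub_ne_zero]
      exact_mod_cast hp.one_lt.ne'
    have hG : (Fintype.card (GL (Fin n) (ZMod p)) : ℂ) ≠ 0 := by
      exact_mod_cast Fintype.card_ne_zero
    have hall2 : ∑ k ∈ Finset.range (2 * R + 1), ∑ w ∈ Finset.range (2 * k + 1),
              (-1) ^ k * (hW k w : ℂ) *
                ((Real.sqrt (Fintype.card (ZMod p)) : ℝ) : ℂ) ^ (4 * R - w)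
        = (Fintype.card (ZMod p) : ℂ) ^ (n * (n - n / m) * (g - 1)) *
            ∑ k ∈ Finset.range (2 * R + 1), ∑ j ∈ Finset.range (k + 1 - D),
              (-1) ^ k * (hP k j : ℂ) * (Fintype.card (ZMod p) : ℂ) ^ (2 * R - D - j) := by
      apply mul_left_cancel₀ (mul_ne_zero hq1 hG)
      linear_combination hall
    rw [← hD, hcard] at hall2
    have hsq : ((Real.sqrt p : ℝ) : ℂ) ^ 2 = (p : ℂ) := by
      rw [← Complex.ofReal_pow, Real.sq_sqrt (Nat.cast_nonneg p)]
      simp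
    show P.eval _ = Q.eval _
    have e1 : P.eval ((Real.sqrt p : ℝ) : ℂ)
        = ∑ k ∈ Finset.range (2 * R + 1), ∑ w ∈ Finset.range (2 * k + 1),
              (-1) ^ k * (hW k w : ℂ) * ((Real.sqrt p : ℝ) : ℂ) ^ (4 * R - w) := by
      simp only [P, Polynomial.eval_finset_sum, Polynomial.eval_mul, Polynomial.eval_C,
        Polynomial.eval_pow, Polynomial.eval_X]
    have e2 : Q.eval ((Real.sqrt p : ℝ) : ℂ)
        = ∑ k ∈ Finset.range (2 * R + 1), ∑ j ∈ Finset.range (k + 1 - D),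
              (-1) ^ k * (hP k j : ℂ) * ((Real.sqrt p : ℝ) : ℂ) ^ (4 * R - 2 * j) := by
      simp only [Q, Polynomial.eval_finset_sum, Polynomial.eval_mul, Polynomial.eval_C,
        Polynomial.eval_pow, Polynomial.eval_X]
    rw [e1, e2, hall2, Finset.mul_sum]
    apply Finset.sum_congr rfl
    intro k hk
    rw [Finset.mul_sum]
    apply Finset.sum_congr rfl
    intro j hj
    rw [Finset.mem_range] at hk hj
    have e3 : 4 * R - 2 * j = 2 * (D + (2 * R - D - j)) := by omega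
    rw [e3, pow_mul, hsq, pow_add]
    ring
  have hPcoef : ∀ w, w ≤ 4 * R → P.coeff (4 * R - w)
      = ∑ k ∈ Finset.range (2 * R + 1), (-1 : ℂ) ^ k * hW k w := by
    intro w hw
    simp only [P, Polynomial.finset_sum_coeff, Polynomial.coeff_C_mul_X_pow]
    apply Finset.sum_congr rfl
    intro k hk
    rw [Finset.mem_range] at hk
    have h1 : ∀ w' ∈ Finset.range (2 * k + 1),
        (if 4 * R - w = 4 * R - w' then (-1 : ℂ) ^ k * (hW k w' : ℂ) else 0)
        = if w' = w then (-1 : ℂ) ^ k * (hW k w : ℂ) else 0 := by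
      intro w' hw'
      rw [Finset.mem_range] at hw'
      by_cases h : w' = w
      · rw [if_pos (by rw [h]), if_pos h, h]
      · rw [if_neg (by omega), if_neg h]
    rw [Finset.sum_congr rfl h1, Finset.sum_ite_eq']
    split_ifs with h2
    · rfl
    · have h3 : hW k w = 0 := by
        by_contra h0
        have := HW k w h0
        rw [Finset.mem_range] at h2
        omega
      rw [h3, Nat.cast_zero, mul_zero]
  have hQcoef : ∀ j, j ≤ 2 * R → Q.coeff (4 * R - 2 * j)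
      = ∑ k ∈ Finset.range (2 * R + 1), (-1 : ℂ) ^ k * hP k j := by
    intro j hj
    simp only [Q, Polynomial.finset_sum_coeff, Polynomial.coeff_C_mul_X_pow]
    apply Finset.sum_congr rfl
    intro k hk
    rw [Finset.mem_range] at hk
    have h1 : ∀ j' ∈ Finset.range (k + 1 - D),
        (if 4 * R - 2 * j = 4 * R - 2 * j' then (-1 : ℂ) ^ k * (hP k j' : ℂ) else 0)
        = if j' = j then (-1 : ℂ) ^ k * (hP k j : ℂ) else 0 := by
      intro j' hj'
      rw [Finset.mem_range] at hj'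
      by_cases h : j' = j
      · rw [if_pos (by rw [h]), if_pos h, h]
      · rw [if_neg (by omega), if_neg h]
    rw [Finset.sum_congr rfl h1, Finset.sum_ite_eq']
    split_ifs with h2
    · rfl
    · have h3 : hP k j = 0 := by
        by_contra h0
        have := HP k j h0
        rw [Finset.mem_range] at h2
        omega
      rw [h3, Nat.cast_zero, mul_zero]
  have hQodd : ∀ j, 2 * j + 1 ≤ 4 * R → Q.coeff (4 * R - (2 * j + 1)) = 0 := by
    intro j hj
    simp only [Q, Polynomial.finset_sum_coeff, Polynomial.coeff_C_mul_X_pow]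
    apply Finset.sum_eq_zero
    intro k hk
    apply Finset.sum_eq_zero
    intro j' hj'
    rw [Finset.mem_range] at hk hj'
    rw [if_neg (by omega)]
  constructor
  · intro j
    by_cases hj : j ≤ 2 * R
    · have h1 := hPcoef (2 * j) (by omega)
      rw [hPQ, hQcoef j hj] at h1
      exact_mod_cast h1.symm
    · have h1 : ∀ k ∈ Finset.range (2 * R + 1), hW k (2 * j) = 0 ∧ hP k j = 0 := by
        intro k hk
        rw [Finset.mem_range] at hk
        constructor
        · by_contra h0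
          have := HW _ _ h0
          omega
        · by_contra h0
          have := HP _ _ h0
          omega
      rw [Finset.sum_eq_zero fun k hk => by rw [(h1 k hk).1, Nat.cast_zero, mul_zero],
        Finset.sum_eq_zero fun k hk => by rw [(h1 k hk).2, Nat.cast_zero, mul_zero]]
  · intro j
    by_cases hj : 2 * j + 1 ≤ 4 * R
    · have h1 := hPcoef (2 * j + 1) hj
      rw [hPQ, hQodd j hj] at h1
      exact_mod_cast h1.symm
    · apply Finset.sum_eq_zero
      intro k hk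
      rw [Finset.mem_range] at hk
      have h1 : hW k (2 * j + 1) = 0 := by
        by_contra h0
        have := HW _ _ h0
        omega
      rw [h1, Nat.cast_zero, mul_zero]

end Vale.Agent.P275.H341
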