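import Vale.Agent.P275.H341.Four
import Vale.Agent.P275.H341.EndoAll

/-!
# Two filtrations: the numerical input
-/

set_option linter.style.haveILetI false
set_option linter.unusedSectionVars false

namespace Vale.Agent.P275.H341

open scoped BigOperators MatrixGroups
open Module Vale.Agent.P275.H85

namespace Four

variable {V : Type} [AddCommGroup V] [Module ℂ V] [FiniteDimensional ℂ V] (X : Four V)

theorem P_bot {k : ℕ} (h : ∀ w, X.J k w = ⊥) (i : ℕ) : X.P k i = ⊥ := by
  rw [← le_bot_iff]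
  refine (X.P_le k i).trans (iSup_le fun w => ?_)
  rw [h w]

theorem P9 {k : ℕ} (h : k ≠ 17) : X.P k 9 = ⊥ := by
  rcases Nat.lt_or_ge k 17 with h1 | h1
  · exact X.P_bot (X.low k (by omega)) 9
  · rcases Nat.lt_or_ge k 20 with h2 | h2
    · have h3 : k = 18 ∨ k = 19 := by omega
      rcases h3 with rfl | rfl
      · exact X.P_bot X.t18 9
      · exact X.p19
    · rw [← le_bot_iff, ← X.p20 k h2]
      exact X.mono k 9 10 (by omega)

theorem J18 {k : ℕ} (h : k ≠ 17) : X.J k 18 = ⊥ := by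
  rcases Nat.lt_or_ge k 17 with h1 | h1
  · exact X.low k (by omega) 18
  · by_cases h2 : k = 18
    · subst h2
      exact X.t18 18
    · by_contra h3
      have := X.bound k 18 h3
      omega

/-- the numerical input gives the weights in degree 17 and 19 -/
theorem weights (hP : ℕ → ℕ → ℕ)
    (h1 : ∀ k i, finrank ℂ (X.P k (i + 1)) = finrank ℂ (X.P k i) + hP k (i + 1))
    (E : ∀ j, ∑ k ∈ Finset.range 31, (-1 : ℤ) ^ k * finrank ℂ (X.J k (2 * j))
      = ∑ k ∈ Finset.range 31, (-1 : ℤ) ^ k * hP k j) :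
    X.P 17 9 = X.J 17 18 ∧ finrank ℂ (X.J 19 20) = 2 := by
  have hle : ∀ k i, hP k (i + 1) ≤ finrank ℂ (X.P k (i + 1)) := by
    intro k i
    rw [h1]
    omega
  have hz : ∀ k i, X.P k (i + 1) = ⊥ → hP k (i + 1) = 0 := by
    intro k i h
    have h2 := hle k i
    rw [h, finrank_bot] at h2
    omega
  have e1 : finrank ℂ (X.J 17 18) = 2 := by
    have h2 := E 9
    rw [Finset.sum_eq_single_of_mem 17 (by simp), Finset.sum_eq_single_of_mem 17 (by simp)] at h2
    · have h3 : finrank ℂ (X.P 17 9) = finrank ℂ (X.P 17 8) + hP 17 9 := h1 17 8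
      rw [X.p17, finrank_bot, X.e17] at h3
      have h4 : hP 17 9 = 2 := by omega
      rw [h4] at h2
      norm_num at h2
      exact_mod_cast h2
    · intro k _ hk
      rw [hz k 8 (X.P9 hk), Nat.cast_zero, mul_zero]
    · intro k _ hk
      rw [show 2 * 9 = 18 from rfl, X.J18 hk, finrank_bot, Nat.cast_zero, mul_zero]
  have e2 : X.P 17 9 = X.J 17 18 := by
    symm
    apply Submodule.eq_of_le_of_finrank_eq _ (by rw [e1, X.e17])
    rw [X.g17]
    exact X.J_le 17 18
  refine ⟨e2, ?_⟩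
  have e3 : X.J 17 20 = ⊥ := by
    have h3 : X.J 17 20 ≤ X.J 17 18 := by
      rw [← e2, X.g17]
      exact X.J_le 17 20
    exact le_bot_iff.mp (X.disj 17 (show (20 : ℕ) ≠ 18 by omega) le_rfl h3)
  have e4 : X.P 17 10 = X.P 17 9 := by
    apply le_antisymm
    · rw [X.g17]
      exact X.P_le 17 10
    · exact X.mono 17 9 10 (by omega)
  have h2 := E 10
  rw [Finset.sum_eq_single_of_mem 19 (by simp), Finset.sum_eq_single_of_mem 19 (by simp)] at h2
  · have h3 : finrank ℂ (X.P 19 10) = finrank ℂ (X.P 19 9) + hP 19 10 := h1 19 9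
    rw [X.p19, finrank_bot, X.e19] at h3
    have h4 : hP 19 10 = 2 := by omega
    rw [h4] at h2
    norm_num at h2
    exact_mod_cast h2
  · intro k _ hk
    have h5 : hP k 10 = 0 := by
      rcases Nat.lt_or_ge k 17 with h6 | h6
      · exact hz k 9 (X.P_bot (X.low k (by omega)) 10)
      · rcases Nat.lt_or_ge k 20 with h7 | h7
        · have h8 : k = 17 ∨ k = 18 := by omega
          rcases h8 with rfl | rfl
          · have h9 : finrank ℂ (X.P 17 10) = finrank ℂ (X.P 17 9) + hP 17 10 := h1 17 9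
            rw [e4] at h9
            omega
          · exact hz 18 9 (X.P_bot X.t18 10)
        · exact hz k 9 (X.p20 k h7)
    rw [h5, Nat.cast_zero, mul_zero]
  · intro k _ hk
    have h5 : X.J k 20 = ⊥ := by
      rcases Nat.lt_or_ge k 17 with h6 | h6
      · exact X.low k (by omega) 20
      · rcases Nat.lt_or_ge k 21 with h7 | h7
        · have h8 : k = 17 ∨ k = 18 ∨ k = 20 := by omega
          rcases h8 with rfl | rfl | rfl
          · exact e3
          · exact X.t18 20
          · exact X.J20 e2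
        · by_contra h8
          have := X.bound k 20 h8
          omega
    rw [show 2 * 10 = 20 from rfl, h5, finrank_bot, Nat.cast_zero, mul_zero]

/-- the two filtrations agree -/
theorem agree (hP : ℕ → ℕ → ℕ)
    (h1 : ∀ k i, finrank ℂ (X.P k (i + 1)) = finrank ℂ (X.P k i) + hP k (i + 1))
    (E : ∀ j, ∑ k ∈ Finset.range 31, (-1 : ℤ) ^ k * finrank ℂ (X.J k (2 * j))
      = ∑ k ∈ Finset.range 31, (-1 : ℤ) ^ k * hP k j) :
    ∀ k i, X.P k i = (⨆ (w) (_ : w ≤ 2 * i), X.J k w) ∧
      X.P k i = ⨆ (w) (_ : w ≤ 2 * i + 1), X.J k w := by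
  obtain ⟨e1, e2⟩ := X.weights hP h1 E
  obtain ⟨m1, m2⟩ := X.main e1 e2
  intro k i
  refine ⟨m1 k i, ?_⟩
  rw [m1 k i]
  apply le_antisymm
  · apply iSup₂_le
    intro w hw
    exact le_iSup₂_of_le (f := fun (w : ℕ) (_ : w ≤ 2 * i + 1) => X.J k w) w (by omega) le_rfl
  · apply iSup₂_le
    intro w hw
    by_cases h : w = 2 * i + 1
    · rw [h, m2 k (2 * i + 1) ⟨i, rfl⟩]
      exact bot_le
    · exact le_iSup₂_of_le (f := fun (w : ℕ) (_ : w ≤ 2 * i) => X.J k w) w (by omega) le_rfl

end Four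

end Vale.Agent.P275.H341
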