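import Vale.Agent.P275.H341.Rows2
import Vale.Agent.P275.H85.R2

/-!
# The lowest weight
-/

namespace Vale.Agent.P275.H341

open scoped BigOperators

/-- the closed formula for the point count of the isotypic part -/
noncomputable def eK (m g : ℕ) (q : ℂ) : ℂ :=
  q ^ (4 * m * (m - 1) * (g - 1)) * ((1 / m) * ∑ s ∈ m.divisors,
    ((ArithmeticFunction.moebius s : ℤ) : ℂ) *
      ((1 + q ^ (2 * m * (g - 1))) * ((q ^ s - 1) * (q ^ (2 * s) - 1)) ^ (m / s * (2 * g - 2))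
        - (1 / 2) * q ^ (2 * m * (g - 1)) * ((q ^ s - 1) ^ (m / s * (4 * g - 4))
          + if Odd m then (q ^ (2 * s) - 1) ^ (m / s * (2 * g - 2)) else 0)))

/-- Row TOP: the weights in the lowest degree -/
def RTop : Prop :=
  ∀ (m g : ℕ), 2 ≤ m → 2 ≤ g → ∀ h : ℕ → ℕ → ℕ,
    (∀ k w, h k w ≠ 0 → k ≤ w ∧ w ≤ 2 * k) →
    (∀ k w, k ≤ 2 * (4 * m * (m - 1) * (g - 1)) → h k w = 0) →
    (∑ w ∈ Finset.range (2 * (2 * (4 * m * (m - 1) * (g - 1)) + 1) + 1),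
      h (2 * (4 * m * (m - 1) * (g - 1)) + 1) w = 2 * g - 2) →
    (∀ p : ℕ, p.Prime → p ≡ 1 [MOD 4 * m] →
      ((p : ℂ) - 1) ^ (2 * g - 2) *
        ∑ k ∈ Finset.range (2 * (((2 * m) ^ 2 - 1) * (g - 1)) + 1),
          ∑ w ∈ Finset.range (2 * k + 1), (-1) ^ k * (h k w : ℂ) *
            ((Real.sqrt p : ℝ) : ℂ) ^ (4 * (((2 * m) ^ 2 - 1) * (g - 1)) - w) = eK m g p) →
    (∀ w, h (2 * (4 * m * (m - 1) * (g - 1)) + 1) w
      = if w = 2 * (4 * m * (m - 1) * (g - 1) + 1) then 2 * g - 2 else 0) ∧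
    h (2 * (4 * m * (m - 1) * (g - 1)) + 2) (2 * (4 * m * (m - 1) * (g - 1)) + 2) = 0

end Vale.Agent.P275.H341
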