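import Vale.Agent.P275.H341.Fin
import Vale.Agent.P275.H341.Rows3
import Vale.Agent.P275.H347.M1
import Vale.Agent.P275.H347.Norm
import Vale.Agent.P275.H347.Str
import Vale.Agent.P275.H452.M2
import Vale.Agent.P275.H510.Comm
import Vale.Agent.P275.H633.Pair
import Vale.Agent.P275.H677.M3
import Vale.Agent.P275.H677.Two
import Vale.Agent.P275.H769.Sq

/-!
# The point count for `GL_{2m}` and tuples of characters of order `m`
-/

set_option linter.style.haveILetI false
set_option linter.unusedSectionVars false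

namespace Vale.Agent.P275.H341

open scoped BigOperators MatrixGroups
open Module Matrix Vale.Agent.P275.H85

variable {F : Type} [Field F] [Fintype F] [DecidableEq F]

theorem rTwo : RTwo := H677.rtwo H510.rcomm H347.rnorm H769.rSq

theorem closed_all {m : ℕ} {κ : Fˣ →* ℂˣ} {ζ : Fˣ}
    (hm : 0 < m) (hκ : orderOf κ = m) (hneg : κ (-1) = 1) (hζ : orderOf ζ = m + m) (Ψ : ℂ → ℂ) :
    ∑ χ ∈ stb (m + m) κ, Ψ (hh χ) * wt χ ζ =
      (((Fintype.card F : ℂ) - 1) / m) * ∑ s ∈ m.divisors,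
        ((ArithmeticFunction.moebius s : ℤ) : ℂ) *
          (Ψ (xx (Fintype.card F) m s / (Fintype.card F : ℂ) ^ m) + Ψ (xx (Fintype.card F) m s)
            - (1 / 2) * Ψ (yy (Fintype.card F) m s * yy (Fintype.card F) m s)
            - (1 / 2) * (if Odd m then Ψ (zz (Fintype.card F) m s) else 0)) :=
  closed H347.rstr rTwo H633.rpair H347.rmone H452.rmtwo H677.rmthree hm hκ hneg hζ Ψ

theorem count_half {m g : ℕ} (hm : 1 ≤ m) (hg : 1 ≤ g) (ζ : Fˣ) (hζ : orderOf ζ = 2 * m)
    (κ κ' : Fin g → (Fˣ →* ℂˣ)) (hκ : orderOf (fun i => (κ i, κ' i)) = m)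
    (hneg : ∀ i, κ i (-1) = 1 ∧ κ' i (-1) = 1) :
    commSum F (2 * m) g ζ κ κ' =
      ((Fintype.card F : ℂ) - 1) * (Fintype.card (GL (Fin (2 * m)) F) : ℂ) *
        eK m g (Fintype.card F) := by
  obtain ⟨κ₀, h1, h2, h3⟩ := commSum_stb (n := 2 * m) hg (ζ := ζ) κ κ' hκ hneg
  rw [h3]
  have hc := closed_all (F := F) (m := m) (κ := κ₀) (ζ := ζ) hm h1 h2 (by rw [hζ]; ring)
    (fun x => x ^ (2 * g - 2))
  have hc' : ∑ χ ∈ stb (2 * m) κ₀, (fun x : ℂ => x ^ (2 * g - 2)) (hh χ) * wt χ ζ =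
      (((Fintype.card F : ℂ) - 1) / m) * ∑ s ∈ m.divisors,
        ((ArithmeticFunction.moebius s : ℤ) : ℂ) *
          ((xx (Fintype.card F) m s / (Fintype.card F : ℂ) ^ m) ^ (2 * g - 2)
            + xx (Fintype.card F) m s ^ (2 * g - 2)
            - (1 / 2) * (yy (Fintype.card F) m s * yy (Fintype.card F) m s) ^ (2 * g - 2)
            - (1 / 2) * (if Odd m then zz (Fintype.card F) m s ^ (2 * g - 2) else 0)) := by
    rw [show 2 * m = m + m from by ring]
    exact hc
  simp only at hc'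
  rw [hc']
  unfold eK
  have hq := q_ne (F := F)
  have e1 : 2 * m * (2 * m - 1) * (g - 1) = 4 * m * (m - 1) * (g - 1) + 2 * m * (g - 1) := by
    obtain ⟨a, rfl⟩ : ∃ a, m = a + 1 := ⟨m - 1, by omega⟩
    have e2 : 2 * (a + 1) - 1 = 2 * a + 1 := by omega
    rw [e2, Nat.add_sub_cancel]
    ring
  rw [e1, pow_add]
  have key : ∀ s ∈ m.divisors, (Fintype.card F : ℂ) ^ (2 * m * (g - 1)) *
      ((xx (Fintype.card F) m s / (Fintype.card F : ℂ) ^ m) ^ (2 * g - 2)
            + xx (Fintype.card F) m s ^ (2 * g - 2)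
            - (1 / 2) * (yy (Fintype.card F) m s * yy (Fintype.card F) m s) ^ (2 * g - 2)
            - (1 / 2) * (if Odd m then zz (Fintype.card F) m s ^ (2 * g - 2) else 0))
      = ((1 + (Fintype.card F : ℂ) ^ (2 * m * (g - 1))) *
        (((Fintype.card F : ℂ) ^ s - 1) * ((Fintype.card F : ℂ) ^ (2 * s) - 1)) ^
          (m / s * (2 * g - 2))
        - (1 / 2) * (Fintype.card F : ℂ) ^ (2 * m * (g - 1)) *
          (((Fintype.card F : ℂ) ^ s - 1) ^ (m / s * (4 * g - 4))
          + if Odd m then ((Fintype.card F : ℂ) ^ (2 * s) - 1) ^ (m / s * (2 * g - 2)) else 0)) := by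
    intro s _
    have e3 : m * (2 * g - 2) = 2 * m * (g - 1) := by
      rw [show 2 * g - 2 = 2 * (g - 1) by omega]
      ring
    have e4 : m / s * (4 * g - 4) = m / s * 2 * (2 * g - 2) := by
      rw [mul_assoc]
      congr 1
      omega
    have e5 : ∀ x y : ℂ, (x * y / (Fintype.card F : ℂ) ^ m) ^ (2 * g - 2)
        = (x * y) ^ (2 * g - 2) / (Fintype.card F : ℂ) ^ (2 * m * (g - 1)) := by
      intro x y
      rw [div_pow, ← pow_mul, e3]
    have e6 : xx (Fintype.card F) m s ^ (2 * g - 2) =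
        (((Fintype.card F : ℂ) ^ s - 1) * ((Fintype.card F : ℂ) ^ (2 * s) - 1)) ^
          (m / s * (2 * g - 2)) := by
      unfold xx
      rw [← pow_mul]
    have e7 : (xx (Fintype.card F) m s / (Fintype.card F : ℂ) ^ m) ^ (2 * g - 2) =
        (((Fintype.card F : ℂ) ^ s - 1) * ((Fintype.card F : ℂ) ^ (2 * s) - 1)) ^
          (m / s * (2 * g - 2)) / (Fintype.card F : ℂ) ^ (2 * m * (g - 1)) := by
      rw [div_pow, e6, ← pow_mul, e3]
    have e8 : (yy (Fintype.card F) m s * yy (Fintype.card F) m s) ^ (2 * g - 2) =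
        ((Fintype.card F : ℂ) ^ s - 1) ^ (m / s * (4 * g - 4)) := by
      unfold yy
      rw [← pow_add, ← pow_mul, e4]
      congr 1
      ring
    have e9 : zz (Fintype.card F) m s ^ (2 * g - 2) =
        ((Fintype.card F : ℂ) ^ (2 * s) - 1) ^ (m / s * (2 * g - 2)) := by
      unfold zz
      rw [← pow_mul]
    rw [e6, e7, e8, e9]
    by_cases ho : Odd m
    · simp only [if_pos ho]
      field_simp
      ring
    · simp only [if_neg ho]
      field_simp
      ring
  have hm0 : (m : ℂ) ≠ 0 := by exact_mod_cast (by omega : m ≠ 0)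
  have e10 : ∑ s ∈ m.divisors, ((ArithmeticFunction.moebius s : ℤ) : ℂ) *
      ((1 + (Fintype.card F : ℂ) ^ (2 * m * (g - 1))) *
        (((Fintype.card F : ℂ) ^ s - 1) * ((Fintype.card F : ℂ) ^ (2 * s) - 1)) ^
          (m / s * (2 * g - 2))
        - (1 / 2) * (Fintype.card F : ℂ) ^ (2 * m * (g - 1)) *
          (((Fintype.card F : ℂ) ^ s - 1) ^ (m / s * (4 * g - 4))
          + if Odd m then ((Fintype.card F : ℂ) ^ (2 * s) - 1) ^ (m / s * (2 * g - 2)) else 0))
      = (Fintype.card F : ℂ) ^ (2 * m * (g - 1)) *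
        ∑ s ∈ m.divisors, ((ArithmeticFunction.moebius s : ℤ) : ℂ) *
      ((xx (Fintype.card F) m s / (Fintype.card F : ℂ) ^ m) ^ (2 * g - 2)
            + xx (Fintype.card F) m s ^ (2 * g - 2)
            - (1 / 2) * (yy (Fintype.card F) m s * yy (Fintype.card F) m s) ^ (2 * g - 2)
            - (1 / 2) * (if Odd m then zz (Fintype.card F) m s ^ (2 * g - 2) else 0)) := by
    rw [Finset.mul_sum]
    apply Finset.sum_congr rfl
    intro s hs
    rw [← key s hs]
    ring
  rw [e10]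
  ring

end Vale.Agent.P275.H341
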