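import Vale.Agent.P275.H341.Half

/-!
# The weights in the lowest degree
-/

set_option linter.style.haveILetI false
set_option linter.unusedSectionVars false

namespace Vale.Agent.P275.H341

open scoped BigOperators MatrixGroups
open Module Matrix Vale.Agent.P275.H85

theorem low (hTop : RTop) {m g : ℕ} (hm : 2 ≤ m) (hg : 2 ≤ g) (h : ℕ → ℕ → ℕ)
    (H0 : ∀ k w, h k w ≠ 0 → k ≤ w ∧ w ≤ 2 * k)
    (H1 : ∀ k w, k ≤ 2 * (4 * m * (m - 1) * (g - 1)) → h k w = 0)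
    (H2 : ∑ w ∈ Finset.range (2 * (2 * (4 * m * (m - 1) * (g - 1)) + 1) + 1),
      h (2 * (4 * m * (m - 1) * (g - 1)) + 1) w = 2 * g - 2)
    (H3 : ∀ (F : Type) [Field F] [Fintype F] [DecidableEq F], 4 * m ∣ Fintype.card F - 1 →
      ∃ (ζ : Fˣ) (κ κ' : Fin g → (Fˣ →* ℂˣ)), orderOf ζ = 2 * m ∧
        orderOf (fun i => (κ i, κ' i)) = m ∧
        commSum F (2 * m) g ζ κ κ'
          = ((Fintype.card F : ℂ) - 1) ^ (2 * g - 1) * (Fintype.card (GL (Fin (2 * m)) F) : ℂ) *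
            ∑ k ∈ Finset.range (2 * (((2 * m) ^ 2 - 1) * (g - 1)) + 1),
              ∑ w ∈ Finset.range (2 * k + 1), (-1) ^ k * (h k w : ℂ) *
              ((Real.sqrt (Fintype.card F) : ℝ) : ℂ) ^ (4 * (((2 * m) ^ 2 - 1) * (g - 1)) - w)) :
    (∀ w, h (2 * (4 * m * (m - 1) * (g - 1)) + 1) w
      = if w = 2 * (4 * m * (m - 1) * (g - 1) + 1) then 2 * g - 2 else 0) ∧
    h (2 * (4 * m * (m - 1) * (g - 1)) + 2) (2 * (4 * m * (m - 1) * (g - 1)) + 2) = 0 := by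
  refine hTop m g hm hg h H0 H1 H2 ?_
  intro p hp hp1
  haveI : Fact p.Prime := ⟨hp⟩
  have hcard : Fintype.card (ZMod p) = p := ZMod.card p
  have hdiv : 4 * m ∣ Fintype.card (ZMod p) - 1 := by
    rw [hcard]
    exact (Nat.modEq_iff_dvd' hp.one_le).mp hp1.symm
  obtain ⟨ζ, κ, κ', hζ, hκ, hc⟩ := H3 (ZMod p) hdiv
  have hdiv2 : 2 * m ∣ Fintype.card (ZMod p) - 1 := dvd_trans ⟨2, by ring⟩ hdiv
  have hpow : (fun i => (κ i, κ' i)) ^ m = 1 := by
    rw [← hκ]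
    exact pow_orderOf_eq_one _
  have hneg : ∀ i, κ i (-1) = 1 ∧ κ' i (-1) = 1 := by
    intro i
    have h1 := congrFun hpow i
    have h2 : (κ i) ^ m = 1 := congrArg Prod.fst h1
    have h3 : (κ' i) ^ m = 1 := congrArg Prod.snd h1
    exact ⟨neg_one_of_pow hdiv2 _ h2, neg_one_of_pow hdiv2 _ h3⟩
  rw [count_half (by omega) (by omega) ζ hζ κ κ' hκ hneg] at hc
  have hp2 : (1 : ℝ) < p := by exact_mod_cast hp.one_lt
  have hne : ((Fintype.card (ZMod p) : ℂ) - 1) *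
      (Fintype.card (GL (Fin (2 * m)) (ZMod p)) : ℂ) ≠ 0 := by
    apply mul_ne_zero
    · rw [hcard, sub_ne_zero]
      exact_mod_cast hp.one_lt.ne'
    · exact_mod_cast Fintype.card_ne_zero
  have hsplit : ((Fintype.card (ZMod p) : ℂ) - 1) ^ (2 * g - 1)
      = ((Fintype.card (ZMod p) : ℂ) - 1) * ((Fintype.card (ZMod p) : ℂ) - 1) ^ (2 * g - 2) := by
    rw [← pow_succ']
    congr 1
    omega
  rw [hsplit] at hc
  have hc' : ((Fintype.card (ZMod p) : ℂ) - 1) *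
      (Fintype.card (GL (Fin (2 * m)) (ZMod p)) : ℂ) * eK m g (Fintype.card (ZMod p))
      = ((Fintype.card (ZMod p) : ℂ) - 1) *
      (Fintype.card (GL (Fin (2 * m)) (ZMod p)) : ℂ) *
      (((Fintype.card (ZMod p) : ℂ) - 1) ^ (2 * g - 2) *
            ∑ k ∈ Finset.range (2 * (((2 * m) ^ 2 - 1) * (g - 1)) + 1),
              ∑ w ∈ Finset.range (2 * k + 1), (-1) ^ k * (h k w : ℂ) *
              ((Real.sqrt (Fintype.card (ZMod p)) : ℝ) : ℂ) ^
                (4 * (((2 * m) ^ 2 - 1) * (g - 1)) - w)) := by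
    rw [hc]
    ring
  have hc2 := mul_left_cancel₀ hne hc'
  rw [hcard] at hc2
  exact hc2.symm

end Vale.Agent.P275.H341
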