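import Vale.Agent.P275.H341.Base

/-!
# Orbits of cuspidal characters under twisting
-/

set_option linter.style.haveILetI false
set_option linter.unusedSectionVars false

namespace Vale.Agent.P275.H341

open scoped BigOperators MatrixGroups
open Module Matrix Vale.Agent.P275.H85

variable {F : Type} [Field F] [Fintype F] [DecidableEq F]

theorem hpow_add (κ : Fˣ →* ℂˣ) (a b : ℕ) : κ ^ a * κ ^ b = κ ^ (a + b) := (pow_add κ a b).symm

theorem twist_add (κ : Fˣ →* ℂˣ) (c : Cu F) (a b : ℕ) :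
    (c.twist (κ ^ a)).twist (κ ^ b) = c.twist (κ ^ (a + b)) := by
  rw [Cu.twist_twist, hpow_add]

theorem twist_mul_per {κ : Fˣ →* ℂˣ} {c : Cu F} {j : ℕ} (h : c.twist (κ ^ j) = c) (k : ℕ) :
    c.twist (κ ^ (j * k)) = c := by
  induction k with
  | zero => rw [mul_zero, hpow_zero, Cu.twist_one]
  | succ k ih =>
    rw [mul_add, mul_one, ← twist_add, ih, h]

theorem mem_orb_iff {κ : Fˣ →* ℂˣ} {c c' : Cu F} {j : ℕ} (hj : 0 < j)
    (h : c.twist (κ ^ j) = c) : c' ∈ orb c κ j ↔ ∃ i : ℕ, c.twist (κ ^ i) = c' := by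
  rw [mem_orb]
  constructor
  · rintro ⟨i, _, hi⟩
    exact ⟨i, hi⟩
  · rintro ⟨i, hi⟩
    refine ⟨i % j, Nat.mod_lt _ hj, ?_⟩
    have h1 := twist_mul_per h (i / j)
    rw [← hi]
    conv_rhs => rw [← Nat.div_add_mod i j, ← twist_add, h1]

theorem orderOf_pos' (κ : Fˣ →* ℂˣ) : 0 < orderOf κ := by
  haveI : Finite (Fˣ →* ℂˣ) := Finite.of_fintype _
  exact orderOf_pos κ

theorem twist_symm {κ : Fˣ →* ℂˣ} {c c' : Cu F} (h : ∃ i : ℕ, c.twist (κ ^ i) = c') :
    ∃ i : ℕ, c'.twist (κ ^ i) = c := by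
  obtain ⟨i, rfl⟩ := h
  have h1 := orderOf_pos' κ
  refine ⟨orderOf κ * i - i, ?_⟩
  rw [twist_add]
  have h2 : i + (orderOf κ * i - i) = orderOf κ * i := by
    have : i ≤ orderOf κ * i := Nat.le_mul_of_pos_left _ h1
    omega
  rw [h2]
  apply twist_mul_per
  have h3 : κ ^ orderOf κ = 1 := pow_orderOf_eq_one κ
  rw [h3, Cu.twist_one]

/-- the relation of lying in the same orbit -/
def Rel (κ : Fˣ →* ℂˣ) (c c' : Cu F) : Prop := ∃ i : ℕ, c.twist (κ ^ i) = c'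

theorem Rel.symm {κ : Fˣ →* ℂˣ} {c c' : Cu F} (h : Rel κ c c') : Rel κ c' c := twist_symm h

theorem Rel.trans {κ : Fˣ →* ℂˣ} {c c' c'' : Cu F} (h : Rel κ c c') (h' : Rel κ c' c'') :
    Rel κ c c'' := by
  obtain ⟨i, rfl⟩ := h
  obtain ⟨k, rfl⟩ := h'
  exact ⟨i + k, (twist_add κ c i k).symm⟩

theorem Rel.refl (κ : Fˣ →* ℂˣ) (c : Cu F) : Rel κ c c := ⟨0, by rw [hpow_zero, Cu.twist_one]⟩

theorem Rel.s_eq {κ : Fˣ →* ℂˣ} {c c' : Cu F} (h : Rel κ c c') : c'.s = c.s := by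
  obtain ⟨i, rfl⟩ := h
  rfl

theorem orb_perm_of_rel {κ : Fˣ →* ℂˣ} {c c' : Cu F} {j j' : ℕ} (hj : 0 < j) (hj' : 0 < j')
    (h : c.twist (κ ^ j) = c) (h' : c'.twist (κ ^ j') = c') (hnd : (orb c κ j).Nodup)
    (hnd' : (orb c' κ j').Nodup) (hr : Rel κ c c') : (orb c κ j).Perm (orb c' κ j') := by
  classical
  rw [List.perm_ext_iff_of_nodup hnd hnd']
  intro x
  rw [mem_orb_iff hj h, mem_orb_iff hj' h']
  exact ⟨fun hx => hr.symm.trans hx, fun hx => hr.trans hx⟩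

theorem orb_disj_or {κ : Fˣ →* ℂˣ} {c c' : Cu F} {j j' : ℕ} (hj : 0 < j) (hj' : 0 < j')
    (h : c.twist (κ ^ j) = c) (h' : c'.twist (κ ^ j') = c') {x : Cu F}
    (hx : x ∈ orb c κ j) (hx' : x ∈ orb c' κ j') : Rel κ c c' := by
  rw [mem_orb_iff hj h] at hx
  rw [mem_orb_iff hj' h'] at hx'
  exact Rel.trans hx (Rel.symm hx')

theorem mem_orb_self {κ : Fˣ →* ℂˣ} {c : Cu F} {j : ℕ} (hj : 0 < j) : c ∈ orb c κ j := by
  rw [mem_orb]
  exact ⟨0, hj, by rw [hpow_zero, Cu.twist_one]⟩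

theorem per_of_rel {κ : Fˣ →* ℂˣ} {c c' : Cu F} {j : ℕ} (h : c.twist (κ ^ j) = c)
    (hr : Rel κ c c') : c'.twist (κ ^ j) = c' := by
  obtain ⟨i, rfl⟩ := hr
  rw [twist_add, add_comm, ← twist_add, h]

theorem nodup_of_rel {κ : Fˣ →* ℂˣ} {c c' : Cu F} {j : ℕ} (hj : 0 < j) (h : c.twist (κ ^ j) = c)
    (hnd : (orb c κ j).Nodup) (hr : Rel κ c c') : (orb c' κ j).Nodup := by
  classical
  -- the first `j` twists of `c'` are all the members of the orbit of `c`
  have h1 : orb c κ j ⊆ orb c' κ j := by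
    intro x hx
    rw [mem_orb_iff hj h] at hx
    rw [mem_orb_iff hj (per_of_rel h hr)]
    exact hr.symm.trans hx
  have h2 : (orb c κ j).toFinset ⊆ (orb c' κ j).toFinset := by
    intro x hx
    rw [List.mem_toFinset] at hx ⊢
    exact h1 hx
  have h3 := Finset.card_le_card h2
  rw [List.toFinset_card_of_nodup hnd, orb_length] at h3
  have h4 := (orb c' κ j).toFinset_card_le
  rw [orb_length] at h4
  rw [← Multiset.coe_nodup, ← Multiset.dedup_card_eq_card_iff_nodup]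
  have h5 : Multiset.card (Multiset.dedup (↑(orb c' κ j) : Multiset (Cu F)))
      = (orb c' κ j).toFinset.card := rfl
  rw [h5, Multiset.coe_card, orb_length]
  omega

/-- an orbit of rank `m` for every central character -/
theorem exists_orb_order {n : ℕ} (hn : 0 < n)
    {κ ω : Fˣ →* ℂˣ} (hκ : orderOf κ = n) (hneg : κ (-1) = 1) {ε : Fˣ} (hε : orderOf ε = n)
    {χ : GL (Fin n) F → ℂ} (hst : Stab κ ω χ) :
    ∃ (c : Cu F) (j : ℕ), 0 < j ∧ j * c.s = n ∧ c.s = orderOf (ω ε) ∧ c.twist (κ ^ j) = c ∧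
      (orb c κ j).Nodup ∧ χ = rs n (prodC (orb c κ j)) := by
  have hεn : ε ^ n = 1 := by rw [← hε]; exact pow_orderOf_eq_one ε
  set s := orderOf (ω ε) with hs
  have hsn : s ∣ n := by
    rw [hs]
    apply orderOf_dvd_of_pow_eq_one
    rw [← map_pow, hεn, map_one]
  obtain ⟨m, hm⟩ := hsn
  have hms : m * s = n := by rw [hm, mul_comm]
  have hmpos : 0 < m := by
    rcases Nat.eq_zero_or_pos m with h | h
    · rw [h, mul_zero] at hm
      omega
    · exact h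
  have hspos : 0 < s := by
    rcases Nat.eq_zero_or_pos s with h | h
    · rw [h, zero_mul] at hm
      omega
    · exact h
  obtain ⟨ω', hω'⟩ : ∃ ω' : Fˣ →* ℂˣ,
      ω' ^ m = ω * (κ ^ (s * ∑ j ∈ Finset.range m, j))⁻¹ := by
    have hy : orderOf (ε ^ s) = m := by
      rw [orderOf_pow' ε hspos.ne', hε, hm, Nat.gcd_mul_right_left,
        Nat.mul_div_cancel_left _ hspos]
    apply exists_root hmpos hy
    have h1 : κ ((ε ^ s) ^ (s * ∑ j ∈ Finset.range m, j)) = 1 := by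
      rw [← pow_mul, mul_comm s (s * _), pow_mul, map_pow, kappa_tri hms hεn hneg, one_pow]
    rw [MonoidHom.mul_apply, MonoidHom.inv_apply, MonoidHom.pow_apply, map_pow ω, hs,
      pow_orderOf_eq_one, one_mul, ← map_pow κ, ← hs, h1]
    simp
  have hω1 : ω' (ε ^ m) = ω ε := by
    have h1 := DFunLike.congr_fun hω' ε
    rw [MonoidHom.pow_apply, MonoidHom.mul_apply, MonoidHom.inv_apply, MonoidHom.pow_apply,
      ← map_pow κ, kappa_tri hms hεn hneg] at h1
    rw [map_pow, h1]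
    simp
  obtain ⟨χs, hχs, _⟩ := pkgD1 F s hspos (κ ^ m) ω' (orderOf_hpow hκ hms hn)
  have hcusp : CuspB (toCF χs) := by
    apply cusp_of_order hspos (orderOf_hpow hκ hms hn) (ε := ε ^ m) _ _ _ hχs
    · rw [MonoidHom.pow_apply, hneg, one_pow]
    · rw [← pow_mul, hms, hεn]
    · rw [hω1]
  let c : Cu F := ⟨s, χs, hspos, hχs.1, hcusp⟩
  have hcs : c.s = s := rfl
  have htw : c.twist (κ ^ m) = c := by
    apply Cu.mk_eq
    funext g
    exact hχs.2.1 g
  have hnd : (orb c κ m).Nodup := by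
    apply nodup_orb hκ
    intro j hj hjm hdvd
    have h1 := Nat.le_of_dvd (Nat.mul_pos hj c.pos) hdvd
    have h2 : j * s < m * s := Nat.mul_lt_mul_of_pos_right hjm hspos
    rw [hcs] at h1
    omega
  have hcent : CentF ω (prodC (orb c κ m)) := by
    have h1 : CentF ω' c.f := centF_toCF hχs.2.2
    have h2 := centF_orb (κ := κ) h1 m
    have h3 : ω' ^ m * κ ^ (c.s * ∑ j ∈ Finset.range m, j) = ω := by
      rw [hω', hcs]
      apply MonoidHom.ext
      intro x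
      rw [MonoidHom.mul_apply, MonoidHom.mul_apply, MonoidHom.inv_apply, inv_mul_cancel_right]
    rwa [h3] at h2
  have hmem := orb_stb hmpos (hms : m * c.s = n) htw hnd
  rw [mem_stb] at hmem
  have hst' : Stab κ ω (rs n (prodC (orb c κ m))) := ⟨hmem.1, hmem.2, cent_rs hcent⟩
  have heq : χ = rs n (prodC (orb c κ m)) := (pkgD1 F n hn κ ω hκ).unique hst hst'
  exact ⟨c, m, hmpos, hms, rfl, htw, hnd, heq⟩

end Vale.Agent.P275.H341
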