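import Vale.Agent.P275.H341.Psh

/-!
# Logarithmic derivatives of power series
-/

namespace Vale.Agent.P275.H341

open scoped BigOperators
open PowerSeries

theorem ld_eq {a : ℕ → ℂ} (h0 : a 0 = 1) :
    PowerSeries.mk (ld a) * PowerSeries.mk a = X * derivative ℂ (PowerSeries.mk a) := by
  have h1 : PowerSeries.mk (ld a) = X * derivative ℂ (PowerSeries.mk a) * (PowerSeries.mk a)⁻¹ := by
    ext k
    rw [coeff_mk]
    rfl
  have h2 : constantCoeff (PowerSeries.mk a) ≠ 0 := by
    rw [← coeff_zero_eq_constantCoeff_apply, coeff_mk, h0]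
    exact one_ne_zero
  rw [h1, mul_assoc, PowerSeries.inv_mul_cancel _ h2, mul_one]

theorem ld_unique {a b : ℕ → ℂ} (h0 : a 0 = 1)
    (h : PowerSeries.mk b * PowerSeries.mk a = X * derivative ℂ (PowerSeries.mk a)) : b = ld a := by
  have h2 : constantCoeff (PowerSeries.mk a) ≠ 0 := by
    rw [← coeff_zero_eq_constantCoeff_apply, coeff_mk, h0]
    exact one_ne_zero
  have h3 : PowerSeries.mk a ≠ 0 := by
    intro h4
    rw [h4] at h2
    exact h2 (map_zero _)
  have h4 := mul_right_cancel₀ h3 (h.trans (ld_eq h0).symm)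
  funext k
  have h5 := congrArg (coeff k) h4
  rwa [coeff_mk, coeff_mk] at h5

theorem coeff_XD (a : ℕ → ℂ) (k : ℕ) :
    coeff k (X * derivative ℂ (PowerSeries.mk a)) = k * a k := by
  rcases k with _ | k
  · rw [coeff_zero_X_mul]
    simp
  · rw [coeff_succ_X_mul]
    rw [coeff_derivative, coeff_mk]
    push_cast
    ring

theorem ld_zero {a : ℕ → ℂ} (h0 : a 0 = 1) : ld a 0 = 0 := by
  have h1 := congrArg (coeff 0) (ld_eq h0)
  rw [coeff_XD, coeff_mul] at h1
  simp [h0] at h1
  exact h1

/-- the recursion -/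
theorem ld_rec {a : ℕ → ℂ} (h0 : a 0 = 1) (k : ℕ) :
    ∑ p ∈ Finset.HasAntidiagonal.antidiagonal k, ld a p.1 * a p.2 = k * a k := by
  have h1 := congrArg (coeff k) (ld_eq h0)
  rw [coeff_XD, coeff_mul] at h1
  rw [← h1]
  apply Finset.sum_congr rfl
  intro p _
  rw [coeff_mk, coeff_mk]

theorem ld_of_rec {a b : ℕ → ℂ} (h0 : a 0 = 1)
    (h : ∀ k, ∑ p ∈ Finset.HasAntidiagonal.antidiagonal k, b p.1 * a p.2 = k * a k) : b = ld a := by
  apply ld_unique h0
  ext k
  rw [coeff_XD, coeff_mul, ← h k]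
  apply Finset.sum_congr rfl
  intro p _
  rw [coeff_mk, coeff_mk]

/-- scaling of the variable -/
theorem ld_scale {a : ℕ → ℂ} (h0 : a 0 = 1) (w : ℂ) :
    ld (fun k => w ^ k * a k) = fun k => w ^ k * ld a k := by
  symm
  apply ld_of_rec (by simp [h0])
  intro k
  have h1 := ld_rec h0 k
  calc ∑ p ∈ Finset.HasAntidiagonal.antidiagonal k, w ^ p.1 * ld a p.1 * (w ^ p.2 * a p.2)
      = ∑ p ∈ Finset.HasAntidiagonal.antidiagonal k, w ^ k * (ld a p.1 * a p.2) := by
        apply Finset.sum_congr rfl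
        intro p hp
        rw [← Finset.HasAntidiagonal.mem_antidiagonal.mp hp, pow_add]
        ring
    _ = w ^ k * (k * a k) := by rw [← Finset.mul_sum, h1]
    _ = k * (w ^ k * a k) := by ring

/-- substitution of a power of the variable -/
theorem ld_subst {a : ℕ → ℂ} (h0 : a 0 = 1) {e : ℕ} (he : 0 < e) :
    ld (fun t => if e ∣ t then a (t / e) else 0)
      = fun t => if e ∣ t then (e : ℂ) * ld a (t / e) else 0 := by
  symm
  apply ld_of_rec (by simp [h0])
  intro k
  by_cases hk : e ∣ k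
  · obtain ⟨r, rfl⟩ := hk
    rw [if_pos (Dvd.intro r rfl), Nat.mul_div_cancel_left _ he]
    have h1 := ld_rec h0 r
    have h2 : ∑ p ∈ Finset.HasAntidiagonal.antidiagonal (e * r),
        (if e ∣ p.1 then (e : ℂ) * ld a (p.1 / e) else 0) * (if e ∣ p.2 then a (p.2 / e) else 0)
        = ∑ p ∈ Finset.HasAntidiagonal.antidiagonal r, (e : ℂ) * (ld a p.1 * a p.2) := by
      symm
      apply Finset.sum_of_injOn (fun p => (e * p.1, e * p.2))
      · intro p _ p' _ h
        rw [Prod.mk.injEq] at h
        exact Prod.ext (Nat.eq_of_mul_eq_mul_left he h.1) (Nat.eq_of_mul_eq_mul_left he h.2)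
      · intro p hp
        simp only [Finset.coe_sort_coe, Finset.mem_coe, Finset.HasAntidiagonal.mem_antidiagonal] at hp ⊢
        rw [← hp]
        ring
      · intro p hp hp'
        rw [Finset.HasAntidiagonal.mem_antidiagonal] at hp
        by_cases h3 : e ∣ p.1
        · by_cases h4 : e ∣ p.2
          · exfalso
            apply hp'
            obtain ⟨u, hu⟩ := h3
            obtain ⟨v, hv⟩ := h4
            refine ⟨(u, v), ?_, ?_⟩
            · simp only [Finset.coe_sort_coe, Finset.mem_coe, Finset.HasAntidiagonal.mem_antidiagonal]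
              apply Nat.eq_of_mul_eq_mul_left he
              rw [← hp, hu, hv]
              ring
            · exact Prod.ext hu.symm hv.symm
          · rw [if_neg h4, mul_zero]
        · rw [if_neg h3, zero_mul]
      · intro p _
        rw [if_pos (Dvd.intro _ rfl), if_pos (Dvd.intro _ rfl), Nat.mul_div_cancel_left _ he,
          Nat.mul_div_cancel_left _ he]
        ring
    rw [h2, ← Finset.mul_sum, h1]
    push_cast
    ring
  · rw [if_neg hk, mul_zero]
    apply Finset.sum_eq_zero
    intro p hp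
    rw [Finset.HasAntidiagonal.mem_antidiagonal] at hp
    by_cases h3 : e ∣ p.1
    · by_cases h4 : e ∣ p.2
      · exact absurd (hp ▸ dvd_add h3 h4) hk
      · rw [if_neg h4, mul_zero]
    · rw [if_neg h3, zero_mul]

/-- the logarithmic derivative of a product -/
theorem ld_prod {ι : Type} (Q : Finset ι) (a : ι → ℕ → ℂ) (h0 : ∀ i ∈ Q, a i 0 = 1) :
    (PowerSeries.mk fun t => ∑ i ∈ Q, ld (a i) t) * ∏ i ∈ Q, PowerSeries.mk (a i)
      = X * derivative ℂ (∏ i ∈ Q, PowerSeries.mk (a i)) := by
  classical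
  induction Q using Finset.induction_on with
  | empty =>
    have : (PowerSeries.mk fun t => ∑ i ∈ (∅ : Finset ι), ld (a i) t) = 0 := by
      ext k
      simp
    rw [this, zero_mul, Finset.prod_empty]
    have h1 : derivative ℂ (1 : PowerSeries ℂ) = 0 := by
      exact Derivation.map_one_eq_zero _
    rw [h1, mul_zero]
  | insert i Q hi ih =>
    have h1 : (PowerSeries.mk fun t => ∑ l ∈ insert i Q, ld (a l) t)
        = PowerSeries.mk (ld (a i)) + PowerSeries.mk fun t => ∑ l ∈ Q, ld (a l) t := by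
      ext k
      rw [map_add, coeff_mk, coeff_mk, coeff_mk, Finset.sum_insert hi]
    rw [h1, Finset.prod_insert hi, Derivation.leibniz, smul_eq_mul, smul_eq_mul]
    have h2 := ih (fun l hl => h0 l (Finset.mem_insert_of_mem hl))
    have h3 := ld_eq (h0 i (Finset.mem_insert_self i Q))
    calc (PowerSeries.mk (ld (a i)) + PowerSeries.mk fun t => ∑ l ∈ Q, ld (a l) t) *
          (PowerSeries.mk (a i) * ∏ l ∈ Q, PowerSeries.mk (a l))
        = (PowerSeries.mk (ld (a i)) * PowerSeries.mk (a i)) * ∏ l ∈ Q, PowerSeries.mk (a l)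
          + PowerSeries.mk (a i) * ((PowerSeries.mk fun t => ∑ l ∈ Q, ld (a l) t) *
            ∏ l ∈ Q, PowerSeries.mk (a l)) := by ring
      _ = _ := by
        rw [h2, h3]
        ring

/-- the leading coefficient of a product -/
theorem ld_lead {ι : Type} (Q : Finset ι) (a : ι → ℕ → ℂ) (h0 : ∀ i ∈ Q, a i 0 = 1) {n : ℕ}
    (hn : 0 < n) (hv : ∀ t, 0 < t → t < n → coeff t (∏ i ∈ Q, PowerSeries.mk (a i)) = 0) :
    (n : ℂ) * coeff n (∏ i ∈ Q, PowerSeries.mk (a i)) = ∑ i ∈ Q, ld (a i) n := by
  set P := ∏ i ∈ Q, PowerSeries.mk (a i) with hP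
  have hPm : P = PowerSeries.mk fun t => coeff t P := by
    ext k
    rw [coeff_mk]
  have h1 := congrArg (coeff n) (ld_prod Q a h0)
  rw [← hP] at h1
  have h2 : coeff n (X * derivative ℂ P) = n * coeff n P := by
    conv_lhs => rw [hPm]
    rw [coeff_XD]
  rw [h2, coeff_mul] at h1
  have hP0 : coeff 0 P = 1 := by
    rw [hP, coeff_zero_eq_constantCoeff_apply, map_prod]
    apply Finset.prod_eq_one
    intro i hi
    rw [← coeff_zero_eq_constantCoeff_apply, coeff_mk, h0 i hi]
  rw [← h1, Finset.sum_eq_single (n, 0)]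
  · rw [coeff_mk, hP0, mul_one]
  · intro p hp hne
    rw [Finset.HasAntidiagonal.mem_antidiagonal] at hp
    by_cases h3 : p.2 = 0
    · exfalso
      apply hne
      apply Prod.ext
      · show p.1 = n
        omega
      · exact h3
    · by_cases h4 : p.2 = n
      · have h5 : p.1 = 0 := by omega
        rw [h5, coeff_mk, Finset.sum_eq_zero (fun i hi => ld_zero (h0 i hi)), zero_mul]
      · rw [hv p.2 (by omega) (by omega), mul_zero]
  · intro h
    exact absurd (Finset.HasAntidiagonal.mem_antidiagonal.mpr (by simp)) h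

end Vale.Agent.P275.H341
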