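import Mathlib

/-!
# Positive self-adjoint Hopf algebras by structure constants: definitions and rows
-/

namespace Vale.Agent.P275.H341

open scoped BigOperators

/-- a positive self-adjoint Hopf algebra with basis `I`; `c a b x` is the multiplicity of `x` in
the product of `a` and `b` -/
structure PSH (I : Type) where
  deg : I → ℕ
  lvl : ℕ → Finset I
  mem_lvl : ∀ n i, i ∈ lvl n ↔ deg i = n
  c : I → I → I → ℕ
  one : I
  lvl_zero : lvl 0 = {one}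
  c_deg : ∀ a b x, c a b x ≠ 0 → deg x = deg a + deg b
  c_comm : ∀ a b x, c a b x = c b a x
  c_one_self : ∀ a, c one a a = 1
  c_one_ne : ∀ a x, x ≠ a → c one a x = 0
  c_assoc : ∀ a b d x, ∑ y ∈ lvl (deg a + deg b), c a b y * c y d x
    = ∑ y ∈ lvl (deg b + deg d), c b d y * c a y x
  hopf : ∀ a b a' b', ∑ x ∈ lvl (deg a + deg b), c a b x * c a' b' x =
    ∑ i ∈ Finset.range (deg a + 1), ∑ j ∈ Finset.range (deg b + 1),
      ∑ a1 ∈ lvl i, ∑ a2 ∈ lvl (deg a - i), ∑ b1 ∈ lvl j, ∑ b2 ∈ lvl (deg b - j),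
        c a1 a2 a * c b1 b2 b * (c a1 b1 a' * c a2 b2 b')

namespace PSH

variable {I : Type} (H : PSH I)

/-- primitive elements of the basis -/
def Pr (p : I) : Prop := 0 < H.deg p ∧ ∀ a b, H.c a b p ≠ 0 → a = H.one ∨ b = H.one

/-- multiplicative functionals -/
def Mult (D : I → ℂ) : Prop :=
  D H.one = 1 ∧ ∀ a b, D a * D b = ∑ x ∈ H.lvl (H.deg a + H.deg b), (H.c a b x : ℂ) * D x

/-- the product of `a` and `b` is the basis element `z` -/
def IsProd (a b z : I) : Prop := H.c a b z = 1 ∧ ∀ x, x ≠ z → H.c a b x = 0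

/-- only the primitive element `p` divides `a` -/
def Only (p a : I) : Prop := ∀ p', H.Pr p' → (∃ b, H.c p' b a ≠ 0) → p' = p

/-- the primitive element `p` does not divide `a` -/
def Away (p a : I) : Prop := ∀ b, H.c p b a = 0

/-- the chain of the complete elements over the primitive element `p` -/
structure Chain (p : I) (x : ℕ → I) : Prop where
  zero : x 0 = H.one
  first : x 1 = p
  cself : ∀ i j, H.c (x i) (x j) (x (i + j)) = 1
  cne : ∀ k a b, H.c a b (x k) ≠ 0 → ∃ i j, i + j = k ∧ a = x i ∧ b = x j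

open scoped Classical in
/-- the multiplicity of `a` in the product of a list -/
noncomputable def coef : List I → I → ℕ
  | [], a => if a = H.one then 1 else 0
  | b :: L, a => ∑ y ∈ H.lvl (L.map H.deg).sum, coef L y * H.c b y a

/-- the multiplicity of `a` in the Jacobi-Trudi determinant of `lam` -/
noncomputable def jtc (x : ℕ → I) {k : ℕ} (lam : Fin k → ℕ) (a : I) : ℤ :=
  ∑ w : Equiv.Perm (Fin k), (Equiv.Perm.sign w : ℤ) *
    (if ∀ i : Fin k, (i : ℕ) ≤ lam i + w i then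
      (H.coef (List.ofFn fun i : Fin k => x (lam i + w i - i)) a : ℤ) else 0)

/-- automorphisms -/
structure Aut where
  t : Equiv.Perm I
  deg : ∀ i, H.deg (t i) = H.deg i
  c : ∀ a b x, H.c (t a) (t b) (t x) = H.c a b x

end PSH

/-- the partitions of `k`, with `k` parts, some of which may be zero -/
def Pt (k : ℕ) : Finset (Fin k → ℕ) :=
  (Finset.Nat.antidiagonalTuple k k).filter fun f => ∀ i j : Fin k, i ≤ j → f j ≤ f i

/-- the Jacobi-Trudi determinant -/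
noncomputable def jt (u : ℕ → ℂ) {k : ℕ} (lam : Fin k → ℕ) : ℂ :=
  Matrix.det (Matrix.of fun i j : Fin k => if (i : ℕ) ≤ lam i + j then u (lam i + j - i) else 0)

/-- a family of basis elements indexed by the partitions, for every primitive element -/
structure PSH.Fam {I : Type} (H : PSH I) (p : I) (x : ℕ → I) (s : (k : ℕ) → (Fin k → ℕ) → I) :
    Prop where
  deg : ∀ k, ∀ lam ∈ Pt k, H.deg (s k lam) = k * H.deg p
  only : ∀ k, ∀ lam ∈ Pt k, H.Only p (s k lam)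
  inj : ∀ k, ∀ lam ∈ Pt k, ∀ mu ∈ Pt k, s k lam = s k mu → lam = mu
  surj : ∀ a, H.Only p a → ∃ k, ∃ lam ∈ Pt k, a = s k lam
  jself : ∀ k, ∀ lam ∈ Pt k, H.jtc x lam (s k lam) = 1
  jne : ∀ k, ∀ lam ∈ Pt k, ∀ a, a ≠ s k lam → H.jtc x lam a = 0

/-- Row A1: existence and uniqueness of the chain -/
def RowA1 : Prop := ∀ (I : Type) (H : PSH I) (p z : I), H.Pr p → H.c p p z ≠ 0 →
  ∃! x : ℕ → I, H.Chain p x ∧ x 2 = z

/-- Row A2: the elements over one primitive element are indexed by the partitions -/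
def RowA2 : Prop := ∀ (I : Type) (H : PSH I) (p : I) (x : ℕ → I), H.Pr p → H.Chain p x →
  ∃ s : (k : ℕ) → (Fin k → ℕ) → I, H.Fam p x s

/-- Row A3: factorisation of the basis elements -/
def RowA3 : Prop := ∀ (I : Type) (H : PSH I) (p : I), H.Pr p →
  (∀ a b, H.Only p a → H.Away p b → ∃ z, H.IsProd a b z) ∧
  (∀ z, ∃! ab : I × I, H.Only p ab.1 ∧ H.Away p ab.2 ∧ H.IsProd ab.1 ab.2 z)

/-- Row A4: the generating function of the fixed elements -/
def RowA4 : Prop := ∀ (I : Type) (H : PSH I) (τ : H.Aut) (W : I → ℂ) (N : ℕ)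
  (S : I → (k : ℕ) → (Fin k → ℕ) → I) (X : I → ℕ → I) (Q : Finset I) (j : I → ℕ)
  (fx : ℕ → Finset I),
  W H.one = 1 → (∀ a b z, H.IsProd a b z → W z = W a * W b) →
  (∀ p, H.Pr p → H.Chain p (X p) ∧ H.Fam p (X p) (S p)) →
  (∀ p, H.Pr p → ∀ k, ∀ lam ∈ Pt k, τ.t (S p k lam) = S (τ.t p) k lam) →
  (∀ q ∈ Q, H.Pr q ∧ 0 < j q ∧ (τ.t ^ j q) q = q ∧ ∀ i, 0 < i → i < j q → (τ.t ^ i) q ≠ q) →
  (∀ q ∈ Q, ∀ q' ∈ Q, ∀ i : ℕ, (τ.t ^ i) q = q' → q = q') →
  (∀ p, H.Pr p → H.deg p ≤ N → ∃ q ∈ Q, ∃ i : ℕ, (τ.t ^ i) q = p) →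
  (∀ n z, z ∈ fx n ↔ z ∈ H.lvl n ∧ τ.t z = z) →
  ∀ n ≤ N, ∑ z ∈ fx n, W z = PowerSeries.coeff n (∏ q ∈ Q, PowerSeries.mk fun t =>
    if j q * H.deg q ∣ t then ∑ lam ∈ Pt (t / (j q * H.deg q)),
      ∏ i ∈ Finset.range (j q), W (S ((τ.t ^ i) q) (t / (j q * H.deg q)) lam) else 0)

/-- Row A5: a convolution quotient of multiplicative functionals is multiplicative -/
def RowA5 : Prop := ∀ (I : Type) (H : PSH I) (D w : I → ℂ) (q : ℂ), H.Mult D →
  (∀ a, D a * q ^ H.deg a = ∑ i ∈ Finset.range (H.deg a + 1),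
    ∑ b ∈ H.lvl (H.deg a - i), ∑ d ∈ H.lvl i, (H.c b d a : ℂ) * (D b * w d)) →
  H.Mult w

/-- Row A6: multiplicative functionals at the elements of a family -/
def RowA6 : Prop := ∀ (I : Type) (H : PSH I) (p : I) (x : ℕ → I)
  (s : (k : ℕ) → (Fin k → ℕ) → I), H.Pr p → H.Chain p x → H.Fam p x s →
  (∀ D, H.Mult D → ∀ k, ∀ lam ∈ Pt k, D (s k lam) = jt (fun i => D (x i)) lam) ∧
  (∀ τ : H.Aut, H.Pr (τ.t p) ∧ H.Chain (τ.t p) (fun i => τ.t (x i)) ∧
    H.Fam (τ.t p) (fun i => τ.t (x i)) (fun k lam => τ.t (s k lam))) ∧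
  (∀ s', H.Fam p x s' → ∀ k, ∀ lam ∈ Pt k, s' k lam = s k lam)

/-- Row A7: the functional on the chain -/
def RowA7 : Prop := ∀ (I : Type) (H : PSH I) (D : I → ℂ) (w : I → ℕ) (q : ℂ), H.Mult D →
  (∀ a, D a * q ^ H.deg a = ∑ i ∈ Finset.range (H.deg a + 1),
    ∑ b ∈ H.lvl (H.deg a - i), ∑ d ∈ H.lvl i, (H.c b d a : ℂ) * (D b * w d)) →
  (∀ n, 0 < n → q ^ n ≠ 1) →
  ∀ p, H.Pr p → w p = 1 →
    (∃! z, H.c p p z ≠ 0 ∧ w z = 0) ∧
    ∀ x, H.Chain p x → w (x 2) = 0 →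
      (∀ k, 2 ≤ k → w (x k) = 0) ∧
      ∀ k, D (x k) = ∏ i ∈ Finset.range k, (q ^ (H.deg p * (i + 1)) - 1)⁻¹

/-- the hook polynomial of a partition -/
noncomputable def hk (q : ℂ) {k : ℕ} (lam : Fin k → ℕ) : ℂ :=
  q ^ (Nat.choose k 3) *
    (∏ i : Fin k, ∏ t ∈ Finset.range (lam i + (k - 1 - i)), (q ^ (t + 1) - 1)) /
    ∏ i : Fin k, ∏ j ∈ Finset.Ioi i, (q ^ (lam i + (k - 1 - i)) - q ^ (lam j + (k - 1 - j)))

/-- Row A8: the principal specialisation -/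
def RowA8 : Prop := ∀ (q : ℂ), q ≠ 0 → (∀ n, 0 < n → q ^ n ≠ 1) → ∀ (k : ℕ), ∀ lam ∈ Pt k,
  jt (fun i => ∏ t ∈ Finset.range i, (q ^ (t + 1) - 1)⁻¹) lam * hk q lam = 1

/-- the coefficients of the logarithmic derivative of `1 + a 1 T + a 2 T ^ 2 + ...` -/
noncomputable def ld (a : ℕ → ℂ) (k : ℕ) : ℂ :=
  PowerSeries.coeff k (PowerSeries.X * PowerSeries.derivative ℂ (PowerSeries.mk a) *
    (PowerSeries.mk a)⁻¹)

/-- Row A9: the number of partitions -/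
def RowA9 : Prop := ∀ k, 0 < k → ld (fun t => ((Pt t).card : ℂ)) k = ∑ d ∈ k.divisors, (d : ℂ)

end Vale.Agent.P275.H341
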