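import Mathlib

/-!
# Two filtrations on a module generated by two spaces of exact weights
-/

set_option linter.style.haveILetI false
set_option linter.unusedSectionVars false

namespace Vale.Agent.P275.H341

open scoped BigOperators
open Module

variable {V : Type} [AddCommGroup V] [Module ℂ V]

theorem indep_le3 {ι : Type} {J N : ι → Submodule ℂ V} (hJ : iSupIndep J)
    (hN : ∀ w, N w ≤ J w) (hs : (⨆ w, J w) ≤ ⨆ w, N w) (w : ι) : J w ≤ N w := by
  intro x hx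
  have h1 : x ∈ ⨆ w, N w := hs (Submodule.mem_iSup_of_mem w hx)
  have h2 : (⨆ w', N w') ≤ N w ⊔ ⨆ (w') (_ : w' ≠ w), N w' := by
    apply iSup_le
    intro w'
    by_cases h : w' = w
    · subst h
      exact le_sup_left
    · exact le_sup_of_le_right (le_iSup₂_of_le w' h le_rfl)
  obtain ⟨y, hy, z, hz, hyz⟩ := Submodule.mem_sup.mp (h2 h1)
  have hz' : z ∈ ⨆ (w') (_ : w' ≠ w), J w' := (iSup₂_mono fun w' _ => hN w') hz
  have hz2 : z ∈ J w := by
    have h3 := Submodule.sub_mem _ hx (hN w hy)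
    have h4 : x - y = z := by rw [← hyz]; abel
    rwa [h4] at h3
  have h5 : z ∈ (⊥ : Submodule ℂ V) := (hJ w).le_bot ⟨hz2, hz'⟩
  rw [Submodule.mem_bot] at h5
  rw [← hyz, h5, add_zero]
  exact hy

/-- the data: `J k w` is the part of weight `w` in degree `k`, `P k i` the `i`-th step of the
second filtration in degree `k`, and the operators `a s` have degree `d s` and level `j s` -/
structure Quad (V : Type) [AddCommGroup V] [Module ℂ V] where
  J : ℕ → ℕ → Submodule ℂ V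
  P : ℕ → ℕ → Submodule ℂ V
  S : Type
  d : S → ℕ
  j : S → ℕ
  a : S → V →ₗ[ℂ] V
  indep : ∀ k, iSupIndep (J k)
  bound : ∀ k w, J k w ≠ ⊥ → k ≤ w ∧ w ≤ 2 * k
  aJ : ∀ s k w, (J k w).map (a s) ≤ J (k + d s) (w + 2 * j s)
  aP : ∀ s k i, (P k i).map (a s) ≤ P (k + d s) (i + j s)
  mono : ∀ k i i', i ≤ i' → P k i ≤ P k i'
  total : ∀ k, (⨆ i, P k i) = ⨆ w, J k w
  odd : ∀ s, d s ≠ 1 ∧ (d s = 3 → j s = 2)
  low : ∀ k, k ≤ 16 → ∀ w, J k w = ⊥
  t17 : (⨆ w, J 17 w) ≤ P 17 9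
  e17 : finrank ℂ (P 17 9) = 2
  t18 : ∀ w, J 18 w = ⊥
  e19 : finrank ℂ (P 19 10) = 2
  t19 : finrank ℂ ((⨆ w, J 19 w : Submodule ℂ V)) = 4
  p27 : P 27 14 = ⊥
  al : S
  be : S
  dal : d al = 2 ∧ j al = 2
  dbe : d be = 8 ∧ j be = 4
  inj : ∀ x ∈ P 17 9, a be (a al x) = 0 → x = 0
  gen : ∀ k i, P k i ≤ (⨆ (s) (_ : 17 + d s = k ∧ 9 + j s ≤ i), (P 17 9).map (a s)) ⊔
    ⨆ (s) (_ : 19 + d s = k ∧ 10 + j s ≤ i), (P 19 10).map (a s)

namespace Quad

variable (X : Quad V)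

theorem P_le (k i : ℕ) : X.P k i ≤ ⨆ w, X.J k w := by
  rw [← X.total]
  exact le_iSup _ i

theorem J_le (k w : ℕ) : X.J k w ≤ ⨆ w, X.J k w := le_iSup _ w

theorem disj (k : ℕ) {w w' : ℕ} (h : w ≠ w') : Disjoint (X.J k w) (X.J k w') :=
  (X.indep k).pairwiseDisjoint h

theorem g17 : X.P 17 9 = ⨆ w, X.J 17 w := le_antisymm (X.P_le 17 9) X.t17

theorem J20 (h18 : X.P 17 9 = X.J 17 18) : X.J 20 20 = ⊥ := by
  have h1 : (⨆ w, X.J 20 w) ≤ X.J 20 22 := by
    rw [← X.total]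
    apply iSup_le
    intro i
    refine (X.gen 20 i).trans (sup_le ?_ ?_)
    · apply iSup₂_le
      intro s hs
      have hd : X.d s = 3 := by omega
      have h2 := X.aJ s 17 18
      rw [hd, (X.odd s).2 hd] at h2
      rw [h18]
      exact h2
    · apply iSup₂_le
      intro s hs
      exact absurd (show X.d s = 1 by omega) (X.odd s).1
  have h2 : X.J 20 20 ≤ X.J 20 22 := (X.J_le 20 20).trans h1
  have h3 := X.disj 20 (show (20 : ℕ) ≠ 22 by omega)
  exact le_bot_iff.mp (h3 le_rfl h2)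

theorem P19 [FiniteDimensional ℂ V] (h18 : X.P 17 9 = X.J 17 18)
    (h20 : finrank ℂ (X.J 19 20) = 2) : X.P 19 10 = X.J 19 20 := by
  have hm : (X.P 17 9).map (X.a X.al) ≤ X.J 19 22 := by
    have h2 := X.aJ X.al 17 18
    rw [X.dal.1, X.dal.2] at h2
    rw [h18]
    exact h2
  have hinj : Function.Injective ((X.a X.al).domRestrict (X.P 17 9)) := by
    rw [← LinearMap.ker_eq_bot, LinearMap.ker_eq_bot']
    intro x hx
    have h3 : X.a X.al x = 0 := hx
    have h4 := X.inj x x.2 (by rw [h3, map_zero])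
    exact Subtype.ext h4
  have hr : finrank ℂ ((X.P 17 9).map (X.a X.al)) = 2 := by
    rw [← X.e17, ← LinearMap.finrank_range_of_inj hinj, LinearMap.range_domRestrict]
  have hd := X.disj 19 (show (20 : ℕ) ≠ 22 by omega)
  have hs := Submodule.finrank_sup_add_finrank_inf_eq (X.J 19 20) (X.J 19 22)
  rw [hd.eq_bot, finrank_bot, add_zero] at hs
  have hle : X.J 19 20 ⊔ X.J 19 22 ≤ ⨆ w, X.J 19 w := sup_le (X.J_le 19 20) (X.J_le 19 22)
  have h4 := Submodule.finrank_mono hle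
  have h5 := Submodule.finrank_mono hm
  rw [X.t19] at h4
  rw [hr] at h5
  have h6 : finrank ℂ (X.J 19 22) = 2 := by omega
  have h7 : (X.P 17 9).map (X.a X.al) = X.J 19 22 :=
    Submodule.eq_of_le_of_finrank_eq hm (by rw [hr, h6])
  have h8 : X.J 19 20 ⊔ X.J 19 22 = ⨆ w, X.J 19 w :=
    Submodule.eq_of_le_of_finrank_eq hle (by rw [X.t19]; omega)
  apply Submodule.eq_of_le_of_finrank_eq _ (by rw [X.e19, h20])
  intro p hp
  have h9 : p ∈ X.J 19 20 ⊔ X.J 19 22 := by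
    rw [h8]
    exact X.P_le 19 10 hp
  obtain ⟨u, hu, v, hv, hp'⟩ := Submodule.mem_sup.mp h9
  rw [← h7] at hv
  obtain ⟨y, hy, hyv⟩ := hv
  have h10 : X.a X.be p = 0 := by
    have h11 := X.aP X.be 19 10
    rw [X.dbe.1, X.dbe.2] at h11
    have h12 : X.a X.be p ∈ X.P 27 14 := h11 ⟨p, hp, rfl⟩
    rw [X.p27] at h12
    exact (Submodule.mem_bot ℂ).mp h12
  have h13 : X.a X.be u ∈ X.J 27 28 := by
    have h11 := X.aJ X.be 19 20
    rw [X.dbe.1, X.dbe.2] at h11
    exact h11 ⟨u, hu, rfl⟩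
  have h14 : X.a X.be v ∈ X.J 27 30 := by
    have h11 := X.aJ X.be 19 22
    rw [X.dbe.1, X.dbe.2] at h11
    refine h11 ⟨v, ?_, rfl⟩
    rw [← hyv]
    exact hm ⟨y, hy, rfl⟩
  have h15 : X.a X.be v = - X.a X.be u := by
    have h16 : X.a X.be u + X.a X.be v = 0 := by rw [← map_add, hp', h10]
    exact (neg_eq_of_add_eq_zero_right h16).symm
  have h17 : X.a X.be v = 0 := by
    have h18' := X.disj 27 (show (28 : ℕ) ≠ 30 by omega)
    rw [Submodule.disjoint_def] at h18'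
    apply h18' _ _ h14
    rw [h15]
    exact Submodule.neg_mem _ h13
  have h19 : y = 0 := X.inj y hy (by rw [hyv]; exact h17)
  rw [← hp', ← hyv, h19, map_zero, add_zero]
  exact hu

/-- the generators -/
def M : X.S ⊕ X.S → Submodule ℂ V
  | Sum.inl s => (X.P 17 9).map (X.a s)
  | Sum.inr s => (X.P 19 10).map (X.a s)

/-- the degrees of the generators -/
def kd : X.S ⊕ X.S → ℕ
  | Sum.inl s => 17 + X.d s
  | Sum.inr s => 19 + X.d s

/-- the levels of the generators -/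
def lv : X.S ⊕ X.S → ℕ
  | Sum.inl s => 9 + X.j s
  | Sum.inr s => 10 + X.j s

theorem M_P (t : X.S ⊕ X.S) : X.M t ≤ X.P (X.kd t) (X.lv t) := by
  cases t with
  | inl s => exact X.aP s 17 9
  | inr s => exact X.aP s 19 10

theorem M_J (h18 : X.P 17 9 = X.J 17 18) (h20 : X.P 19 10 = X.J 19 20) (t : X.S ⊕ X.S) :
    X.M t ≤ X.J (X.kd t) (2 * X.lv t) := by
  cases t with
  | inl s =>
    have h := X.aJ s 17 18
    have e : 2 * X.lv (Sum.inl s) = 18 + 2 * X.j s := by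
      show 2 * (9 + X.j s) = _
      ring
    rw [e]
    show (X.P 17 9).map (X.a s) ≤ _
    rw [h18]
    exact h
  | inr s =>
    have h := X.aJ s 19 20
    have e : 2 * X.lv (Sum.inr s) = 20 + 2 * X.j s := by
      show 2 * (10 + X.j s) = _
      ring
    rw [e]
    show (X.P 19 10).map (X.a s) ≤ _
    rw [h20]
    exact h

theorem gen' (k i : ℕ) : X.P k i ≤ ⨆ (t) (_ : X.kd t = k ∧ X.lv t ≤ i), X.M t := by
  refine (X.gen k i).trans (sup_le ?_ ?_)
  · apply iSup₂_le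
    intro s hs
    exact le_iSup₂_of_le (f := fun (t : X.S ⊕ X.S) (_ : X.kd t = k ∧ X.lv t ≤ i) => X.M t)
      (Sum.inl s) hs le_rfl
  · apply iSup₂_le
    intro s hs
    exact le_iSup₂_of_le (f := fun (t : X.S ⊕ X.S) (_ : X.kd t = k ∧ X.lv t ≤ i) => X.M t)
      (Sum.inr s) hs le_rfl

/-- the two filtrations agree -/
theorem main [FiniteDimensional ℂ V] (h18 : X.P 17 9 = X.J 17 18)
    (h20 : finrank ℂ (X.J 19 20) = 2) :
    (∀ k i, X.P k i = ⨆ (w) (_ : w ≤ 2 * i), X.J k w) ∧ ∀ k w, Odd w → X.J k w = ⊥ := by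
  have h19 := X.P19 h18 h20
  have hN1 : ∀ k w, (⨆ (t) (_ : X.kd t = k ∧ 2 * X.lv t = w), X.M t) ≤ X.J k w := by
    intro k w
    apply iSup₂_le
    rintro t ⟨h1, h2⟩
    rw [← h1, ← h2]
    exact X.M_J h18 h19 t
  have hN2 : ∀ k, (⨆ w, X.J k w) ≤ ⨆ w, ⨆ (t) (_ : X.kd t = k ∧ 2 * X.lv t = w), X.M t := by
    intro k
    rw [← X.total]
    apply iSup_le
    intro i
    refine (X.gen' k i).trans (iSup₂_le ?_)
    rintro t ⟨h1, _⟩
    refine le_iSup_of_le (2 * X.lv t) ?_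
    exact le_iSup₂_of_le
      (f := fun (t' : X.S ⊕ X.S) (_ : X.kd t' = k ∧ 2 * X.lv t' = 2 * X.lv t) => X.M t')
      t ⟨h1, rfl⟩ le_rfl
  have hN3 : ∀ k w, X.J k w ≤ ⨆ (t) (_ : X.kd t = k ∧ 2 * X.lv t = w), X.M t := fun k w =>
    indep_le3 (X.indep k) (hN1 k) (hN2 k) w
  constructor
  · intro k i
    apply le_antisymm
    · refine (X.gen' k i).trans (iSup₂_le ?_)
      rintro t ⟨h1, h2⟩
      refine (X.M_J h18 h19 t).trans ?_
      rw [h1]
      exact le_iSup₂_of_le (f := fun (w : ℕ) (_ : w ≤ 2 * i) => X.J k w) (2 * X.lv t)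
        (by omega) le_rfl
    · apply iSup₂_le
      intro w hw
      refine (hN3 k w).trans (iSup₂_le ?_)
      rintro t ⟨h1, h2⟩
      refine (X.M_P t).trans ?_
      rw [h1]
      exact X.mono k _ _ (by omega)
  · intro k w hw
    rw [← le_bot_iff]
    refine (hN3 k w).trans (iSup₂_le ?_)
    rintro t ⟨_, h2⟩
    obtain ⟨c, hc⟩ := hw
    omega

theorem J18 {k : ℕ} (h : k ≠ 17) : X.J k 18 = ⊥ := by
  rcases Nat.lt_or_ge k 17 with h1 | h1
  · exact X.low k (by omega) 18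
  · by_cases h2 : k = 18
    · subst h2
      exact X.t18 18
    · by_contra h3
      have := X.bound k 18 h3
      omega

/-- the numerical input gives the weights in degree 17 and 19 -/
theorem weights [FiniteDimensional ℂ V]
    (E : ∑ k ∈ Finset.range 31, (-1 : ℤ) ^ k * finrank ℂ (X.J k 18) = -2 ∧
      ∑ k ∈ Finset.range 31, (-1 : ℤ) ^ k * finrank ℂ (X.J k 20) = -2) :
    X.P 17 9 = X.J 17 18 ∧ finrank ℂ (X.J 19 20) = 2 := by
  obtain ⟨E1, E2⟩ := E
  have e1 : finrank ℂ (X.J 17 18) = 2 := by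
    rw [Finset.sum_eq_single_of_mem 17 (by simp)] at E1
    · norm_num at E1
      exact_mod_cast E1
    · intro k _ hk
      rw [X.J18 hk, finrank_bot, Nat.cast_zero, mul_zero]
  have e2 : X.P 17 9 = X.J 17 18 := by
    symm
    apply Submodule.eq_of_le_of_finrank_eq _ (by rw [e1, X.e17])
    rw [X.g17]
    exact X.J_le 17 18
  refine ⟨e2, ?_⟩
  have e3 : X.J 17 20 = ⊥ := by
    have h3 : X.J 17 20 ≤ X.J 17 18 := by
      rw [← e2, X.g17]
      exact X.J_le 17 20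
    exact le_bot_iff.mp (X.disj 17 (show (20 : ℕ) ≠ 18 by omega) le_rfl h3)
  rw [Finset.sum_eq_single_of_mem 19 (by simp)] at E2
  · norm_num at E2
    exact_mod_cast E2
  · intro k _ hk
    have h5 : X.J k 20 = ⊥ := by
      rcases Nat.lt_or_ge k 17 with h6 | h6
      · exact X.low k (by omega) 20
      · rcases Nat.lt_or_ge k 21 with h7 | h7
        · have h8 : k = 17 ∨ k = 18 ∨ k = 20 := by omega
          rcases h8 with rfl | rfl | rfl
          · exact e3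
          · exact X.t18 20
          · exact X.J20 e2
        · by_contra h8
          have := X.bound k 20 h8
          omega
    rw [h5, finrank_bot, Nat.cast_zero, mul_zero]

/-- the two filtrations agree -/
theorem agree [FiniteDimensional ℂ V]
    (E : ∑ k ∈ Finset.range 31, (-1 : ℤ) ^ k * finrank ℂ (X.J k 18) = -2 ∧
      ∑ k ∈ Finset.range 31, (-1 : ℤ) ^ k * finrank ℂ (X.J k 20) = -2) :
    ∀ k i, X.P k i = (⨆ (w) (_ : w ≤ 2 * i), X.J k w) ∧
      X.P k i = ⨆ (w) (_ : w ≤ 2 * i + 1), X.J k w := by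
  obtain ⟨e1, e2⟩ := X.weights E
  obtain ⟨m1, m2⟩ := X.main e1 e2
  intro k i
  refine ⟨m1 k i, ?_⟩
  rw [m1 k i]
  apply le_antisymm
  · apply iSup₂_le
    intro w hw
    exact le_iSup₂_of_le (f := fun (w : ℕ) (_ : w ≤ 2 * i + 1) => X.J k w) w (by omega) le_rfl
  · apply iSup₂_le
    intro w hw
    by_cases h : w = 2 * i + 1
    · rw [h, m2 k (2 * i + 1) ⟨i, rfl⟩]
      exact bot_le
    · exact le_iSup₂_of_le (f := fun (w : ℕ) (_ : w ≤ 2 * i) => X.J k w) w (by omega) le_rfl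

end Quad

end Vale.Agent.P275.H341
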