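import Vale.Agent.P275.H85.R3

/-!
# Twists of order `m` on `GL_{2m}`: the pieces
-/

set_option linter.style.haveILetI false
set_option linter.unusedSectionVars false

namespace Vale.Agent.P275.H341

open scoped BigOperators MatrixGroups
open Module Matrix Vale.Agent.P275.H85

/-- the inverse of the central character at a scalar -/
noncomputable def wt {F : Type} [Field F] [Fintype F] [DecidableEq F] {n : ℕ}
    (χ : GL (Fin n) F → ℂ) (z : Fˣ) : ℂ := χ (scal n z)⁻¹ / χ 1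

/-- the normalised inverse degree -/
noncomputable def hh {F : Type} [Field F] [Fintype F] [DecidableEq F] {n : ℕ}
    (χ : GL (Fin n) F → ℂ) : ℂ :=
  Fintype.card (GL (Fin n) F) / (χ 1 * (Fintype.card F : ℂ) ^ (Nat.choose n 2))

open scoped Classical in
/-- the irreducible characters stable under the twist by `κ` -/
noncomputable def stb {F : Type} [Field F] [Fintype F] [DecidableEq F] (n : ℕ) (κ : Fˣ →* ℂˣ) :
    Finset (GL (Fin n) F → ℂ) :=
  (irrSet (GL (Fin n) F)).filter fun χ => ∀ g, (twh n κ g : ℂ) * χ g = χ g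

open scoped Classical in
/-- the cuspidal irreducible characters stable under the twist by `κ` -/
noncomputable def cstb {F : Type} [Field F] [Fintype F] [DecidableEq F] (n : ℕ) (κ : Fˣ →* ℂˣ) :
    Finset (GL (Fin n) F → ℂ) :=
  (stb n κ).filter fun χ => CuspB (toCF χ)

/-- Row COMM: commutativity of parabolic induction -/
def RComm : Prop :=
  ∀ (F : Type) [Field F] [Fintype F] (f g : CF F), IsoInv f → IsoInv g → mul f g = mul g f

/-- Row NORM: a sum of `N` nonzero positive functions of norm `N` -/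
def RNorm : Prop :=
  ∀ (G : Type) [Group G] [Fintype G] (ι : Type) [Fintype ι] (P : ι → G → ℂ),
    (∀ i, Pos (P i)) → (∀ i, P i ≠ 0) → ip (∑ i, P i) (∑ i, P i) = Fintype.card ι →
    (∀ i, IsIrrChar (P i)) ∧ Function.Injective P

/-- Row SQ: the square of a cuspidal character -/
def RSq : Prop :=
  ∀ (F : Type) [Field F] [Fintype F] [DecidableEq F] (c : Cu F),
    ∃ X Y : GL (Fin (c.s + c.s)) F → ℂ, IsIrrChar X ∧ IsIrrChar Y ∧ X ≠ Y ∧
      rs (c.s + c.s) (mul c.f c.f) = X + Y ∧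
      X 1 * ((Fintype.card F : ℂ) ^ (Nat.choose (c.s + c.s) 2) *
        (((Fintype.card F : ℂ) ^ c.s - 1) * ((Fintype.card F : ℂ) ^ (2 * c.s) - 1)))
        = (Fintype.card F : ℂ) ^ c.s * Fintype.card (GL (Fin (c.s + c.s)) F) ∧
      Y 1 * ((Fintype.card F : ℂ) ^ (Nat.choose (c.s + c.s) 2) *
        (((Fintype.card F : ℂ) ^ c.s - 1) * ((Fintype.card F : ℂ) ^ (2 * c.s) - 1)))
        = Fintype.card (GL (Fin (c.s + c.s)) F)

/-- Row PAIR: the sum of the central characters of the stable irreducible characters vanishes -/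
def RPair : Prop :=
  ∀ (F : Type) [Field F] [Fintype F] [DecidableEq F] (n : ℕ), 1 ≤ n →
    ∀ (κ : Fˣ →* ℂˣ) (ζ : Fˣ), κ ≠ 1 → orderOf ζ = n → ∑ χ ∈ stb n κ, wt χ ζ = 0

/-- Row STR: structure of the stable irreducible characters of `GL_{2m}` -/
def RStr : Prop :=
  ∀ (F : Type) [Field F] [Fintype F] [DecidableEq F] (m : ℕ), 0 < m →
    ∀ (κ : Fˣ →* ℂˣ), orderOf κ = m → ∀ χ : GL (Fin (m + m)) F → ℂ, IsIrrChar χ →
    (∀ g, tw κ g * χ g = χ g) →
    (∃ (c : Cu F) (j : ℕ), j * c.s = m + m ∧ c.twist (κ ^ j) = c ∧ (orb c κ j).Nodup ∧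
        χ = rs (m + m) (prodC (orb c κ j))) ∨
    (∃ (c c' : Cu F) (j j' : ℕ), j * c.s = m ∧ j' * c'.s = m ∧ c.twist (κ ^ j) = c ∧
        c'.twist (κ ^ j') = c' ∧ (orb c κ j ++ orb c' κ j').Nodup ∧
        χ = rs (m + m) (prodC (orb c κ j ++ orb c' κ j'))) ∨
    (∃ (c : Cu F) (j : ℕ), j * c.s = m ∧ c.twist (κ ^ j) = c ∧ (orb c κ j).Nodup ∧
        ip (rs (m + m) (prodC (orb c κ j ++ orb c κ j))) χ ≠ 0)

/-- Row TWO: the stable constituents of the square of an orbit -/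
def RTwo : Prop :=
  ∀ (F : Type) [Field F] [Fintype F] [DecidableEq F] (m : ℕ), 0 < m →
    ∀ (κ : Fˣ →* ℂˣ) (c : Cu F) (j : ℕ), j * c.s = m → c.twist (κ ^ j) = c →
    (orb c κ j).Nodup →
    ∃ P Q : GL (Fin (m + m)) F → ℂ, P ∈ stb (m + m) κ ∧ Q ∈ stb (m + m) κ ∧ P ≠ Q ∧
      ip (rs (m + m) (prodC (orb c κ j ++ orb c κ j))) P = 1 ∧
      ip (rs (m + m) (prodC (orb c κ j ++ orb c κ j))) Q = 1 ∧
      (∀ χ ∈ stb (m + m) κ, ip (rs (m + m) (prodC (orb c κ j ++ orb c κ j))) χ ≠ 0 →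
        χ = P ∨ χ = Q) ∧
      hh P = (((Fintype.card F : ℂ) ^ c.s - 1) * ((Fintype.card F : ℂ) ^ (2 * c.s) - 1)) ^ j /
        (Fintype.card F : ℂ) ^ m ∧
      hh Q = (((Fintype.card F : ℂ) ^ c.s - 1) * ((Fintype.card F : ℂ) ^ (2 * c.s) - 1)) ^ j

end Vale.Agent.P275.H341
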