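import Vale.Agent.P275.H341.Sum1

/-!
# The arithmetic pieces
-/

set_option linter.style.haveILetI false
set_option linter.unusedSectionVars false

namespace Vale.Agent.P275.H341

open scoped BigOperators MatrixGroups
open Module Matrix Vale.Agent.P275.H85

/-- Row M1: sums over the characters of the units -/
def RMone : Prop :=
  ∀ (F : Type) [Field F] [Fintype F] [DecidableEq F] (n : ℕ), 0 < n → ∀ (ε : Fˣ), orderOf ε = n →
    ∀ f : ℕ → ℂ, ∑ ω : Fˣ →* ℂˣ, f (orderOf (ω ε)) * ((ω ε : ℂˣ) : ℂ)⁻¹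
      = (((Fintype.card F : ℂ) - 1) / n) *
        ∑ s ∈ n.divisors, ((ArithmeticFunction.moebius s : ℤ) : ℂ) * f s

/-- Row M2: the cuspidal characters stable under a twist of exact order -/
def RMtwo : Prop :=
  ∀ (F : Type) [Field F] [Fintype F] [DecidableEq F] (n : ℕ), 0 < n →
    ∀ (κ : Fˣ →* ℂˣ) (ε : Fˣ), orderOf κ = n → orderOf ε = n → κ (-1) = 1 →
    Acus F n κ ε = (((Fintype.card F : ℂ) - 1) / n) * ((ArithmeticFunction.moebius n : ℤ) : ℂ)

/-- Row M3: the recursion -/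
def RMthree : Prop :=
  ∀ (m : ℕ) (Q : ℂ) (a b : ℕ → ℂ), 0 < m →
    (∀ t, 2 * t ∣ m → b t = Q / (2 * t) * ((ArithmeticFunction.moebius (2 * t) : ℤ) : ℂ)) →
    (∀ s, s ∣ m → ∑ t ∈ s.divisors, ((t : ℂ) / s) * (a t - if 2 * t ∣ s then b t else 0)
      = if s = 1 then -(Q / 2) else 0) →
    ∀ s, s ∣ m → a s = if Odd s then -(Q / (2 * s)) * ((ArithmeticFunction.moebius s : ℤ) : ℂ) else 0

end Vale.Agent.P275.H341
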