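import Vale.Agent.P275.H341.Sum1

/-!
# The sum over all stable characters of `GL_{2m}`
-/

set_option linter.style.haveILetI false
set_option linter.unusedSectionVars false

namespace Vale.Agent.P275.H341

open scoped BigOperators MatrixGroups
open Module Matrix Vale.Agent.P275.H85

/-- the orbits of rank `m`, indexed by their central characters -/
structure Dat (F : Type) [Field F] [Fintype F] [DecidableEq F] (m : ℕ) (κ : Fˣ →* ℂˣ)
    (ε : Fˣ) where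
  c : (Fˣ →* ℂˣ) → Cu F
  j : (Fˣ →* ℂˣ) → ℕ
  hj : ∀ ω, 0 < j ω
  hs : ∀ ω, j ω * (c ω).s = m
  ho : ∀ ω, (c ω).s = orderOf (ω ε)
  ht : ∀ ω, (c ω).twist (κ ^ j ω) = c ω
  hnd : ∀ ω, (orb (c ω) κ (j ω)).Nodup
  hst : ∀ ω, Stab κ ω (rs m (prodC (orb (c ω) κ (j ω))))

variable {F : Type} [Field F] [Fintype F] [DecidableEq F]

theorem exists_dat {m : ℕ} (hm : 0 < m) {κ : Fˣ →* ℂˣ} (hκ : orderOf κ = m) (hneg : κ (-1) = 1)
    {ε : Fˣ} (hε : orderOf ε = m) : Nonempty (Dat F m κ ε) := by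
  have h : ∀ ω : Fˣ →* ℂˣ, ∃ (c : Cu F) (j : ℕ), 0 < j ∧ j * c.s = m ∧ c.s = orderOf (ω ε) ∧
      c.twist (κ ^ j) = c ∧ (orb c κ j).Nodup ∧ Stab κ ω (rs m (prodC (orb c κ j))) := by
    intro ω
    obtain ⟨χ, hχ, _⟩ := pkgD1 F m hm κ ω hκ
    obtain ⟨c, j, h1, h2, h3, h4, h5, h6⟩ := exists_orb_order hm hκ hneg hε hχ
    exact ⟨c, j, h1, h2, h3, h4, h5, h6 ▸ hχ⟩
  choose c j h1 h2 h3 h4 h5 h6 using h
  exact ⟨⟨c, j, h1, h2, h3, h4, h5, h6⟩⟩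

namespace Dat

variable {m : ℕ} {κ : Fˣ →* ℂˣ} {ε : Fˣ} (D : Dat F m κ ε)

/-- the list of an orbit of rank `m` -/
noncomputable def L (ω : Fˣ →* ℂˣ) : List (Cu F) := orb (D.c ω) κ (D.j ω)

theorem size_L (ω : Fˣ →* ℂˣ) : size (D.L ω) = m := by
  unfold L
  rw [size_orb, D.hs]

theorem mem_L {ω : Fˣ →* ℂˣ} {x : Cu F} : x ∈ D.L ω ↔ Rel κ (D.c ω) x :=
  mem_orb_iff (D.hj ω) (D.ht ω)

theorem self_mem (ω : Fˣ →* ℂˣ) : D.c ω ∈ D.L ω := mem_orb_self (D.hj ω)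

theorem jval (ω : Fˣ →* ℂˣ) : D.j ω = m / orderOf (ω ε) := by
  rw [← D.ho]
  exact (Nat.div_eq_of_eq_mul_left (D.c ω).pos (D.hs ω).symm).symm

theorem stab_unique {n : ℕ} {ω ω' : Fˣ →* ℂˣ} {χ : GL (Fin n) F → ℂ} (h : Stab κ ω χ)
    (h' : Stab κ ω' χ) : ω = ω' := by
  apply MonoidHom.ext
  intro a
  have h1 := h.2.2 a 1
  have h2 := h'.2.2 a 1
  rw [h1] at h2
  apply Units.ext
  exact mul_right_cancel₀ (irr_one_ne h.1) h2

theorem find (hm : 0 < m) (hκ : orderOf κ = m) {c : Cu F} {j : ℕ} (hj : 0 < j)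
    (hs : j * c.s = m) (ht : c.twist (κ ^ j) = c) (hnd : (orb c κ j).Nodup) :
    ∃ ω, Rel κ (D.c ω) c := by
  have h1 := orb_stb hj hs ht hnd
  rw [mem_stb] at h1
  obtain ⟨ω, hω⟩ := exists_cent h1.1
  refine ⟨ω, ?_⟩
  have h2 : Stab κ ω (rs m (prodC (orb c κ j))) := ⟨h1.1, h1.2, hω⟩
  have h3 := (pkgD1 F m hm κ ω hκ).unique h2 (D.hst ω)
  have h4 : pair (orb c κ j) (D.L ω) ≠ 0 := by
    have h5 := pair_nodup _ hnd _ (List.Perm.refl _)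
    unfold pair at h5 ⊢
    rw [size_orb, hs] at h5 ⊢
    unfold L
    rw [← h3, h5]
    exact one_ne_zero
  have h6 := (perm_of_pair _ _ h4).subset (mem_orb_self hj)
  exact D.mem_L.mp h6

theorem inj {ω ω' : Fˣ →* ℂˣ} (h : Rel κ (D.c ω) (D.c ω')) : ω = ω' := by
  have h1 := eq_of_perm (D.hnd ω) (orb_perm_of_rel (D.hj ω) (D.hj ω') (D.ht ω) (D.ht ω')
    (D.hnd ω) (D.hnd ω') h)
  rw [size_orb, D.hs] at h1
  have h2 := D.hst ω
  rw [h1] at h2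
  exact stab_unique h2 (D.hst ω')

theorem centF_L (ω : Fˣ →* ℂˣ) : CentF ω (prodC (D.L ω)) := by
  have h1 := centF_toCF (D.hst ω).2.2
  have h2 : toCF (rs m (prodC (D.L ω))) = prodC (D.L ω) := by
    apply toCF_rs' (inv_prodC _)
    have := supp_prodC (D.L ω)
    rwa [D.size_L] at this
  unfold L at h2 ⊢
  rwa [h2] at h1

/-- the product of two orbits -/
noncomputable def T3 (ω ω' : Fˣ →* ℂˣ) : GL (Fin (m + m)) F → ℂ :=
  rs (m + m) (prodC (D.L ω ++ D.L ω'))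

theorem size_T3 (ω ω' : Fˣ →* ℂˣ) : size (D.L ω ++ D.L ω') = m + m := by
  rw [size_append, D.size_L, D.size_L]

theorem T3_nodup {ω ω' : Fˣ →* ℂˣ} (h : ω ≠ ω') : (D.L ω ++ D.L ω').Nodup := by
  rw [List.nodup_append]
  refine ⟨D.hnd ω, D.hnd ω', ?_⟩
  intro a ha b hb hab
  subst hab
  rw [D.mem_L] at ha hb
  exact h (D.inj (ha.trans hb.symm))

theorem L_twist (ω : Fˣ →* ℂˣ) : (D.L ω).Perm ((D.L ω).map (Cu.twist κ)) :=
  orb_twist_perm (D.hj ω) (D.ht ω)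

theorem T3_stb {ω ω' : Fˣ →* ℂˣ} (h : ω ≠ ω') : D.T3 ω ω' ∈ stb (m + m) κ := by
  rw [mem_stb]
  have hnd := D.T3_nodup h
  constructor
  · have := irr_of_nodup hnd
    rwa [D.size_T3] at this
  · intro g
    have hp : (D.L ω ++ D.L ω').Perm ((D.L ω ++ D.L ω').map (Cu.twist κ)) := by
      rw [List.map_append]
      exact (D.L_twist ω).append (D.L_twist ω')
    have h1 := eq_of_perm hnd hp
    rw [D.size_T3, prodC_twist, rs_twf] at h1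
    exact (congrFun h1 g).symm

theorem T3_hh (ω ω' : Fˣ →* ℂˣ) : hh (D.T3 ω ω')
    = ((Fintype.card F : ℂ) ^ orderOf (ω ε) - 1) ^ (m / orderOf (ω ε)) *
      ((Fintype.card F : ℂ) ^ orderOf (ω' ε) - 1) ^ (m / orderOf (ω' ε)) := by
  have h1 := hh_prodC (D.L ω ++ D.L ω')
  rw [D.size_T3, List.map_append, List.prod_append] at h1
  have h2 := hh_prodC (D.L ω)
  have h3 := hh_prodC (D.L ω')
  rw [D.size_L] at h2 h3
  have h4 := hh_orb (D.c ω) κ (D.j ω) m (D.hs ω)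
  have h5 := hh_orb (D.c ω') κ (D.j ω') m (D.hs ω')
  unfold L at h2 h3
  rw [h2] at h4
  rw [h3] at h5
  unfold T3 L
  unfold L at h1
  rw [h1, h4, h5, D.ho, D.ho, D.jval, D.jval]

theorem T3_wt (ω ω' : Fˣ →* ℂˣ) (z : Fˣ) :
    wt (D.T3 ω ω') z = ((ω z : ℂˣ) : ℂ)⁻¹ * ((ω' z : ℂˣ) : ℂ)⁻¹ := by
  have h0 : rs (m + m) (prodC (D.L ω ++ D.L ω')) 1 ≠ 0 := by
    have := prodC_one_ne (D.L ω ++ D.L ω')
    rwa [D.size_T3] at this
  have h1 : CentF (ω * ω') (prodC (D.L ω ++ D.L ω')) := by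
    rw [prodC_append]
    exact centF_mul (D.centF_L ω) (D.centF_L ω')
  unfold T3
  rw [wt_rs h0 h1, MonoidHom.mul_apply, Units.val_mul, mul_inv]

theorem T3_symm {ω ω' : Fˣ →* ℂˣ} (h : ω ≠ ω') : D.T3 ω ω' = D.T3 ω' ω := by
  have h1 := eq_of_perm (D.T3_nodup h) List.perm_append_comm
  rw [D.size_T3] at h1
  exact h1

theorem perm_inj {ω ω' θ θ' : Fˣ →* ℂˣ} (h : (D.L ω ++ D.L ω').Perm (D.L θ ++ D.L θ')) :
    (ω = θ ∧ ω' = θ') ∨ (ω = θ' ∧ ω' = θ) := by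
  have h1 : D.c ω ∈ D.L θ ++ D.L θ' := h.subset (List.mem_append_left _ (D.self_mem ω))
  rcases List.mem_append.mp h1 with h2 | h2
  · have h3 := D.inj (D.mem_L.mp h2)
    left
    subst h3
    have h4 := (List.perm_append_left_iff _).mp h
    have h5 : D.c ω' ∈ D.L θ' := h4.subset (D.self_mem ω')
    exact ⟨rfl, (D.inj (D.mem_L.mp h5)).symm⟩
  · have h3 := D.inj (D.mem_L.mp h2)
    right
    subst h3
    have h4 := (List.perm_append_left_iff _).mp (h.trans List.perm_append_comm)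
    have h5 : D.c ω' ∈ D.L θ := h4.subset (D.self_mem ω')
    exact ⟨rfl, (D.inj (D.mem_L.mp h5)).symm⟩

theorem T3_inj {ω ω' θ θ' : Fˣ →* ℂˣ} (h : ω ≠ ω') (heq : D.T3 ω ω' = D.T3 θ θ') :
    (ω = θ ∧ ω' = θ') ∨ (ω = θ' ∧ ω' = θ) := by
  apply D.perm_inj
  apply perm_of_pair
  have h5 := pair_nodup _ (D.T3_nodup h) _ (List.Perm.refl _)
  unfold pair at h5 ⊢
  rw [D.size_T3] at h5 ⊢
  unfold T3 at heq
  rw [← heq, h5]
  exact one_ne_zero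

open scoped Classical in
/-- sum over the products of two different orbits -/
theorem sum_T3 (G : (GL (Fin (m + m)) F → ℂ) → ℂ) :
    ∑ p ∈ (Finset.univ : Finset (Fˣ →* ℂˣ)).offDiag, G (D.T3 p.1 p.2)
      = 2 * ∑ χ ∈ (Finset.univ : Finset (Fˣ →* ℂˣ)).offDiag.image (fun p => D.T3 p.1 p.2),
        G χ := by
  rw [← Finset.sum_fiberwise_of_maps_to (s := (Finset.univ : Finset (Fˣ →* ℂˣ)).offDiag)
    (t := (Finset.univ : Finset (Fˣ →* ℂˣ)).offDiag.image (fun p => D.T3 p.1 p.2))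
    (g := fun p => D.T3 p.1 p.2) (fun c hc => Finset.mem_image_of_mem _ hc), Finset.mul_sum]
  apply Finset.sum_congr rfl
  intro χ hχ
  obtain ⟨⟨ω, ω'⟩, hp, rfl⟩ := Finset.mem_image.mp hχ
  rw [Finset.mem_offDiag] at hp
  have hne : ω ≠ ω' := hp.2.2
  have e1 : ((Finset.univ : Finset (Fˣ →* ℂˣ)).offDiag).filter
      (fun p => D.T3 p.1 p.2 = D.T3 ω ω') = {(ω, ω'), (ω', ω)} := by
    ext ⟨a, b⟩
    rw [Finset.mem_filter, Finset.mem_offDiag, Finset.mem_insert, Finset.mem_singleton,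
      Prod.mk.injEq, Prod.mk.injEq]
    constructor
    · rintro ⟨⟨_, _, h1⟩, h2⟩
      exact D.T3_inj h1 h2
    · rintro (⟨rfl, rfl⟩ | ⟨rfl, rfl⟩)
      · exact ⟨⟨Finset.mem_univ _, Finset.mem_univ _, hne⟩, rfl⟩
      · exact ⟨⟨Finset.mem_univ _, Finset.mem_univ _, Ne.symm hne⟩, (D.T3_symm hne).symm⟩
  have e2 : ∀ p ∈ ((Finset.univ : Finset (Fˣ →* ℂˣ)).offDiag).filter
      (fun p => D.T3 p.1 p.2 = D.T3 ω ω'), G (D.T3 p.1 p.2) = G (D.T3 ω ω') := by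
    intro p hp2
    rw [(Finset.mem_filter.mp hp2).2]
  show ∑ p ∈ ((Finset.univ : Finset (Fˣ →* ℂˣ)).offDiag).filter
      (fun p => D.T3 p.1 p.2 = D.T3 ω ω'), G (D.T3 p.1 p.2) = 2 * G (D.T3 ω ω')
  rw [Finset.sum_congr rfl e2, Finset.sum_const, e1, Finset.card_pair, nsmul_eq_mul]
  · norm_num
  · intro h
    exact hne (congrArg Prod.fst h)

end Dat

end Vale.Agent.P275.H341
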