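import Vale.Agent.P275.H341.Sum2

/-!
# The decomposition of the set of stable characters of `GL_{2m}`
-/

set_option linter.style.haveILetI false
set_option linter.unusedSectionVars false

namespace Vale.Agent.P275.H341

open scoped BigOperators MatrixGroups
open Module Matrix Vale.Agent.P275.H85

variable {F : Type} [Field F] [Fintype F] [DecidableEq F]

theorem cent_of_ip {n : ℕ} {f χ : GL (Fin n) F → ℂ} {ω ω' : Fˣ →* ℂˣ}
    (hf : ∀ c g, f (scal n c * g) = (ω c : ℂ) * f g)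
    (hχ : ∀ c g, χ (scal n c * g) = (ω' c : ℂ) * χ g) (h : ip f χ ≠ 0) : ω = ω' := by
  apply MonoidHom.ext
  intro c
  have key : ip f χ = ((ω c : ℂ) * ((ω' c⁻¹ : ℂˣ) : ℂ)) * ip f χ := by
    have h1 : ∑ x, f x * χ x⁻¹ = ∑ x, ((ω c : ℂ) * ((ω' c⁻¹ : ℂˣ) : ℂ)) * (f x * χ x⁻¹) := by
      rw [← Equiv.sum_comp (Equiv.mulLeft (scal n c)) (fun x => f x * χ x⁻¹)]
      apply Finset.sum_congr rfl
      intro x _
      rw [Equiv.coe_mulLeft, _root_.mul_inv_rev, scal_inv, ← scal_comm c⁻¹ x⁻¹, hf, hχ]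
      ring
    rw [← Finset.mul_sum] at h1
    unfold ip
    rw [mul_left_comm, ← h1]
  have h2 : ((ω c : ℂ) * ((ω' c⁻¹ : ℂˣ) : ℂ)) = 1 := by
    have h3 : (((ω c : ℂ) * ((ω' c⁻¹ : ℂˣ) : ℂ)) - 1) * ip f χ = 0 := by
      rw [sub_mul, one_mul, ← key, sub_self]
    exact sub_eq_zero.mp ((mul_eq_zero.mp h3).resolve_right h)
  rw [map_inv] at h2
  have h4 : ω c * (ω' c)⁻¹ = 1 := by
    apply Units.ext
    rw [Units.val_mul, h2, Units.val_one]
  exact mul_inv_eq_one.mp h4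

theorem full_orbit {m : ℕ} {κ : Fˣ →* ℂˣ} (hκ : orderOf κ = m) {c : Cu F}
    {j : ℕ} (hj : 0 < j) (hs : j * c.s = m + m) (ht : c.twist (κ ^ j) = c)
    (hnd : (orb c κ j).Nodup) : ∃ s, s ∣ m ∧ 0 < s ∧ c.s = 2 * s ∧ j = m / s := by
  have h1 : c.twist (κ ^ m) = c := by
    have : κ ^ m = 1 := by rw [← hκ]; exact pow_orderOf_eq_one κ
    rw [this, Cu.twist_one]
  have h2 : c.twist (κ ^ (m % j)) = c := by
    rw [← Nat.div_add_mod m j, ← twist_add, twist_mul_per ht (m / j)] at h1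
    exact h1
  have h3 : m % j = 0 := by
    have h4 : c.twist (κ ^ (m % j)) = c.twist (κ ^ 0) := by rw [h2, hpow_zero, Cu.twist_one]
    unfold orb at hnd
    exact (List.nodup_map_iff_inj_on List.nodup_range).mp hnd _
      (List.mem_range.mpr (Nat.mod_lt _ hj)) 0 (List.mem_range.mpr hj) h4
  obtain ⟨s, hs'⟩ := Nat.dvd_of_mod_eq_zero h3
  have hspos : 0 < s := by
    have := c.pos
    rcases Nat.eq_zero_or_pos s with h | h
    · subst h
      have h5 := Nat.mul_pos hj this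
      omega
    · exact h
  refine ⟨s, ⟨j, by rw [hs', mul_comm]⟩, hspos, ?_, ?_⟩
  · apply Nat.eq_of_mul_eq_mul_left hj
    rw [hs, hs']
    ring
  · rw [hs', Nat.mul_div_cancel _ hspos]

namespace Dat

variable {m : ℕ} {κ : Fˣ →* ℂˣ} {ε : Fˣ} (D : Dat F m κ ε)

/-- the product of an orbit with itself -/
noncomputable def T2 (ω : Fˣ →* ℂˣ) : GL (Fin (m + m)) F → ℂ :=
  rs (m + m) (prodC (D.L ω ++ D.L ω))

theorem pos_T (ω ω' : Fˣ →* ℂˣ) : Pos (rs (m + m) (prodC (D.L ω ++ D.L ω'))) := by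
  have := pos_prodC (D.L ω ++ D.L ω')
  rwa [D.size_T3] at this

theorem not_nodup (ω : Fˣ →* ℂˣ) : ¬ (D.L ω ++ D.L ω).Nodup := by
  intro h
  rw [List.nodup_append] at h
  exact h.2.2 _ (D.self_mem ω) _ (D.self_mem ω) rfl

theorem wt_T2 {ω : Fˣ →* ℂˣ} {χ : GL (Fin (m + m)) F → ℂ} (hχ : IsIrrChar χ)
    (h : ip (D.T2 ω) χ ≠ 0) (z : Fˣ) : wt χ z = ((ω z : ℂˣ) : ℂ)⁻¹ * ((ω z : ℂˣ) : ℂ)⁻¹ := by
  have h1 : CentF (ω * ω) (prodC (D.L ω ++ D.L ω)) := by
    rw [prodC_append]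
    exact centF_mul (D.centF_L ω) (D.centF_L ω)
  obtain ⟨ω', h2, h3⟩ := wt_irr hχ
  have h4 := cent_of_ip (fun c g => cent_rs h1 c g) h2 h
  rw [h3, ← h4, MonoidHom.mul_apply, Units.val_mul, mul_inv]

/-- the stable constituents of the squares -/
structure Two (D : Dat F m κ ε) where
  P : (Fˣ →* ℂˣ) → GL (Fin (m + m)) F → ℂ
  Q : (Fˣ →* ℂˣ) → GL (Fin (m + m)) F → ℂ
  hP : ∀ ω, P ω ∈ stb (m + m) κ
  hQ : ∀ ω, Q ω ∈ stb (m + m) κ
  hne : ∀ ω, P ω ≠ Q ω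
  iP : ∀ ω, ip (D.T2 ω) (P ω) = 1
  iQ : ∀ ω, ip (D.T2 ω) (Q ω) = 1
  only : ∀ ω, ∀ χ ∈ stb (m + m) κ, ip (D.T2 ω) χ ≠ 0 → χ = P ω ∨ χ = Q ω
  dP : ∀ ω, hh (P ω) = (((Fintype.card F : ℂ) ^ orderOf (ω ε) - 1) *
    ((Fintype.card F : ℂ) ^ (2 * orderOf (ω ε)) - 1)) ^ (m / orderOf (ω ε)) /
        (Fintype.card F : ℂ) ^ m
  dQ : ∀ ω, hh (Q ω) = (((Fintype.card F : ℂ) ^ orderOf (ω ε) - 1) *
    ((Fintype.card F : ℂ) ^ (2 * orderOf (ω ε)) - 1)) ^ (m / orderOf (ω ε))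

theorem exists_two (hTwo : RTwo) (hm : 0 < m) : Nonempty (Two D) := by
  have h : ∀ ω, ∃ P Q : GL (Fin (m + m)) F → ℂ, P ∈ stb (m + m) κ ∧ Q ∈ stb (m + m) κ ∧ P ≠ Q ∧
      ip (D.T2 ω) P = 1 ∧ ip (D.T2 ω) Q = 1 ∧
      (∀ χ ∈ stb (m + m) κ, ip (D.T2 ω) χ ≠ 0 → χ = P ∨ χ = Q) ∧
      hh P = (((Fintype.card F : ℂ) ^ orderOf (ω ε) - 1) *
        ((Fintype.card F : ℂ) ^ (2 * orderOf (ω ε)) - 1)) ^ (m / orderOf (ω ε)) /
        (Fintype.card F : ℂ) ^ m ∧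
      hh Q = (((Fintype.card F : ℂ) ^ orderOf (ω ε) - 1) *
        ((Fintype.card F : ℂ) ^ (2 * orderOf (ω ε)) - 1)) ^ (m / orderOf (ω ε)) := by
    intro ω
    obtain ⟨P, Q, h1, h2, h3, h4, h5, h6, h7, h8⟩ :=
      hTwo F m hm κ (D.c ω) (D.j ω) (D.hs ω) (D.ht ω) (D.hnd ω)
    rw [D.ho] at h7 h8
    rw [D.jval] at h7 h8
    exact ⟨P, Q, h1, h2, h3, h4, h5, h6, h7, h8⟩
  choose P Q h1 h2 h3 h4 h5 h6 h7 h8 using h
  exact ⟨⟨P, Q, h1, h2, h3, h4, h5, h6, h7, h8⟩⟩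

variable {D}

open scoped Classical in
/-- the decomposition -/
theorem decomp (hStr : RStr) (T : Two D) (hm : 0 < m) (hκ : orderOf κ = m) :
    stb (m + m) κ = (m.divisors.biUnion fun s => (Es F (2 * s) κ (m / s)).image (chO κ (m / s))) ∪
      ((Finset.univ : Finset (Fˣ →* ℂˣ)).biUnion fun ω => {T.P ω, T.Q ω}) ∪
      (Finset.univ : Finset (Fˣ →* ℂˣ)).offDiag.image (fun p => D.T3 p.1 p.2) := by
  ext χ
  rw [Finset.mem_union, Finset.mem_union, Finset.mem_biUnion, Finset.mem_biUnion,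
    Finset.mem_image]
  constructor
  · intro hχ
    have hχ' := mem_stb.mp hχ
    rcases hStr F m hm κ hκ χ hχ'.1 hχ'.2 with ⟨c, j, h1, h2, h3, h4⟩ |
      ⟨c, c', j, j', h1, h1', h2, h2', h3, h4⟩ | ⟨c, j, h1, h2, h3, h4⟩
    · left; left
      have hj : 0 < j := Nat.pos_of_ne_zero (by rintro rfl; omega)
      obtain ⟨s, hs, hspos, hcs, hjs⟩ := full_orbit hκ hj h1 h2 h3
      refine ⟨s, Nat.mem_divisors.mpr ⟨hs, hm.ne'⟩, ?_⟩
      rw [Finset.mem_image]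
      refine ⟨c, ?_, ?_⟩
      · rw [mem_Es, ← hjs]
        exact ⟨hcs, h2, h3⟩
      · rw [← hjs, h4]
        rfl
    · right
      have hj : 0 < j := Nat.pos_of_ne_zero (by rintro rfl; omega)
      have hj' : 0 < j' := Nat.pos_of_ne_zero (by rintro rfl; omega)
      rw [List.nodup_append] at h3
      obtain ⟨ω, hω⟩ := D.find hm hκ hj h1 h2 h3.1
      obtain ⟨ω', hω'⟩ := D.find hm hκ hj' h1' h2' h3.2.1
      have hne : ω ≠ ω' := by
        rintro rfl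
        have h5 : Rel κ c c' := hω.symm.trans hω'
        exact h3.2.2 c (mem_orb_self hj) c ((mem_orb_iff hj' h2').mpr h5.symm) rfl
      have p1 := orb_perm_of_rel (D.hj ω) hj (D.ht ω) h2 (D.hnd ω) h3.1 hω
      have p2 := orb_perm_of_rel (D.hj ω') hj' (D.ht ω') h2' (D.hnd ω') h3.2.1 hω'
      refine ⟨(ω, ω'), ?_, ?_⟩
      · rw [Finset.mem_offDiag]
        exact ⟨Finset.mem_univ _, Finset.mem_univ _, hne⟩
      · rw [h4]
        have h6 := eq_of_perm (D.T3_nodup hne) (p1.append p2)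
        rw [D.size_T3] at h6
        exact h6
    · left; right
      have hj : 0 < j := Nat.pos_of_ne_zero (by rintro rfl; omega)
      obtain ⟨ω, hω⟩ := D.find hm hκ hj h1 h2 h3
      refine ⟨ω, Finset.mem_univ _, ?_⟩
      rw [Finset.mem_insert, Finset.mem_singleton]
      apply T.only ω χ hχ
      have p1 := orb_perm_of_rel (D.hj ω) hj (D.ht ω) h2 (D.hnd ω) h3 hω
      have e1 : prodC (D.L ω) = prodC (orb c κ j) := by
        have h6 := eq_of_perm (D.hnd ω) p1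
        rw [size_orb, D.hs] at h6
        have e2 : toCF (rs m (prodC (D.L ω))) = prodC (D.L ω) := by
          apply toCF_rs' (inv_prodC _)
          have := supp_prodC (D.L ω)
          rwa [D.size_L] at this
        have e3 : toCF (rs m (prodC (orb c κ j))) = prodC (orb c κ j) := by
          apply toCF_rs' (inv_prodC _)
          have := supp_prodC (orb c κ j)
          rwa [size_orb, h1] at this
        rw [← e2, ← e3]
        exact congrArg toCF h6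
      unfold T2
      rw [prodC_append, e1, ← prodC_append]
      exact h4
  · rintro ((⟨s, hs, h⟩ | ⟨ω, _, h⟩) | ⟨⟨ω, ω'⟩, hp, rfl⟩)
    · rw [Finset.mem_image] at h
      obtain ⟨c, hc, rfl⟩ := h
      rw [mem_Es] at hc
      have hs' := (Nat.mem_divisors.mp hs).1
      have hspos : 0 < s := Nat.pos_of_dvd_of_pos hs' hm
      exact orb_stb (Nat.div_pos (Nat.le_of_dvd hm hs') hspos) (by
        rw [hc.1]
        have := Nat.div_mul_cancel hs'
        calc m / s * (2 * s) = 2 * (m / s * s) := by ring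
          _ = m + m := by rw [this]; ring) hc.2.1 hc.2.2
    · rw [Finset.mem_insert, Finset.mem_singleton] at h
      rcases h with rfl | rfl
      · exact T.hP ω
      · exact T.hQ ω
    · rw [Finset.mem_offDiag] at hp
      exact D.T3_stb hp.2.2

end Dat

end Vale.Agent.P275.H341
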