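import Vale.Agent.P275.H341.Sum3
import Vale.Agent.P275.H341.Rows2

/-!
# The sum over the stable characters of `GL_{2m}`
-/

set_option linter.style.haveILetI false
set_option linter.unusedSectionVars false

namespace Vale.Agent.P275.H341

open scoped BigOperators MatrixGroups
open Module Matrix Vale.Agent.P275.H85

variable {F : Type} [Field F] [Fintype F] [DecidableEq F]

/-- a character of the units with value `-1` at an element of even order -/
theorem exists_sign {ζ : Fˣ} {m : ℕ} (hm : 0 < m) (hζ : orderOf ζ = m + m) :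
    ∃ η : Fˣ →* ℂˣ, ((η ζ : ℂˣ) : ℂ) = -1 := by
  have h1 : ζ ^ m ≠ 1 := by
    intro h
    have := orderOf_dvd_of_pow_eq_one h
    rw [hζ] at this
    have := Nat.le_of_dvd hm this
    omega
  obtain ⟨η, hη⟩ := CommGroup.exists_apply_ne_one_of_hasEnoughRootsOfUnity Fˣ ℂ h1
  refine ⟨η ^ m, ?_⟩
  have h2 : (η (ζ ^ m)) ^ 2 = 1 := by
    rw [← map_pow, ← pow_mul, mul_two, ← hζ, pow_orderOf_eq_one, map_one]
  have h3 : ((η (ζ ^ m) : ℂˣ) : ℂ) = 1 ∨ ((η (ζ ^ m) : ℂˣ) : ℂ) = -1 := by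
    rw [← sq_eq_one_iff, ← Units.val_pow_eq_pow_val, h2, Units.val_one]
  rcases h3 with h3 | h3
  · exact absurd (Units.ext h3) hη
  · rw [MonoidHom.pow_apply, ← map_pow, h3]

/-- the sum over the central characters vanishes -/
theorem sum_vanish {ζ : Fˣ} {m : ℕ} (hm : 0 < m) (hζ : orderOf ζ = m + m) (K : ℕ → ℂ) :
    ∑ ω : Fˣ →* ℂˣ, K (orderOf (ω (ζ ^ 2))) * ((ω ζ : ℂˣ) : ℂ)⁻¹ = 0 := by
  obtain ⟨η, hη⟩ := exists_sign hm hζ
  have h1 : ∑ ω : Fˣ →* ℂˣ, K (orderOf (ω (ζ ^ 2))) * ((ω ζ : ℂˣ) : ℂ)⁻¹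
      = ∑ ω : Fˣ →* ℂˣ, -(K (orderOf (ω (ζ ^ 2))) * ((ω ζ : ℂˣ) : ℂ)⁻¹) := by
    rw [← Equiv.sum_comp (Equiv.mulLeft η)]
    apply Finset.sum_congr rfl
    intro ω _
    have h2 : (η * ω) (ζ ^ 2) = ω (ζ ^ 2) := by
      rw [MonoidHom.mul_apply, map_pow η]
      have : η ζ ^ 2 = 1 := by
        apply Units.ext
        rw [Units.val_pow_eq_pow_val, hη, Units.val_one]
        norm_num
      rw [this, one_mul]
    rw [Equiv.coe_mulLeft, h2, MonoidHom.mul_apply, Units.val_mul, hη]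
    rw [neg_one_mul, inv_neg]
    ring
  rw [Finset.sum_neg_distrib] at h1
  have h3 : (2 : ℂ) * ∑ ω : Fˣ →* ℂˣ, K (orderOf (ω (ζ ^ 2))) * ((ω ζ : ℂˣ) : ℂ)⁻¹ = 0 := by
    linear_combination h1
  exact (mul_eq_zero.mp h3).resolve_left (by norm_num)

variable {m : ℕ} {κ : Fˣ →* ℂˣ} {ζ : Fˣ} {D : Dat F m κ (ζ ^ 2)}

open scoped Classical in
theorem sum_split (hStr : RStr) (T : D.Two) (hm : 0 < m) (hκ : orderOf κ = m)
    (hneg : κ (-1) = 1) (hζ : orderOf ζ = m + m) (Ψ : ℂ → ℂ) :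
    ∑ χ ∈ stb (m + m) κ, Ψ (hh χ) * wt χ ζ =
      ∑ s ∈ m.divisors, ((s : ℂ) / m) * (Ψ (((Fintype.card F : ℂ) ^ (2 * s) - 1) ^ (m / s)) *
        ∑ c ∈ Es F (2 * s) κ (m / s), wt c.χ (ζ ^ (m / s))) +
      ∑ ω : Fˣ →* ℂˣ, (Ψ (hh (T.P ω)) + Ψ (hh (T.Q ω))) *
        (((ω ζ : ℂˣ) : ℂ)⁻¹ * ((ω ζ : ℂˣ) : ℂ)⁻¹) +
      (1 / 2) * ∑ p ∈ (Finset.univ : Finset (Fˣ →* ℂˣ)).offDiag,
        Ψ (hh (D.T3 p.1 p.2)) * (((p.1 ζ : ℂˣ) : ℂ)⁻¹ * ((p.2 ζ : ℂˣ) : ℂ)⁻¹) := by
  have hζn : ζ ^ (m + m) = 1 := by rw [← hζ]; exact pow_orderOf_eq_one ζ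
  -- facts about members of the pieces
  have hdata : ∀ s ∈ m.divisors, ∀ c ∈ Es F (2 * s) κ (m / s), 0 < m / s ∧
      m / s * c.s = m + m ∧ c.twist (κ ^ (m / s)) = c ∧ (orb c κ (m / s)).Nodup ∧ c.s = 2 * s := by
    intro s hs c hc
    rw [mem_Es] at hc
    have hs' := (Nat.mem_divisors.mp hs).1
    have hspos : 0 < s := Nat.pos_of_dvd_of_pos hs' hm
    refine ⟨Nat.div_pos (Nat.le_of_dvd hm hs') hspos, ?_, hc.2.1, hc.2.2, hc.1⟩
    rw [hc.1]
    have := Nat.div_mul_cancel hs'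
    calc m / s * (2 * s) = 2 * (m / s * s) := by ring
      _ = m + m := by rw [this]; ring
  have hpair1 : ∀ s ∈ m.divisors, ∀ c ∈ Es F (2 * s) κ (m / s), ∀ ω ω' : Fˣ →* ℂˣ,
      ip (rs (m + m) (prodC (D.L ω ++ D.L ω'))) (chO κ (m / s) c) ≠ 0 →
      (D.L ω ++ D.L ω').Perm (orb c κ (m / s)) := by
    intro s hs c hc ω ω' h
    apply perm_of_pair
    unfold pair
    rw [D.size_T3]
    exact h
  have hirr : ∀ s ∈ m.divisors, ∀ c ∈ Es F (2 * s) κ (m / s),
      IsIrrChar (chO (m := m) κ (m / s) c) := by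
    intro s hs c hc
    obtain ⟨h1, h2, h3, h4, _⟩ := hdata s hs c hc
    exact (mem_stb.mp (orb_stb h1 h2 h3 h4)).1
  rw [Dat.decomp hStr T hm hκ, Finset.sum_union, Finset.sum_union]
  · congr 1
    · congr 1
      · rw [Finset.sum_biUnion]
        · apply Finset.sum_congr rfl
          intro s hs
          have hs' := (Nat.mem_divisors.mp hs).1
          have hspos : 0 < s := Nat.pos_of_dvd_of_pos hs' hm
          have h1 := sum_image_Es (F := F) hm hs' (κ := κ) (fun χ => Ψ (hh χ) * wt χ ζ)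
          have h2 : ((m / s : ℕ) : ℂ) = (m : ℂ) / s := by
            rw [Nat.cast_div hs' (by exact_mod_cast hspos.ne')]
          have hm0 : (m : ℂ) ≠ 0 := by exact_mod_cast hm.ne'
          have hs0 : (s : ℂ) ≠ 0 := by exact_mod_cast hspos.ne'
          have h3 : ∑ c ∈ Es F (2 * s) κ (m / s), Ψ (hh (chO (m := m) κ (m / s) c)) *
              wt (chO (m := m) κ (m / s) c) ζ
              = Ψ (((Fintype.card F : ℂ) ^ (2 * s) - 1) ^ (m / s)) *
                ∑ c ∈ Es F (2 * s) κ (m / s), wt c.χ (ζ ^ (m / s)) := by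
            rw [Finset.mul_sum]
            apply Finset.sum_congr rfl
            intro c hc
            obtain ⟨_, e2, _, _, e5⟩ := hdata s hs c hc
            have e6 : ((Fintype.card F : ℂ) ^ c.s - 1) = (Fintype.card F : ℂ) ^ (2 * s) - 1 := by
              rw [e5]
            unfold chO
            rw [hh_orb c κ _ _ e2, wt_orb e2 hneg hζn, e6]
          rw [h3, h2] at h1
          rw [h1]
          field_simp
        · intro s hs s' hs' hne
          show Disjoint _ _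
          rw [Finset.disjoint_left]
          intro χ h1 h2
          obtain ⟨c, hc, rfl⟩ := Finset.mem_image.mp h1
          obtain ⟨c', hc', heq⟩ := Finset.mem_image.mp h2
          obtain ⟨a1, a2, a3, a4, a5⟩ := hdata s hs c hc
          obtain ⟨b1, b2, b3, b4, b5⟩ := hdata s' hs' c' hc'
          have h3 := (chO_eq_iff b1 a1 b2 a2 b3 a3 b4 a4).mp heq
          have h4 := h3.s_eq
          rw [a5, b5] at h4
          apply hne
          omega
      · rw [Finset.sum_biUnion]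
        · apply Finset.sum_congr rfl
          intro ω _
          rw [Finset.sum_pair (T.hne ω), D.wt_T2 (mem_stb.mp (T.hP ω)).1 (by rw [T.iP]; exact one_ne_zero),
            D.wt_T2 (mem_stb.mp (T.hQ ω)).1 (by rw [T.iQ]; exact one_ne_zero)]
          ring
        · intro ω _ ω' _ hne
          show Disjoint _ _
          rw [Finset.disjoint_left]
          intro χ h1 h2
          rw [Finset.mem_insert, Finset.mem_singleton] at h1 h2
          have h3 : IsIrrChar χ ∧ ip (D.T2 ω) χ ≠ 0 := by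
            rcases h1 with rfl | rfl
            · exact ⟨(mem_stb.mp (T.hP ω)).1, by rw [T.iP]; exact one_ne_zero⟩
            · exact ⟨(mem_stb.mp (T.hQ ω)).1, by rw [T.iQ]; exact one_ne_zero⟩
          have h4 : ip (D.T2 ω') χ ≠ 0 := by
            rcases h2 with h2 | h2
            · rw [h2, T.iP]; exact one_ne_zero
            · rw [h2, T.iQ]; exact one_ne_zero
          have h5 := pos_common (D.pos_T ω ω) (D.pos_T ω' ω') h3.1 h3.2 h4
          have h6 : (D.L ω ++ D.L ω).Perm (D.L ω' ++ D.L ω') := by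
            apply perm_of_pair
            unfold pair
            rw [D.size_T3]
            exact h5
          rcases D.perm_inj h6 with h7 | h7
          · exact hne h7.1
          · exact hne h7.1
    · have h1 := D.sum_T3 (fun χ => Ψ (hh χ) * wt χ ζ)
      have h2 : ∑ p ∈ (Finset.univ : Finset (Fˣ →* ℂˣ)).offDiag,
          Ψ (hh (D.T3 p.1 p.2)) * (((p.1 ζ : ℂˣ) : ℂ)⁻¹ * ((p.2 ζ : ℂˣ) : ℂ)⁻¹)
          = ∑ p ∈ (Finset.univ : Finset (Fˣ →* ℂˣ)).offDiag,
            Ψ (hh (D.T3 p.1 p.2)) * wt (D.T3 p.1 p.2) ζ := by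
        apply Finset.sum_congr rfl
        intro p _
        rw [D.T3_wt]
      rw [h2, h1]
      ring
  · rw [Finset.disjoint_left]
    intro χ h1 h2
    obtain ⟨s, hs, h1⟩ := Finset.mem_biUnion.mp h1
    obtain ⟨c, hc, rfl⟩ := Finset.mem_image.mp h1
    obtain ⟨a1, a2, a3, a4, a5⟩ := hdata s hs c hc
    obtain ⟨ω, _, h2⟩ := Finset.mem_biUnion.mp h2
    rw [Finset.mem_insert, Finset.mem_singleton] at h2
    have h4 : ip (D.T2 ω) (chO (m := m) κ (m / s) c) ≠ 0 := by
      rcases h2 with h2 | h2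
      · rw [h2, T.iP]; exact one_ne_zero
      · rw [h2, T.iQ]; exact one_ne_zero
    have h5 := hpair1 s hs c hc ω ω h4
    exact D.not_nodup ω (h5.nodup_iff.mpr a4)
  · rw [Finset.disjoint_left]
    intro χ h1 h2
    obtain ⟨⟨ω, ω'⟩, hp, rfl⟩ := Finset.mem_image.mp h2
    rw [Finset.mem_offDiag] at hp
    have hne : ω ≠ ω' := hp.2.2
    have hI := (mem_stb.mp (D.T3_stb hne)).1
    rcases Finset.mem_union.mp h1 with h1 | h1
    · obtain ⟨s, hs, h1⟩ := Finset.mem_biUnion.mp h1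
      obtain ⟨c, hc, heq⟩ := Finset.mem_image.mp h1
      obtain ⟨a1, a2, a3, a4, a5⟩ := hdata s hs c hc
      have h3 : ip (rs (m + m) (prodC (D.L ω ++ D.L ω'))) (chO (m := m) κ (m / s) c) ≠ 0 := by
        rw [heq]
        show ip (D.T3 ω ω') (D.T3 ω ω') ≠ 0
        rw [ip_irr hI hI, if_pos rfl]
        exact one_ne_zero
      have h4 := hpair1 s hs c hc ω ω' h3
      have h5 : D.c ω ∈ orb c κ (m / s) := h4.subset (List.mem_append_left _ (D.self_mem ω))
      have h6 : D.c ω' ∈ orb c κ (m / s) := h4.subset (List.mem_append_right _ (D.self_mem ω'))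
      rw [mem_orb_iff a1 a3] at h5 h6
      have h7 : Rel κ c (D.c ω) := h5
      exact hne (D.inj (h7.symm.trans h6))
    · obtain ⟨θ, _, h1⟩ := Finset.mem_biUnion.mp h1
      rw [Finset.mem_insert, Finset.mem_singleton] at h1
      have h4 : ip (D.T2 θ) (D.T3 ω ω') ≠ 0 := by
        rcases h1 with h1 | h1
        · have h1' : D.T3 ω ω' = T.P θ := h1
          rw [h1', T.iP]; exact one_ne_zero
        · have h1' : D.T3 ω ω' = T.Q θ := h1
          rw [h1', T.iQ]; exact one_ne_zero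
      have h6 : (D.L θ ++ D.L θ).Perm (D.L ω ++ D.L ω') := by
        apply perm_of_pair
        unfold pair
        rw [D.size_T3]
        exact h4
      exact D.not_nodup θ (h6.nodup_iff.mpr (D.T3_nodup hne))

end Vale.Agent.P275.H341
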