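import Vale.Agent.P275.H341.Sum4

/-!
# The sum formula
-/

set_option linter.style.haveILetI false
set_option linter.unusedSectionVars false

namespace Vale.Agent.P275.H341

open scoped BigOperators MatrixGroups
open Module Matrix Vale.Agent.P275.H85

variable {F : Type} [Field F] [Fintype F] [DecidableEq F]

open scoped Classical in
theorem sum_offDiag' {α : Type} [Fintype α] (g : α × α → ℂ) :
    ∑ p ∈ (Finset.univ : Finset α).offDiag, g p = ∑ a, ∑ b, g (a, b) - ∑ a, g (a, a) := by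
  have h1 : ∑ a, ∑ b, g (a, b) = ∑ p ∈ (Finset.univ : Finset α) ×ˢ (Finset.univ : Finset α), g p := by
    rw [Finset.sum_product]
  rw [h1, ← Finset.diag_union_offDiag, Finset.sum_union (Finset.disjoint_diag_offDiag _),
    Finset.sum_diag]
  ring

/-- the polynomial of the squares -/
noncomputable def xx (q : ℂ) (m s : ℕ) : ℂ := ((q ^ s - 1) * (q ^ (2 * s) - 1)) ^ (m / s)

/-- the polynomial of the orbits -/
noncomputable def yy (q : ℂ) (m s : ℕ) : ℂ := (q ^ s - 1) ^ (m / s)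

open scoped Classical in
theorem sum_formula (hStr : RStr) (hTwo : RTwo) (hM : RMone) {m : ℕ} {κ : Fˣ →* ℂˣ} {ζ : Fˣ}
    (hm : 0 < m) (hκ : orderOf κ = m)
    (hneg : κ (-1) = 1) (hζ : orderOf ζ = m + m) (Ψ : ℂ → ℂ) :
    ∑ χ ∈ stb (m + m) κ, Ψ (hh χ) * wt χ ζ =
      ∑ s ∈ m.divisors, ((s : ℂ) / m) * (Ψ (((Fintype.card F : ℂ) ^ (2 * s) - 1) ^ (m / s)) *
        (Acus F (2 * s) (κ ^ (m / s)) (ζ ^ (m / s)) -
        (if 2 * s ∣ m then Acus F (2 * s) (κ ^ (m / (2 * s))) (ζ ^ (m / s)) else 0))) +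
      (((Fintype.card F : ℂ) - 1) / m) * ∑ s ∈ m.divisors,
        ((ArithmeticFunction.moebius s : ℤ) : ℂ) *
          (Ψ (xx (Fintype.card F) m s / (Fintype.card F : ℂ) ^ m) + Ψ (xx (Fintype.card F) m s)
            - (1 / 2) * Ψ (yy (Fintype.card F) m s * yy (Fintype.card F) m s)) := by
  have hε : orderOf (ζ ^ 2) = m := by
    rw [orderOf_pow, hζ, show Nat.gcd (m + m) 2 = 2 from by
      rw [Nat.gcd_eq_right (by omega)]]
    omega
  obtain ⟨D⟩ := exists_dat (F := F) hm hκ hneg hε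
  obtain ⟨T⟩ := D.exists_two hTwo hm
  rw [sum_split hStr T hm hκ hneg hζ Ψ, add_assoc]
  congr 1
  · apply Finset.sum_congr rfl
    intro s hs
    rw [sum_Es hm (Nat.mem_divisors.mp hs).1 hκ]
  · rw [← hM F m hm (ζ ^ 2) hε, sum_offDiag']
    have hinv : ∀ ω : Fˣ →* ℂˣ, ((ω ζ : ℂˣ) : ℂ)⁻¹ * ((ω ζ : ℂˣ) : ℂ)⁻¹
        = ((ω (ζ ^ 2) : ℂˣ) : ℂ)⁻¹ := by
      intro ω
      rw [map_pow, Units.val_pow_eq_pow_val, sq, mul_inv]
    have hT : ∀ ω ω' : Fˣ →* ℂˣ, hh (D.T3 ω ω') = yy (Fintype.card F) m (orderOf (ω (ζ ^ 2))) *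
        yy (Fintype.card F) m (orderOf (ω' (ζ ^ 2))) := by
      intro ω ω'
      rw [D.T3_hh]
      rfl
    have h0 : ∑ a : Fˣ →* ℂˣ, ∑ b : Fˣ →* ℂˣ, Ψ (hh (D.T3 (a, b).1 (a, b).2)) *
        ((((a, b).1 ζ : ℂˣ) : ℂ)⁻¹ * (((a, b).2 ζ : ℂˣ) : ℂ)⁻¹) = 0 := by
      apply Finset.sum_eq_zero
      intro a _
      have h1 := sum_vanish hm hζ (fun k => Ψ (yy (Fintype.card F) m (orderOf (a (ζ ^ 2))) *
        yy (Fintype.card F) m k))
      have h2 : ∑ b : Fˣ →* ℂˣ, Ψ (hh (D.T3 (a, b).1 (a, b).2)) *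
        ((((a, b).1 ζ : ℂˣ) : ℂ)⁻¹ * (((a, b).2 ζ : ℂˣ) : ℂ)⁻¹)
        = ((a ζ : ℂˣ) : ℂ)⁻¹ * ∑ b : Fˣ →* ℂˣ, Ψ (yy (Fintype.card F) m (orderOf (a (ζ ^ 2))) *
        yy (Fintype.card F) m (orderOf (b (ζ ^ 2)))) * ((b ζ : ℂˣ) : ℂ)⁻¹ := by
        rw [Finset.mul_sum]
        apply Finset.sum_congr rfl
        intro b _
        rw [hT]
        ring
      rw [h2, h1, mul_zero]
    rw [h0, zero_sub, mul_neg, ← sub_eq_add_neg, Finset.mul_sum, ← Finset.sum_sub_distrib]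
    apply Finset.sum_congr rfl
    intro ω _
    have hP : hh (T.P ω) = xx (Fintype.card F) m (orderOf (ω (ζ ^ 2))) /
        (Fintype.card F : ℂ) ^ m := T.dP ω
    have hQ : hh (T.Q ω) = xx (Fintype.card F) m (orderOf (ω (ζ ^ 2))) := T.dQ ω
    rw [hP, hQ, hT, hinv]
    ring

end Vale.Agent.P275.H341
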