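import Vale.Agent.P275.H341.Sum5

/-!
# The recursion for the cuspidal sums
-/

set_option linter.style.haveILetI false
set_option linter.unusedSectionVars false

namespace Vale.Agent.P275.H341

open scoped BigOperators MatrixGroups
open Module Matrix Vale.Agent.P275.H85

variable {F : Type} [Field F] [Fintype F] [DecidableEq F]

theorem col_orth {G : Type} [Group G] [Fintype G] {z : G} (hz : z ≠ 1) :
    ∑ χ ∈ irrSet G, χ 1 * χ z⁻¹ = 0 := by
  classical
  have hf : IsClass (fun x : G => if x = 1 then (1 : ℂ) else 0) := by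
    intro g h
    by_cases hg : g = 1
    · subst hg
      simp
    · have : h * g * h⁻¹ ≠ 1 := by
        intro h'
        apply hg
        have h2 : h * g = h := by
          rw [mul_inv_eq_one] at h'
          exact h'
        exact mul_eq_left.mp h2
      simp [hg]
  have h2 := congrFun (expand _ hf) z⁻¹
  have hz' : z⁻¹ ≠ 1 := by
    intro h
    exact hz (inv_eq_one.mp h)
  have h3 : ∀ χ : G → ℂ, ip (fun x : G => if x = 1 then (1 : ℂ) else 0) χ
      = (Fintype.card G : ℂ)⁻¹ * χ 1 := by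
    intro χ
    unfold ip
    congr 1
    rw [Finset.sum_eq_single 1]
    · simp
    · intro b _ hb
      simp only [if_neg hb, zero_mul]
    · intro h
      exact absurd (Finset.mem_univ _) h
  rw [Finset.sum_apply, if_neg hz'] at h2
  have h4 : ∑ χ ∈ irrSet G, χ 1 * χ z⁻¹ = (Fintype.card G : ℂ) *
      ∑ χ ∈ irrSet G, (ip (fun x : G => if x = 1 then (1 : ℂ) else 0) χ • χ) z⁻¹ := by
    rw [Finset.mul_sum]
    apply Finset.sum_congr rfl
    intro χ _
    rw [h3, Pi.smul_apply, smul_eq_mul]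
    have := Irr.card_ne (G := G)
    field_simp
  rw [h4, ← h2, mul_zero]

theorem stb_one (n : ℕ) : stb n (1 : Fˣ →* ℂˣ) = irrSet (GL (Fin n) F) := by
  ext χ
  rw [mem_stb, mem_irrSet]
  constructor
  · exact fun h => h.1
  · intro h
    refine ⟨h, fun g => ?_⟩
    unfold tw
    simp

theorem scal_ne_one {n : ℕ} (hn : 0 < n) {z : Fˣ} (hz : z ≠ 1) : (scal n z : GL (Fin n) F) ≠ 1 := by
  intro h
  apply hz
  have h1 : (scal n z : GL (Fin n) F).val = 1 := by rw [h]; rfl
  have h2 := congrFun (congrFun h1 ⟨0, hn⟩) ⟨0, hn⟩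
  rw [Matrix.one_apply_eq] at h2
  have h3 : (scal n z : GL (Fin n) F).val ⟨0, hn⟩ ⟨0, hn⟩ = (z : F) := by
    simp [scal, Matrix.scalar_apply]
  rw [h3] at h2
  exact Units.ext h2

theorem one_neg {κ : Fˣ →* ℂˣ} (h : κ (-1) = 1) (k : ℕ) : (κ ^ k) (-1) = 1 := by
  rw [MonoidHom.pow_apply, h, one_pow]

open scoped Classical in
/-- the cuspidal sum for the full group -/
theorem first (hStr : RStr) (hTwo : RTwo) (hM : RMone) {z : Fˣ} (hz : orderOf z = 2) :
    Acus F 2 1 z = -(((Fintype.card F : ℂ) - 1) / 2) := by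
  have hz1 : z ≠ 1 := by
    intro h
    rw [h, orderOf_one] at hz
    omega
  have h1 := sum_formula (F := F) (m := 1) (κ := 1) (ζ := z) hStr hTwo hM Nat.one_pos orderOf_one
    (by simp) (by simpa using hz) (fun x => (x ^ 2)⁻¹)
  have hL : ∑ χ ∈ stb (1 + 1) (1 : Fˣ →* ℂˣ), (fun x : ℂ => (x ^ 2)⁻¹) (hh χ) * wt χ z = 0 := by
    rw [stb_one]
    have h2 := col_orth (G := GL (Fin (1 + 1)) F) (scal_ne_one (n := 1 + 1) (by norm_num) hz1)
    have h3 : ∑ χ ∈ irrSet (GL (Fin (1 + 1)) F), (fun x : ℂ => (x ^ 2)⁻¹) (hh χ) * wt χ z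
        = (((Fintype.card F : ℂ) ^ (Nat.choose (1 + 1) 2)) ^ 2 /
          (Fintype.card (GL (Fin (1 + 1)) F) : ℂ) ^ 2) *
          ∑ χ ∈ irrSet (GL (Fin (1 + 1)) F), χ 1 * χ (scal (1 + 1) z)⁻¹ := by
      rw [Finset.mul_sum]
      apply Finset.sum_congr rfl
      intro χ hχ
      have h4 := irr_one_ne (mem_irrSet.mp hχ)
      have h5 := Irr.card_ne (G := GL (Fin (1 + 1)) F)
      have h6 := q_ne (F := F)
      simp only [hh, wt]
      field_simp
    rw [h3, h2, mul_zero]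
  rw [hL] at h1
  have hq := q_ne (F := F)
  have hq1 : (Fintype.card F : ℂ) - 1 ≠ 0 := by
    have := q_pow_sub_ne (F := F) (k := 1) Nat.one_pos
    rwa [pow_one] at this
  have hq2 : (Fintype.card F : ℂ) ^ 2 - 1 ≠ 0 := q_pow_sub_ne (F := F) (k := 2) (by norm_num)
  rw [Nat.divisors_one, Finset.sum_singleton, Finset.sum_singleton] at h1
  simp only [xx, yy, Nat.div_one, pow_one, mul_one, Nat.cast_one, div_one,
    ArithmeticFunction.moebius_apply_one, Int.cast_one, one_mul] at h1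
  rw [if_neg (by norm_num), sub_zero] at h1
  have hq3 : (Fintype.card F : ℂ) + 1 ≠ 0 := by
    intro h
    apply hq2
    linear_combination ((Fintype.card F : ℂ) - 1) * h
  have hfac : (Fintype.card F : ℂ) ^ 2 - 1 = ((Fintype.card F : ℂ) - 1) * ((Fintype.card F : ℂ) + 1) := by
    ring
  rw [hfac] at h1
  field_simp at h1
  field_simp
  have h1p : (1 : Fˣ →* ℂˣ) ^ 1 = 1 := by
    apply MonoidHom.ext
    intro x
    rw [MonoidHom.pow_apply, pow_one]
  rw [h1p] at h1
  apply mul_left_cancel₀ hq1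
  linear_combination -h1

theorem ord_pow {G : Type} [Monoid G] {x : G} {n k : ℕ} (hx : orderOf x = n) (hn : 0 < n)
    (hk : k ∣ n) : orderOf (x ^ (n / k)) = k := by
  obtain ⟨l, rfl⟩ := hk
  have hl : 0 < l := Nat.pos_of_ne_zero (by rintro rfl; omega)
  have hk : 0 < k := Nat.pos_of_ne_zero (by rintro rfl; omega)
  rw [Nat.mul_div_cancel_left _ hk, orderOf_pow' x hl.ne', hx,
    Nat.gcd_eq_right (Dvd.intro_left k rfl), Nat.mul_div_cancel _ hl]

theorem hpow_mul (κ : Fˣ →* ℂˣ) (a b : ℕ) : κ ^ (a * b) = (κ ^ a) ^ b := by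
  apply MonoidHom.ext
  intro x
  rw [MonoidHom.pow_apply, MonoidHom.pow_apply, MonoidHom.pow_apply, pow_mul]

theorem ord_zeta {ζ : Fˣ} {m s : ℕ} (hζ : orderOf ζ = m + m) (hm : 0 < m) (hs : s ∣ m) :
    orderOf (ζ ^ (m / s)) = s + s := by
  obtain ⟨l, rfl⟩ := hs
  have hl : 0 < l := Nat.pos_of_ne_zero (by rintro rfl; omega)
  have hk : 0 < s := Nat.pos_of_ne_zero (by rintro rfl; omega)
  have h1 : s + s ∣ s * l + s * l := ⟨l, by ring⟩
  have h2 := ord_pow hζ (by omega) h1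
  rw [show (s * l + s * l) / (s + s) = l from by
    rw [show s * l + s * l = (s + s) * l from by ring, Nat.mul_div_cancel_left _ (by omega)]] at h2
  rwa [Nat.mul_div_cancel_left _ hk]

open scoped Classical in
theorem acus_val (hStr : RStr) (hTwo : RTwo) (hPair : RPair) (hM : RMone) (hM2 : RMtwo)
    (hM3 : RMthree) {m : ℕ} {κ : Fˣ →* ℂˣ} {ζ : Fˣ}
    (hm : 0 < m) (hκ : orderOf κ = m) (hneg : κ (-1) = 1) (hζ : orderOf ζ = m + m) :
    (∀ t, 2 * t ∣ m → Acus F (2 * t) (κ ^ (m / (2 * t))) (ζ ^ (m / t)) =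
      ((Fintype.card F : ℂ) - 1) / (2 * t) * ((ArithmeticFunction.moebius (2 * t) : ℤ) : ℂ)) ∧
    ∀ s, s ∣ m → Acus F (2 * s) (κ ^ (m / s)) (ζ ^ (m / s)) = if Odd s then
      -(((Fintype.card F : ℂ) - 1) / (2 * s)) * ((ArithmeticFunction.moebius s : ℤ) : ℂ) else 0 := by
  have hb : ∀ t, 2 * t ∣ m → Acus F (2 * t) (κ ^ (m / (2 * t))) (ζ ^ (m / t)) =
      ((Fintype.card F : ℂ) - 1) / (2 * t) * ((ArithmeticFunction.moebius (2 * t) : ℤ) : ℂ) := by
    intro t ht
    have ht0 : 0 < t := Nat.pos_of_ne_zero (by rintro rfl; simp at ht; omega)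
    rw [hM2 F (2 * t) (by omega) (κ ^ (m / (2 * t))) (ζ ^ (m / t)) (ord_pow hκ hm ht)
      (by rw [ord_zeta hζ hm (dvd_trans (Dvd.intro_left 2 rfl) ht)]; ring) (one_neg hneg _)]
    push_cast
    ring
  refine ⟨hb, ?_⟩
  apply hM3 m ((Fintype.card F : ℂ) - 1) (fun s => Acus F (2 * s) (κ ^ (m / s)) (ζ ^ (m / s)))
    (fun t => Acus F (2 * t) (κ ^ (m / (2 * t))) (ζ ^ (m / t))) hm hb
  intro s hs
  have hs0 : 0 < s := Nat.pos_of_dvd_of_pos hs hm
  by_cases h1 : s = 1
  · subst h1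
    rw [if_pos rfl, Nat.divisors_one, Finset.sum_singleton, if_neg (by norm_num)]
    have h2 := first (F := F) hStr hTwo hM (z := ζ ^ m) (by
      have := ord_zeta hζ hm (one_dvd m)
      rwa [Nat.div_one] at this)
    have h3 : κ ^ m = 1 := by rw [← hκ]; exact pow_orderOf_eq_one κ
    simp only [Nat.div_one, mul_one]
    rw [h3, h2]
    simp
  · rw [if_neg h1]
    have h2 := sum_formula (F := F) (m := s) (κ := κ ^ (m / s)) (ζ := ζ ^ (m / s)) hStr hTwo hM hs0
      (ord_pow hκ hm hs) (one_neg hneg _) (ord_zeta hζ hm hs) (fun _ => 1)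
    have h3 : ∑ χ ∈ stb (s + s) (κ ^ (m / s)), (fun _ : ℂ => (1 : ℂ)) (hh χ) * wt χ (ζ ^ (m / s))
        = 0 := by
      have := hPair F (s + s) (by omega) (κ ^ (m / s)) (ζ ^ (m / s)) (by
        intro h
        have h4 := ord_pow hκ hm hs
        rw [h, orderOf_one] at h4
        exact h1 h4.symm) (ord_zeta hζ hm hs)
      simp only [one_mul]
      exact this
    have h4 : ∑ t ∈ s.divisors, ((ArithmeticFunction.moebius t : ℤ) : ℂ) *
        ((fun _ : ℂ => (1 : ℂ)) (xx (Fintype.card F) s t / (Fintype.card F : ℂ) ^ s) +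
          (fun _ : ℂ => (1 : ℂ)) (xx (Fintype.card F) s t)
            - (1 / 2) * (fun _ : ℂ => (1 : ℂ)) (yy (Fintype.card F) s t * yy (Fintype.card F) s t))
        = 0 := by
      simp only []
      rw [← Finset.sum_mul]
      have h5 : ∑ t ∈ s.divisors, ArithmeticFunction.moebius t = if s = 1 then 1 else 0 := by
        rw [← ArithmeticFunction.coe_mul_zeta_apply, ArithmeticFunction.moebius_mul_coe_zeta,
          ArithmeticFunction.one_apply]
      rw [if_neg h1] at h5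
      have h6 : ∑ t ∈ s.divisors, ((ArithmeticFunction.moebius t : ℤ) : ℂ) = 0 := by
        rw [← Int.cast_sum, h5, Int.cast_zero]
      rw [h6, zero_mul]
    rw [h3, h4, mul_zero, add_zero] at h2
    refine Eq.trans ?_ h2.symm
    apply Finset.sum_congr rfl
    intro t ht
    have ht' := (Nat.mem_divisors.mp ht).1
    have ht0 : 0 < t := Nat.pos_of_dvd_of_pos ht' hs0
    have e1 : m / s * (s / t) = m / t := by
      obtain ⟨u, rfl⟩ := ht'
      obtain ⟨v, rfl⟩ := hs
      rw [Nat.mul_div_cancel_left _ hs0, Nat.mul_div_cancel_left _ ht0,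
        show t * u * v = t * (v * u) from by ring, Nat.mul_div_cancel_left _ ht0]
    have e2 : κ ^ (m / s * (s / t)) = (κ ^ (m / s)) ^ (s / t) := hpow_mul _ _ _
    have e3 : ζ ^ (m / s * (s / t)) = (ζ ^ (m / s)) ^ (s / t) := pow_mul _ _ _
    rw [← e2, ← e3, e1, one_mul]
    by_cases h2t : 2 * t ∣ s
    · rw [if_pos h2t, if_pos h2t]
      have e4 : m / s * (s / (2 * t)) = m / (2 * t) := by
        obtain ⟨u, rfl⟩ := h2t
        obtain ⟨v, rfl⟩ := hs
        rw [Nat.mul_div_cancel_left _ hs0, Nat.mul_div_cancel_left _ (by omega),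
          show 2 * t * u * v = 2 * t * (v * u) from by ring, Nat.mul_div_cancel_left _ (by omega)]
      have e5 : κ ^ (m / s * (s / (2 * t))) = (κ ^ (m / s)) ^ (s / (2 * t)) := hpow_mul _ _ _
      rw [← e5, e4]
    · rw [if_neg h2t, if_neg h2t]

end Vale.Agent.P275.H341
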