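import Vale.Agent.P275.H341.Sum6

/-!
# The closed formula for the sum over the stable characters
-/

set_option linter.style.haveILetI false
set_option linter.unusedSectionVars false

namespace Vale.Agent.P275.H341

open scoped BigOperators MatrixGroups
open Module Matrix Vale.Agent.P275.H85

variable {F : Type} [Field F] [Fintype F] [DecidableEq F]

/-- the polynomial of the primitive pieces -/
noncomputable def zz (q : ℂ) (m s : ℕ) : ℂ := (q ^ (2 * s) - 1) ^ (m / s)

open scoped Classical in
theorem closed (hStr : RStr) (hTwo : RTwo) (hPair : RPair) (hM : RMone) (hM2 : RMtwo)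
    (hM3 : RMthree) {m : ℕ} {κ : Fˣ →* ℂˣ} {ζ : Fˣ}
    (hm : 0 < m) (hκ : orderOf κ = m) (hneg : κ (-1) = 1) (hζ : orderOf ζ = m + m) (Ψ : ℂ → ℂ) :
    ∑ χ ∈ stb (m + m) κ, Ψ (hh χ) * wt χ ζ =
      (((Fintype.card F : ℂ) - 1) / m) * ∑ s ∈ m.divisors,
        ((ArithmeticFunction.moebius s : ℤ) : ℂ) *
          (Ψ (xx (Fintype.card F) m s / (Fintype.card F : ℂ) ^ m) + Ψ (xx (Fintype.card F) m s)
            - (1 / 2) * Ψ (yy (Fintype.card F) m s * yy (Fintype.card F) m s)
            - (1 / 2) * (if Odd m then Ψ (zz (Fintype.card F) m s) else 0)) := by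
  rw [sum_formula hStr hTwo hM hm hκ hneg hζ Ψ]
  obtain ⟨hb, ha⟩ := acus_val (F := F) hStr hTwo hPair hM hM2 hM3 hm hκ hneg hζ
  rw [Finset.mul_sum, Finset.mul_sum, ← Finset.sum_add_distrib]
  apply Finset.sum_congr rfl
  intro s hs
  have hs' := (Nat.mem_divisors.mp hs).1
  have hs0 : 0 < s := Nat.pos_of_dvd_of_pos hs' hm
  have hsc : (s : ℂ) ≠ 0 := by exact_mod_cast hs0.ne'
  have hmc : (m : ℂ) ≠ 0 := by exact_mod_cast hm.ne'
  have key : Acus F (2 * s) (κ ^ (m / s)) (ζ ^ (m / s)) -
        (if 2 * s ∣ m then Acus F (2 * s) (κ ^ (m / (2 * s))) (ζ ^ (m / s)) else 0)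
      = if Odd m then -(((Fintype.card F : ℂ) - 1) / (2 * s)) *
        ((ArithmeticFunction.moebius s : ℤ) : ℂ) else 0 := by
    rw [ha s hs']
    by_cases hmo : Odd m
    · have h1 : ¬ 2 * s ∣ m := by
        intro h
        have h2 : 2 ∣ m := dvd_trans (Dvd.intro s rfl) h
        exact (Nat.not_even_iff_odd.mpr hmo) (even_iff_two_dvd.mpr h2)
      have h2 : Odd s := by
        rw [← Nat.not_even_iff_odd]
        intro h
        exact (Nat.not_even_iff_odd.mpr hmo) (even_iff_two_dvd.mpr
          (dvd_trans (even_iff_two_dvd.mp h) hs'))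
      rw [if_neg h1, if_pos h2, if_pos hmo, sub_zero]
    · rw [if_neg hmo]
      by_cases hso : Odd s
      · have h2m : 2 ∣ m := even_iff_two_dvd.mp (Nat.not_odd_iff_even.mp hmo)
        have hcop : Nat.Coprime 2 s := (Nat.coprime_two_left).mpr hso
        have h1 : 2 * s ∣ m := hcop.mul_dvd_of_dvd_of_dvd h2m hs'
        rw [if_pos hso, if_pos h1, hb s h1]
        have h3 : ArithmeticFunction.moebius (2 * s) = - ArithmeticFunction.moebius s := by
          rw [ArithmeticFunction.isMultiplicative_moebius.map_mul_of_coprime hcop,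
            ArithmeticFunction.moebius_apply_prime Nat.prime_two, neg_one_mul]
        rw [h3, Int.cast_neg]
        ring
      · rw [if_neg hso]
        by_cases h1 : 2 * s ∣ m
        · rw [if_pos h1, hb s h1]
          have h3 : ArithmeticFunction.moebius (2 * s) = 0 := by
            apply ArithmeticFunction.moebius_eq_zero_of_not_squarefree
            intro h
            obtain ⟨t, ht⟩ := even_iff_two_dvd.mp (Nat.not_odd_iff_even.mp hso)
            have h4 := h 2 ⟨t, by rw [ht]; ring⟩
            exact absurd (Nat.isUnit_iff.mp h4) (by norm_num)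
          rw [h3]
          simp
        · rw [if_neg h1, sub_zero]
  rw [key]
  by_cases hmo : Odd m
  · rw [if_pos hmo, if_pos hmo]
    unfold zz
    field_simp
    ring
  · rw [if_neg hmo, if_neg hmo]
    ring

end Vale.Agent.P275.H341
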