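import Vale.Agent.P275.H341.Gen
import Vale.Agent.P275.H341.Ps
import Vale.Agent.P275.H769.Sq

/-!
# The parametrisation of the irreducible characters over one cuspidal character
-/

set_option linter.style.haveILetI false
set_option linter.unusedSectionVars false

namespace Vale.Agent.P275.H341

open scoped BigOperators MatrixGroups
open Module Matrix Vale.Agent.P275.H85

/-- the chosen data -/
structure Sys (F : Type) [Field F] [Fintype F] [DecidableEq F] where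
  H : PSH (IrrF F)
  con : Con F H
  X : IrrF F → ℕ → IrrF F
  S : IrrF F → (k : ℕ) → (Fin k → ℕ) → IrrF F
  hX : ∀ p, H.Pr p → H.Chain p (X p)
  hS : ∀ p, H.Pr p → H.Fam p (X p) (S p)
  hh_S : ∀ p, H.Pr p → ∀ k, ∀ lam ∈ Pt k,
    hh (S p k lam).2.1 = hk ((Fintype.card F : ℂ) ^ H.deg p) lam
  tw_S : ∀ p, H.Pr p → ∀ κ : Fˣ →* ℂˣ, ∀ k, ∀ lam ∈ Pt k,
    twI κ (S p k lam) = S (twI κ p) k lam

variable {F : Type} [Field F] [Fintype F] [DecidableEq F]

theorem exists_psi : ∃ ψ : AddChar F ℂ, ψ ≠ 1 := exists_addChar F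

theorem exists_sys (A1 : RowA1) (A2 : RowA2) (A6 : RowA6) (A7 : RowA7) (A8 : RowA8)
    (C1 : RowC1) (C2 : RowC2) (C3 : RowC3) (C4 : RowC4) (C5 : RowC5) : Nonempty (Sys F) := by
  obtain ⟨H, con⟩ := C1 F
  have hD := C3 F H con
  obtain ⟨w, hw, hrel⟩ := C2 F H con
  obtain ⟨ψ, hψ⟩ := exists_psi (F := F)
  have hq : ∀ n, 0 < n → (Fintype.card F : ℂ) ^ n ≠ 1 := by
    intro n hn h
    exact q_pow_sub_ne (F := F) hn (by rw [h, sub_self])
  have hwp : ∀ p, H.Pr p → w p = 1 := by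
    intro p hp
    obtain ⟨c, rfl⟩ := (C5 F H con p).mp hp
    have h1 := hw ψ hψ ⟨c.s, ⟨c.χ, c.irr⟩⟩
    rw [H769.whit_cusp c hψ] at h1
    exact_mod_cast h1
  have h7 := fun p hp => A7 _ H (fun a => (hh a.2.1)⁻¹) w (Fintype.card F : ℂ) hD hrel hq p hp
    (hwp p hp)
  have hex : ∀ p, ∃ (x : ℕ → IrrF F) (s : (k : ℕ) → (Fin k → ℕ) → IrrF F), H.Pr p →
      H.Chain p x ∧ w (x 2) = 0 ∧ H.Fam p x s := by
    intro p
    by_cases hp : H.Pr p
    · obtain ⟨⟨z, ⟨hz1, hz2⟩, _⟩, _⟩ := h7 p hp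
      obtain ⟨x, ⟨hx1, hx2⟩, _⟩ := A1 _ H p z hp hz1
      obtain ⟨s, hs⟩ := A2 _ H p x hp hx1
      exact ⟨x, s, fun _ => ⟨hx1, by rw [hx2]; exact hz2, hs⟩⟩
    · exact ⟨fun _ => H.one, fun _ _ => H.one, fun h => absurd h hp⟩
  choose X S hXS using hex
  have hhS : ∀ p, H.Pr p → ∀ k, ∀ lam ∈ Pt k,
      hh (S p k lam).2.1 = hk ((Fintype.card F : ℂ) ^ H.deg p) lam := by
    intro p hp k lam hlam
    obtain ⟨h1, h2, h3⟩ := hXS p hp
    have h4 := (A6 _ H p (X p) (S p) hp h1 h3).1 _ hD k lam hlam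
    have h5 := ((h7 p hp).2 (X p) h1 h2).2
    have h6 := A8 ((Fintype.card F : ℂ) ^ H.deg p) (pow_ne_zero _ q_ne) (by
      intro n hn
      rw [← pow_mul]
      exact hq _ (Nat.mul_pos hp.1 hn)) k lam hlam
    have h8 : (fun i => (hh (X p i).2.1)⁻¹) = fun i => ∏ t ∈ Finset.range i,
        (((Fintype.card F : ℂ) ^ H.deg p) ^ (t + 1) - 1)⁻¹ := by
      funext i
      rw [h5 i]
      apply Finset.prod_congr rfl
      intro t _
      rw [pow_mul]
    rw [h8] at h4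
    rw [← h4] at h6
    have h9 : hh (S p k lam).2.1 ≠ 0 := by
      intro h0
      rw [h0, _root_.inv_zero, zero_mul] at h6
      exact zero_ne_one h6
    field_simp at h6
    exact h6.symm
  have htS : ∀ p, H.Pr p → ∀ κ : Fˣ →* ℂˣ, ∀ k, ∀ lam ∈ Pt k,
      twI κ (S p k lam) = S (twI κ p) k lam := by
    intro p hp κ k lam hlam
    obtain ⟨τ, ht1, ht2, ht3⟩ := C4 F H con κ
    obtain ⟨h1, h2, h3⟩ := hXS p hp
    obtain ⟨g1, g2, g3⟩ := (A6 _ H p (X p) (S p) hp h1 h3).2.1 τ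
    have hwt : ∀ a, w (twI κ a) = w a := by
      intro a
      have e1 := hw ψ hψ (twI κ a)
      rw [ht3, ← hw ψ hψ a] at e1
      exact_mod_cast e1
    obtain ⟨h1', h2', h3'⟩ := hXS (τ.t p) g1
    obtain ⟨z, _, huniq⟩ := (h7 (τ.t p) g1).1
    have e2 : ∀ x, H.Chain (τ.t p) x → H.c (τ.t p) (τ.t p) (x 2) ≠ 0 := by
      intro x hx
      have := hx.cself 1 1
      rw [hx.first] at this
      rw [show (1 : ℕ) + 1 = 2 from rfl] at this
      omega
    have e3 : X (τ.t p) 2 = z := huniq _ ⟨e2 _ h1', h2'⟩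
    have e4 : τ.t (X p 2) = z := huniq _ ⟨e2 _ g2, by rw [ht1, hwt]; exact h2⟩
    have e5 : (fun i => τ.t (X p i)) = X (τ.t p) := by
      have hu := A1 _ H (τ.t p) z g1 (by rw [← e3]; exact e2 _ h1')
      exact hu.unique ⟨g2, e4⟩ ⟨h1', e3⟩
    rw [e5] at g3
    have e6 := (A6 _ H (τ.t p) (X (τ.t p)) (S (τ.t p)) g1 h1' h3').2.2 _ g3 k lam hlam
    rw [← ht1, ← ht1]
    exact e6
  exact ⟨⟨H, con, X, S, fun p hp => (hXS p hp).1, fun p hp => (hXS p hp).2.2, hhS, htS⟩⟩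

end Vale.Agent.P275.H341
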